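import Vale.Agent.P247.Stm

open scoped ContDiff RealInnerProductSpace Topology Manifold
open MeasureTheory Metric

namespace Vale.Agent.P247

open Vale.Agent.P204 Vale.Agent.P204.Setup

universe u

variable {X : Type u} [TopologicalSpace X] [T2Space X] [CompactSpace X]
  [SecondCountableTopology X] [MeasurableSpace X] [BorelSpace X]

namespace AL2Aux

theorem ari {Cd Ce a κ ε t : ℝ} (hCd : 0 ≤ Cd) (hCe : 0 ≤ Ce) (ha : 0 ≤ a) (hκ0 : 0 < κ)
    (hε : ε ≤ t) (t3 : t ≤ κ) (t5 : t * (Ce + 1) ≤ κ ^ 2) (t0 : 0 ≤ t) (Ct : ℝ) :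
    (Cd * Real.sqrt (1 + a) + Ce * (Ct + ε * a)) / κ + (κ + ε + κ) * a ≤
      Cd / κ + Cd ^ 2 / κ ^ 3 + Ce * Ct / κ + 5 * κ * a := by
  have hsq : Real.sqrt (1 + a) ≤ 1 + Real.sqrt a := by
    rw [Real.sqrt_le_left (by positivity)]
    nlinarith [Real.sq_sqrt ha, Real.sqrt_nonneg a]
  have hy : Cd * Real.sqrt a ≤ Cd ^ 2 / κ ^ 2 + κ ^ 2 * a := by
    have e1 : Cd * Real.sqrt a = (Cd / κ) * (κ * Real.sqrt a) := by field_simp
    have e2 : κ ^ 2 * a = (κ * Real.sqrt a) ^ 2 := by rw [mul_pow, Real.sq_sqrt ha]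
    rw [e1, e2, ← div_pow]
    nlinarith [sq_nonneg (Cd / κ - κ * Real.sqrt a), sq_nonneg (Cd / κ),
      sq_nonneg (κ * Real.sqrt a)]
  have hz : Ce * ε * a ≤ κ ^ 2 * a :=
    mul_le_mul_of_nonneg_right (by linarith [mul_le_mul_of_nonneg_left hε hCe]) ha
  have hβ : (Cd * Real.sqrt (1 + a) + Ce * (Ct + ε * a)) / κ ≤
      Cd / κ + Cd ^ 2 / κ ^ 3 + Ce * Ct / κ + 2 * κ * a := by
    rw [div_le_iff₀ hκ0]
    have e3 : (Cd / κ + Cd ^ 2 / κ ^ 3 + Ce * Ct / κ + 2 * κ * a) * κ =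
        Cd + (Cd ^ 2 / κ ^ 2 + κ ^ 2 * a) + Ce * Ct + κ ^ 2 * a := by
      field_simp
      ring
    rw [e3]
    linarith [mul_le_mul_of_nonneg_left hsq hCd]
  linarith [mul_le_mul_of_nonneg_right (hε.trans t3) ha]

end AL2Aux

theorem p_aL2 (h_step : S_step X) (h_enbd : S_enbd X) (h_domT : S_domT X) :
    S_aL2 X := by
  intro s M K R N ε₀ om σ b c T α μ β hM h hT hσ tri hZ hb hc hα
  rcases isEmpty_or_nonempty (Fin s.m) with hm | ⟨⟨i₀⟩⟩
  · exact ⟨0, le_rfl, fun i => (IsEmpty.false i).elim⟩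
  have anti : ∀ f, Anti s f → T f = 0 := fun f hf => by
    have e : ∀ x v, ev (f x) v (s.J x v) = 0 := fun x v => by
      rw [← hf.anti]
      exact ev_pm_J (s.J_sq x) _ v
    have p1 := hT.pos f hf.smooth.cont fun x v => (e x v).ge
    have p2 := hT.pos ((-1 : ℝ) • f) (hf.smooth.cont.smul _) fun x v => by
      rw [Pi.smul_apply, ev_smul, e, mul_zero]
    rw [map_smul, smul_eq_mul] at p2
    linarith
  have hασ : α σ = 0 := by
    have := hα σ tri.sa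
    rwa [hσ, s.sn_zero, mul_zero, abs_nonpos_iff] at this
  obtain ⟨C', hC', habs⟩ := h.abs_le_sn
  have hCt : 0 ≤ C' * T (s.ppF om) := mul_nonneg hC' (hT.pos _ h.smooth.cont.ppF h.pos_F)
  have hTb := fun φ (hφ : s.Smooth φ) => habs T hT.pos φ hφ.cont
  generalize C' * T (s.ppF om) = Ct at hCt hTb
  obtain ⟨c', C, hloc⟩ := h.locPos
  have hk := hM.ker i₀
  have hR := hk.Rpos
  have hε₀ := hk.epos
  obtain ⟨Cs, hCs, ε₁, hε₁, hstep⟩ := h_step s M K R N ε₀ hM 11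
  obtain ⟨Cd, hCd, hdom⟩ := h_domT s M K R N ε₀ om T α μ β hM h hT hZ hα 11
  obtain ⟨Ce, hCe, hen⟩ := h_enbd s M K R N ε₀ σ b c hM tri 11 0
  replace hen := hen T α Ct hCt hTb hασ hZ (by rw [anti b tri.hb, hb, add_zero])
    (by rw [anti c tri.hc, hc, add_zero])
  have hDα : ∀ i, DistBd 5 (s.lf α i) := fun i => s.distBd_of_sn_pm hα i
  have hDT : ∀ i, DistBd 5 (s.lf T i) := fun i => (hloc T μ hT i).distBd (s.good i) 5
  have hA : ∀ i, AntiF (s.Jl i) (s.lf α i) := fun i => s.antiF_of_sn_pm hα i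
  choose C₀ hC₀ h0 using fun i => (hDα i).lBd (n := 11) (by norm_num)
  set lam' : ℝ := 10 * Cs + 2 with hlam
  have hl2 : 2 ≤ lam' := by linarith
  have hl0 : 0 < lam' := by linarith
  set κ : ℝ := (lam' ^ 11)⁻¹ with hκ
  have hκ0 : 0 < κ := by positivity
  have hl11 : 1 ≤ lam' ^ 11 := one_le_pow₀ (by linarith)
  have hκ1 : κ ≤ 1 := inv_le_one_of_one_le₀ hl11
  set t₀ : ℝ := min (min (min (ε₁ / 2) (ε₀ / 2)) (min κ (1 / (11 * R + 1)))) (κ ^ 2 / (Ce + 1))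
    with ht₀
  have ht₀0 : 0 < t₀ := by positivity
  have t1 : t₀ ≤ ε₁ / 2 := (min_le_left _ _).trans ((min_le_left _ _).trans (min_le_left _ _))
  have t2 : t₀ ≤ ε₀ / 2 := (min_le_left _ _).trans ((min_le_left _ _).trans (min_le_right _ _))
  have t3 : t₀ ≤ κ := (min_le_left _ _).trans ((min_le_right _ _).trans (min_le_left _ _))
  have t4 : t₀ ≤ 1 / (11 * R + 1) :=
    (min_le_left _ _).trans ((min_le_right _ _).trans (min_le_right _ _))
  have t5 : t₀ * (Ce + 1) ≤ κ ^ 2 := (le_div_iff₀ (by positivity)).1 (min_le_right _ _)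
  have hq : 5 * Cs * κ * lam' ^ 10 ≤ 1 / 2 := by
    have e : κ * lam' ^ 10 = lam'⁻¹ := by
      rw [hκ]; field_simp
    rw [mul_assoc, e, ← div_eq_mul_inv, div_le_iff₀ hl0]
    linarith
  have hq0 : 5 * Cs * κ * lam' ^ 0 ≤ 1 / 2 := by
    refine le_trans ?_ hq
    have : lam' ^ 0 ≤ lam' ^ 10 := pow_le_pow_right₀ (by linarith) (by norm_num)
    gcongr
  have key := boot (fun t r a => ∀ i, LBd 11 (s.lf α i) t r a) 10 0 (t₀ := t₀) (c := 11 * R)
    (C₀ := ∑ i, C₀ i) (C₁ := Cs * (Cd / κ + Cd ^ 2 / κ ^ 3 + Ce * Ct / κ)) (q := 5 * Cs * κ)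
    (lam := lam') ht₀0 (by positivity)
    (by
      rw [le_div_iff₀ (by positivity)] at t4
      nlinarith)
    hl2 (by positivity) (Finset.sum_nonneg fun i _ => hC₀ i) (by positivity) hq hq0
    (fun t r r' a hr H i => (H i).mono_r hr)
    (fun t r a a' ht ha H i => (H i).mono_a ht.le ha)
    (fun t r a H i => LBd.of_forall fun η hη => H η hη i)
    (fun t ht i => by
      have ht1 : t ∈ Set.Ioc (0 : ℝ) 1 := ⟨ht.1, ht.2.trans (t3.trans hκ1)⟩
      refine (h0 i t ht1).mono_a ht.1.le ?_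
      have := ht.1
      have h5 : C₀ i ≤ ∑ j, C₀ j := Finset.single_le_sum (fun j _ => hC₀ j) (Finset.mem_univ i)
      gcongr)
    (fun ε hε r a hr hr3 ha H i => by
      have hε0 := hε.1
      have hεI : ε ∈ Set.Ioo 0 ε₀ := ⟨hε.1, by linarith [hε.2]⟩
      have hL2 : ∀ j, LBd 11 (s.lf α j) ε 2 a := fun j =>
        (H j).mono_r (by nlinarith [mul_nonneg hR hε0.le])
      have b1 : 0 ≤ Cd * Real.sqrt (1 + a) := by positivity
      have b2 : 0 ≤ Ce * (Ct + ε * a) := by positivity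
      have hs := hstep 5 T α hDT hDα hA ε ⟨hε.1, by linarith [hε.2]⟩ hεI.2
        (Cd * Real.sqrt (1 + a) + Ce * (Ct + ε * a)) a lam' κ r (by positivity) ha (by linarith)
        hκ0 hκ1 hr (by simpa using hr3)
        ⟨fun j => ((hdom ε hεI a ha hL2).dom j).imp fun g k =>
          ⟨k.1, k.2.1, k.2.2.1.trans (pow_le_pow_left₀ b1 (by linarith) 2), k.2.2.2⟩⟩
        (fun G G' k k' => (hen ε hεI a ha hL2 G G' k k').trans
          (pow_le_pow_left₀ b2 (by linarith) 2)) (by simpa using H) i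
      refine hs.mono_a (by positivity) ?_
      rw [pow_zero, inv_one, mul_one, ← hκ]
      exact (mul_le_mul_of_nonneg_left (AL2Aux.ari hCd hCe ha hκ0 hε.2 t3 t5 ht₀0.le Ct)
        hCs).trans_eq (by ring))
  exact ⟨2 * (Cs * (Cd / κ + Cd ^ 2 / κ ^ 3 + Ce * Ct / κ)), by positivity, fun i θ hθ =>
    abs_le_nL2_of_LBd (n := 11) ht₀0 (fun t ht => by simpa using key t ht i) θ hθ⟩

end Vale.Agent.P247
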