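import Vale.Agent.P247.Stm

open scoped ContDiff RealInnerProductSpace Topology Manifold
open MeasureTheory Metric

namespace Vale.Agent.P247

open Vale.Agent.P204 Vale.Agent.P204.Setup

universe u

namespace AbAux

open Vale.Agent.P204.Alg1Aux

theorem co (b c : W) (u : E) (i : Fin 4) : Ab b c u i =
    ∑ j : Fin 4, ∑ k : Fin 4,
      -2 * (wedge b b)⁻¹ * ev (hstar b) (eb k) (eb i) * ev c (eb j) (eb k) * u j := by
  simp only [Ab, div_eq_mul_inv, ContinuousLinearMap.sum_apply, ContinuousLinearMap.smul_apply,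
    ContinuousLinearMap.smulRight_apply, WithLp.ofLp_sum, Finset.sum_apply, PiLp.smul_apply,
    smul_eq_mul]
  rw [Finset.sum_eq_single i]
  · simp [eb]
  · intro j _ h
    simp [eb, h.symm]
  · simp

theorem c0 (b c : W) (u : E) : Ab b c u 0 = -2 * (wedge b b)⁻¹ *
    (-b 5 * (c 0 * u 0 - c 3 * u 2 - c 4 * u 3) + b 4 * (c 1 * u 0 + c 3 * u 1 - c 5 * u 3) -
      b 3 * (c 2 * u 0 + c 4 * u 1 + c 5 * u 2)) := by
  rw [co]
  simp [Fin.sum_univ_four, ev, eb, hs0, hs1, hs2, hs3, hs4, hs5]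
  ring

theorem c1 (b c : W) (u : E) : Ab b c u 1 = -2 * (wedge b b)⁻¹ *
    (b 5 * (-c 0 * u 1 - c 1 * u 2 - c 2 * u 3) - b 2 * (c 1 * u 0 + c 3 * u 1 - c 5 * u 3) +
      b 1 * (c 2 * u 0 + c 4 * u 1 + c 5 * u 2)) := by
  rw [co]
  simp [Fin.sum_univ_four, ev, eb, hs0, hs1, hs2, hs3, hs4, hs5]
  ring

theorem c2 (b c : W) (u : E) : Ab b c u 2 = -2 * (wedge b b)⁻¹ *
    (-b 4 * (-c 0 * u 1 - c 1 * u 2 - c 2 * u 3) + b 2 * (c 0 * u 0 - c 3 * u 2 - c 4 * u 3) -
      b 0 * (c 2 * u 0 + c 4 * u 1 + c 5 * u 2)) := by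
  rw [co]
  simp [Fin.sum_univ_four, ev, eb, hs0, hs1, hs2, hs3, hs4, hs5]
  ring

theorem c3 (b c : W) (u : E) : Ab b c u 3 = -2 * (wedge b b)⁻¹ *
    (b 3 * (-c 0 * u 1 - c 1 * u 2 - c 2 * u 3) - b 1 * (c 0 * u 0 - c 3 * u 2 - c 4 * u 3) +
      b 0 * (c 1 * u 0 + c 3 * u 1 - c 5 * u 3)) := by
  rw [co]
  simp [Fin.sum_univ_four, ev, eb, hs0, hs1, hs2, hs3, hs4, hs5]
  ring

theorem hr {b : W} (h : wedge b b ≠ 0) :
    (wedge b b)⁻¹ * (2 * (b 0 * b 5 - b 1 * b 4 + b 2 * b 3)) = 1 := by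
  rw [← inv_mul_cancel₀ h, wedge]
  ring

theorem one {b : W} (h : wedge b b ≠ 0) (c : W) (u v : E) : ev b (Ab b c u) v = ev c u v := by
  have k := hr h
  have : ev b (Ab b c u) v =
      (wedge b b)⁻¹ * (2 * (b 0 * b 5 - b 1 * b 4 + b 2 * b 3)) * ev c u v := by
    rw [ev, ev, c0, c1, c2, c3]
    ring
  rw [this, k, one_mul]

theorem nd {b : W} (h : wedge b b ≠ 0) (u : E) (hu : ∀ v, ev b u v = 0) : u = 0 := by
  have k := hr h
  have h0 := hu (eb 0)
  have h1 := hu (eb 1)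
  have h2 := hu (eb 2)
  have h3 := hu (eb 3)
  simp [ev, eb] at h0 h1 h2 h3
  generalize (wedge b b)⁻¹ = r at k
  have e0 : u 0 = 0 := by linear_combination (-u 0) * k + 2 * r * (b 5 * h1 - b 4 * h2 + b 3 * h3)
  have e1 : u 1 = 0 := by linear_combination (-u 1) * k + 2 * r * (-b 5 * h0 + b 2 * h2 - b 1 * h3)
  have e2 : u 2 = 0 := by linear_combination (-u 2) * k + 2 * r * (b 4 * h0 - b 2 * h1 + b 0 * h3)
  have e3 : u 3 = 0 := by linear_combination (-u 3) * k + 2 * r * (-b 3 * h0 + b 1 * h1 - b 0 * h2)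
  rw [sum_eb u, e0, e1, e2, e3]
  simp

theorem four {b : W} (h : wedge b b ≠ 0) (c : W) (u : E) :
    Ab b c (Ab b c u) - (2 * (wedge b c / wedge b b)) • Ab b c u +
      (wedge c c / wedge b b) • u = 0 := by
  have k := hr h
  have e : ∀ i, Ab b c (Ab b c u) i - 2 * (wedge b c * (wedge b b)⁻¹) * Ab b c u i +
      wedge c c * (wedge b b)⁻¹ * u i = 0 := by
    intro i
    fin_cases i <;>
      simp only [Fin.zero_eta, Fin.mk_one, Fin.reduceFinMk, Fin.isValue, c0, c1, c2, c3] <;>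
      generalize (wedge b b)⁻¹ = r at k ⊢ <;> unfold wedge
    · linear_combination (-2 * r * (c 0 * c 5 - c 1 * c 4 + c 2 * c 3) * u 0) * k
    · linear_combination (-2 * r * (c 0 * c 5 - c 1 * c 4 + c 2 * c 3) * u 1) * k
    · linear_combination (-2 * r * (c 0 * c 5 - c 1 * c 4 + c 2 * c 3) * u 2) * k
    · linear_combination (-2 * r * (c 0 * c 5 - c 1 * c 4 + c 2 * c 3) * u 3) * k
  ext i
  exact e i

end AbAux

theorem p_ab :
    S_ab := by
  intro b c h
  refine ⟨AbAux.one h c, fun u v => ?_, AbAux.nd h, AbAux.four h c⟩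
  rw [AbAux.one h, ev_swap b u, AbAux.one h, ev_swap c u]

theorem p_jb (h_ab : S_ab) :
    S_jb := by
  intro m a b c hD
  have h1 := hD 0 1 0 (Or.inr (Or.inl one_ne_zero))
  simp only [zero_smul, one_smul, zero_add, add_zero] at h1
  have hb : wedge b b ≠ 0 := fun h => by simp [h] at h1
  have hm : m ≠ 0 := fun h => by simp [h] at h1
  obtain ⟨a1, a2, -, a4⟩ := h_ab b c hb
  have h2 := hD 0 (-(wedge b c / wedge b b)) 1 (Or.inr (Or.inr one_ne_zero))
  simp only [zero_smul, one_smul, zero_add, wedge_add_left, wedge_add_right, wedge_smul_left,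
    wedge_smul_right, wedge_comm c b] at h2
  have hq : 0 < wedge c c / wedge b b - (wedge b c / wedge b b) ^ 2 := by
    refine lt_of_lt_of_eq (div_pos h2 h1) ?_
    field_simp
    ring
  have hs := Real.sq_sqrt hq.le
  have hs0 := (Real.sqrt_pos.2 hq).ne'
  have hJ : ∀ v, Jb b c v = (Real.sqrt (wedge c c / wedge b b - (wedge b c / wedge b b) ^ 2))⁻¹ •
      (Ab b c v - (wedge b c / wedge b b) • v) := fun v => rfl
  generalize Real.sqrt (wedge c c / wedge b b - (wedge b c / wedge b b) ^ 2) = s at hs hs0 hJ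
  generalize wedge b c / wedge b b = p at *
  generalize wedge c c / wedge b b = q at *
  have hk : s⁻¹ * s⁻¹ * (q - p ^ 2) = 1 := by
    rw [← hs]
    field_simp
  have JJ : ∀ v, Jb b c (Jb b c v) = -v := by
    intro v
    have e : Ab b c (Ab b c v) = (2 * p) • Ab b c v - q • v := by
      rw [← sub_eq_zero, ← a4 v]
      abel
    rw [hJ, hJ v, map_smul, map_sub, map_smul, e]
    match_scalars
    · ring
    · linear_combination (-1) * hk
  have sy : ∀ u v, ev b (Jb b c u) v = ev b u (Jb b c v) := by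
    intro u v
    have := a2 u v
    rw [hJ, hJ, ev_smul_left, ev_smul_right, sub_eq_add_neg, sub_eq_add_neg, ev_add_left,
      ev_add_right, ev_neg_left, ev_neg_right, ev_smul_left, ev_smul_right, this]
  have cm : ∀ u, Ab b c (Jb b c u) = Jb b c (Ab b c u) := fun u => by
    rw [hJ, hJ, map_smul, map_sub, map_smul]
  refine ⟨hb, hq, JJ, ext_ev fun u v => ?_, ext_ev fun u v => ?_⟩
  · rw [ev_pull, ev_neg, sy, JJ, ev_neg_right]
  · rw [ev_pull, ev_neg, ← a1, cm, sy, JJ, ev_neg_right, a1]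

end Vale.Agent.P247
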