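import Vale.Agent.P247.Stm

open scoped ContDiff RealInnerProductSpace Topology Manifold
open MeasureTheory Metric

namespace Vale.Agent.P247

open Vale.Agent.P204 Vale.Agent.P204.Setup

universe u

namespace AcsAux

theorem js_conj {J S Q : E →L[ℝ] E} {a b c : W} (h : JS J a b c) (h1 : ∀ v, S (Q v) = v)
    (h2 : ∀ v, Q (S v) = v) : JS (Q ∘L J ∘L S) (pull S a) (pull S b) (pull S c) := by
  have k : ∀ d : W, pull J d = -d → pull (Q ∘L J ∘L S) (pull S d) = -pull S d := fun d hd =>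
    ext_ev fun u v => by
      simp only [ev_pull, ev_neg, ContinuousLinearMap.comp_apply, h1]
      rw [← ev_pull J, hd, ev_neg]
  refine ⟨fun v => ?_, k b h.2.1, k c h.2.2.1, fun v hv => ?_⟩
  · simp only [ContinuousLinearMap.comp_apply, h1, h.1, map_neg, h2]
  · simp only [ev_pull, ContinuousLinearMap.comp_apply, h1]
    refine h.2.2.2 _ fun e => hv ?_
    rw [← h2 v, e, map_zero]

theorem def_pull {S : E →L[ℝ] E} {m : ℝ} {a b c : W} (h : Def3 m a b c) (hS : S.det ≠ 0) :
    Def3 (S.det * m) (pull S a) (pull S b) (pull S c) := fun x y z k => by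
  rw [← map_smul, ← map_smul, ← map_smul, ← map_add, ← map_add, wedge_pull,
    mul_div_mul_left _ _ hS]
  exact h x y z k

end AcsAux

variable {X : Type u} [TopologicalSpace X] [T2Space X] [CompactSpace X] [ChartedSpace E X]
  [IsManifold 𝓘(ℝ, E) ∞ X] [MeasurableSpace X] [BorelSpace X]

open Mo.InFormAux in
theorem p_acs (h_jt : S_jt) (h_uniq : S_uniq) :
    S_acs X := by
  intro m a b c ha hb hc hd
  have hJ : ∀ x, JS (Jt (a x) (b x) (c x)) (a x) (b x) (c x) := fun x => (h_jt _ _ _ _ (hd x)).1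
  refine ⟨fun x => Jt (a x) (b x) (c x), ⟨fun x => (hJ x).1, fun e he u => ?_⟩, hJ⟩
  have hs : ∀ φ : Form X, IsClosedForm (ofW φ) → ∀ z ∈ e.target, ContDiffAt ℝ ∞ (th φ e) z := by
    intro φ hφ z hz
    refine smooth_of_ev fun u v => ?_
    rw [← coef_eq (σ := ofW φ) fun _ _ _ => rfl]
    exact (hφ.smooth e he u v).contDiffAt (e.open_target.mem_nhds hz)
  have key : ∀ z ∈ e.target, ∃ m', Def3 m' (th a e z) (th b e z) (th c e z) ∧
      JS (mfE e (e.symm z) ∘L Jt (a (e.symm z)) (b (e.symm z)) (c (e.symm z)) ∘L mfS e z)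
        (th a e z) (th b e z) (th c e z) := fun z hz => by
    have h1 : ∀ v, mfS e (e (e.symm z)) (mfE e (e.symm z) v) = v :=
      Mo.mf_left he (e.map_target hz)
    have h2 : ∀ v, mfE e (e.symm z) (mfS e (e (e.symm z)) v) = v :=
      Mo.mf_right he (e.map_target hz)
    rw [e.right_inv hz] at h1 h2
    exact ⟨_, AcsAux.def_pull (hd _)
      (Alg2Aux.det_ne_zero (Function.LeftInverse.injective h2)), AcsAux.js_conj (hJ _) h1 h2⟩
  refine ContDiffOn.congr (f := fun z => Jt (th a e z) (th b e z) (th c e z) u)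
    (fun z hz => ?_) fun z hz => ?_
  · obtain ⟨m', h1, -⟩ := key z hz
    exact (((h_jt _ _ _ _ h1).2.comp z ((hs a ha z hz).prodMk
      ((hs b hb z hz).prodMk (hs c hc z hz)))).clm_apply contDiffAt_const).contDiffWithinAt
  · obtain ⟨m', h1, h2⟩ := key z hz
    exact congrArg (fun L : E →L[ℝ] E => L u) (h_uniq _ _ _ _ _ _ h1 h2 (h_jt _ _ _ _ h1).1)

end Vale.Agent.P247
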