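import Vale.Agent.P247.Stm

open scoped ContDiff RealInnerProductSpace Topology Manifold
open MeasureTheory Metric

namespace Vale.Agent.P247

open Vale.Agent.P204 Vale.Agent.P204.Setup

universe u

variable {X : Type u} [TopologicalSpace X] [T2Space X] [CompactSpace X]
  [SecondCountableTopology X] [MeasurableSpace X] [BorelSpace X]

namespace ApproxAux

omit [SecondCountableTopology X] [MeasurableSpace X] [BorelSpace X] in
theorem null_zero (s : Setup X) : Null s 0 :=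
  ⟨s.smooth_zero, s.closed_zero, fun φ _ _ => s.Int_zero_left φ⟩

/-- The null forms as a submodule. -/
def nullSub (s : Setup X) : Submodule ℝ (Form X) where
  carrier := {σ | Null s σ}
  zero_mem' := null_zero s
  add_mem' := fun {a b} ha hb => ⟨ha.smooth.add hb.smooth,
    ha.closed.add hb.closed ha.smooth hb.smooth, fun φ hφ hc => by
      rw [s.Int_add_left ha.smooth.cont hb.smooth.cont hφ.cont, ha.zero φ hφ hc,
        hb.zero φ hφ hc, add_zero]⟩
  smul_mem' := fun t a ha => ⟨ha.smooth.smul t, ha.closed.smul t, fun φ hφ hc => by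
      rw [s.Int_smul_left, ha.zero φ hφ hc, mul_zero]⟩

omit [SecondCountableTopology X] [MeasurableSpace X] [BorelSpace X] in
theorem null_of_ex (s : Setup X) {e : Form X} (he : e ∈ s.Ex) : Null s e :=
  ⟨(s.ex_smooth_closed he).1, (s.ex_smooth_closed he).2, fun _ hφ hc => s.stokes he hφ hc⟩

end ApproxAux

theorem p_approx (h_reg : S_reg X) (h_norm : S_norm X) :
    S_approx X := by
  intro s σ₀ b c hσ₀ hT k k'
  obtain ⟨C, hC, hreg⟩ := h_reg s σ₀ b c hσ₀ hT k k'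
  refine ⟨C + 1, by positivity, fun f hf hpm hfb hfc η hη => ?_⟩
  rcases (s.sn_nonneg (k + 5) f).eq_or_lt with h0 | h0
  · obtain rfl := s.eq_zero_of_sn hf h0.symm
    refine ⟨0, ApproxAux.null_zero s, ?_, ?_⟩
    · simp [sn_zero]
    · simp [sn_zero, pmF_zero, hη.le]
  have hb : 0 < (C + 1) * s.sn (k + 5) f := by positivity
  by_contra hcon
  have h : ∀ σ ∈ (ApproxAux.nullSub s).comap s.smSub.subtype,
      1 ≤ ((C + 1) * s.sn (k + 5) f)⁻¹ * s.sn k σ +
        η⁻¹ * s.sn k' (s.pmF ((⟨f, hf⟩ : s.smSub) - σ : s.smSub)) := by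
    intro σ hσ
    by_contra hlt
    push Not at hlt
    have k1 : 0 ≤ ((C + 1) * s.sn (k + 5) f)⁻¹ * s.sn k σ :=
      mul_nonneg (inv_pos.2 hb).le (s.sn_nonneg _ _)
    have k2 : 0 ≤ η⁻¹ * s.sn k' (s.pmF ((⟨f, hf⟩ : s.smSub) - σ : s.smSub)) :=
      mul_nonneg (inv_pos.2 hη).le (s.sn_nonneg _ _)
    refine hcon ⟨σ, hσ, (inv_mul_le_one₀ hb).1 (by linarith), ?_⟩
    have k3 : η⁻¹ * s.sn k' (s.pmF (f - σ)) ≤ 1 := by
      refine le_trans (le_of_eq rfl) (?_ : η⁻¹ *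
        s.sn k' (s.pmF ((⟨f, hf⟩ : s.smSub) - σ : s.smSub)) ≤ 1)
      linarith
    rw [pmF_sub, hpm] at k3
    exact (inv_mul_le_one₀ hη).1 k3
  obtain ⟨B, A, hB, hA, hZ, hAf⟩ := Vale.Agent.P204.ApproxAux.hb (V := s.smSub)
    ((ApproxAux.nullSub s).comap s.smSub.subtype)
    (p := fun φ => ((C + 1) * s.sn (k + 5) f)⁻¹ * s.sn k φ)
    (q := fun φ => η⁻¹ * s.sn k' (s.pmF φ))
    (fun φ => mul_nonneg (inv_pos.2 hb).le (s.sn_nonneg _ _))
    (fun φ => mul_nonneg (inv_pos.2 hη).le (s.sn_nonneg _ _))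
    (fun t φ => by rw [Submodule.coe_smul, s.sn_smul φ.2]; ring)
    (fun t φ => by rw [Submodule.coe_smul, pmF_smul, s.sn_smul (Smooth.pmF φ.2)]; ring)
    (fun φ φ' => by
      rw [← mul_add]
      exact mul_le_mul_of_nonneg_left (s.sn_add_le φ.2 φ'.2 k) (inv_pos.2 hb).le)
    (fun φ φ' => by
      rw [← mul_add, Submodule.coe_add, pmF_add]
      exact mul_le_mul_of_nonneg_left (s.sn_add_le (Smooth.pmF φ.2) (Smooth.pmF φ'.2) k')
        (inv_pos.2 hη).le) h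
  obtain ⟨B', hB'⟩ := B.exists_extend
  obtain ⟨A', hA'⟩ := A.exists_extend
  have eB : ∀ φ (hφ : s.Smooth φ), B' φ = B ⟨φ, hφ⟩ := fun φ hφ =>
    LinearMap.congr_fun hB' ⟨φ, hφ⟩
  have eA : ∀ φ (hφ : s.Smooth φ), A' φ = A ⟨φ, hφ⟩ := fun φ hφ =>
    LinearMap.congr_fun hA' ⟨φ, hφ⟩
  have hA1 : PmBd s A' k' η⁻¹ := fun φ hφ => by rw [eA φ hφ]; exact hA _
  obtain ⟨A'', β', hP, hb1, hc1, hagree⟩ :=
    h_norm s σ₀ b c A' k' η⁻¹ (-B' b) (-B' c) hT hA1
  have hK : KEx s B' A'' := by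
    intro e he
    have hn := ApproxAux.null_of_ex s he
    rw [hagree e hn.smooth.cont (hn.zero b hT.hb.smooth hT.hb.closed)
      (hn.zero c hT.hc.smooth hT.hc.closed), eB e hn.smooth, eA e hn.smooth]
    exact hZ _ hn
  have := hreg B' A'' _ β' (inv_pos.2 hb).le (fun φ hφ => by rw [eB φ hφ]; exact hB _) hP hK
    (by rw [hb1, add_neg_cancel]) (by rw [hc1, add_neg_cancel]) f hf
  rw [hagree f hf.cont hfb hfc, eA f hf, hAf, hpm, abs_one, mul_assoc, mul_left_comm,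
    ← div_eq_inv_mul, one_le_div hb] at this
  linarith

end Vale.Agent.P247
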