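import Vale.Agent.P247.Stm

open scoped ContDiff RealInnerProductSpace Topology Manifold
open MeasureTheory Metric

namespace Vale.Agent.P247

open Vale.Agent.P204 Vale.Agent.P204.Setup

universe u

variable {X : Type u} [TopologicalSpace X] [T2Space X] [CompactSpace X] [ChartedSpace E X]
  [IsManifold 𝓘(ℝ, E) ∞ X] [MeasurableSpace X] [BorelSpace X]

namespace BrAux

theorem pos_mul {d w m : ℝ} (h : 0 < d * w) (h' : 0 < w / m) : 0 < d * m := by
  have hm : m ≠ 0 := fun e => by simp [e] at h'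
  have hw : w ≠ 0 := fun e => by simp [e] at h'
  have e : d * m = d * w / (w / m) := by field_simp
  rw [e]
  exact div_pos h h'

theorem quo_eq {d w m : ℝ} (h : 0 < d * m) : d * w / (d * m) = w / m :=
  mul_div_mul_left _ _ (left_ne_zero_of_mul h.ne')

end BrAux

theorem p_br [SecondCountableTopology X] (h_br1 : S_br1 X) (h_rhoLoc : S_rhoLoc X) :
    S_br X := by
  intro μ ν s J c hμ hν hA hc hpos φ φ' hφ hφ'
  have hw : ∀ (a b : Form X) j y, wedge (s.loc j a y) (s.loc j b y) =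
      (s.P j ((s.ψ j).symm y)).det * wedge (a ((s.ψ j).symm y)) (b ((s.ψ j).symm y)) :=
    fun a b j y => wedge_pull _ _ _
  obtain ⟨D, hD⟩ : ∃ D : Fin s.m → E → ℝ, ∀ j y,
      D j y = (s.P j ((s.ψ j).symm y)).det * μ ((s.ψ j).symm y) bv := ⟨_, fun _ _ => rfl⟩
  have hD0 : ∀ j, ∀ y ∈ ball (0 : E) 10, 0 < D j y := fun j y hy => by
    rw [hD]
    exact BrAux.pos_mul ((hw c c j y).symm ▸ ((h_rhoLoc s c hc).1 j y hy).1) (hpos _)
  have hDc : ∀ j, ContinuousOn (D j) (ball 0 10) := fun j => by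
    rw [show D j = _ from funext (hD j)]
    exact (h_br1 μ ν s J hμ hν hA j).1
  obtain ⟨h, hh⟩ : ∃ h : Fin s.m → E → ℝ, ∀ j y,
      h j y = s.c j y * (wedge (s.loc j φ y) (s.loc j φ' y) / D j y) := ⟨_, fun _ _ => rfl⟩
  have ht : ∀ j, CTest 9 (h j) := fun j => by
    rw [show h j = _ from funext (hh j)]
    exact ((s.c_test j).ctest.smul_continuousOn (by norm_num : (1 : ℝ) < 10)
      ((AtlasIntAux.contOn_wedge (hφ j) (hφ' j)).div (hDc j) fun y hy => (hD0 j y hy).ne')).mono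
      (by norm_num)
  have e1 : (fun x => wedge (φ x) (φ' x) / μ x bv) = fun x => ∑ j, s.glob0 j (h j) x := by
    funext x
    rw [← one_mul (wedge (φ x) (φ' x) / μ x bv), ← s.sum_glob0_c x, Finset.sum_mul]
    refine Finset.sum_congr rfl fun j _ => ?_
    unfold glob0
    split_ifs with k
    · have h1 := hD0 j _ (mem_ball_zero_iff.2 (s.norm_lt_of_mem j k))
      rw [hD] at h1
      rw [hh, hw, hD, BrAux.quo_eq h1, (s.ψ j).left_inv k]
    · exact zero_mul _
  have hi := fun j => (h_br1 μ ν s J hμ hν hA j).2 (h j) (ht j)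
  rw [e1]
  refine ⟨integrable_finsetSum _ fun j _ => (hi j).1, ?_⟩
  rw [integral_finsetSum _ fun j _ => (hi j).1]
  refine Finset.sum_congr rfl fun j _ => (hi j).2.trans (integral_congr_ae (.of_forall fun y => ?_))
  show h j y * |_| = s.c j y * _
  rw [← hD, hh, mul_assoc]
  refine AtlasInt2Aux.c_eq s j y fun hy => ?_
  have h1 := hD0 j y (mem_ball_zero_iff.2 hy)
  rw [abs_of_pos h1, div_mul_cancel₀ _ h1.ne']

end Vale.Agent.P247
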