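import Vale.Agent.P247.Stm

open scoped ContDiff RealInnerProductSpace Topology Manifold
open MeasureTheory Metric

namespace Vale.Agent.P247

open Vale.Agent.P204 Vale.Agent.P204.Setup

universe u

namespace Br1Aux

theorem alt_det (m : E [⋀^Fin 4]→L[ℝ] ℝ) (L : E →L[ℝ] E) :
    m (fun i => L (bv i)) = L.det * m bv := by
  let b := (EuclideanSpace.basisFun (Fin 4) ℝ).toBasis
  have hb : ⇑b = bv := by
    funext i
    simp [b, bv]
  have h := congrArg (fun f => f ((L : E →ₗ[ℝ] E) ∘ b))
    (m.toAlternatingMap.eq_smul_basis_det b)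
  simp only [AlternatingMap.smul_apply, Module.Basis.det_comp, Module.Basis.det_self, mul_one,
    smul_eq_mul] at h
  rw [hb, mul_comm] at h
  exact h

variable {X : Type u} [TopologicalSpace X] [ChartedSpace E X]

theorem chart_eq {s : Setup X} {i : Fin s.m} {e : OpenPartialHomeomorph X E} {A : E ≃L[ℝ] E}
    {b : E} (μ : TopField X) (hs : (s.ψ i).source ⊆ e.source)
    (h1 : ∀ x ∈ (s.ψ i).source, s.ψ i x = A (e x - b))
    (h2 : ∀ x ∈ (s.ψ i).source, ∀ v, s.P i x v = Mo.InFormAux.mfS e (e x) (A.symm v)) {y : E}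
    (hy : y ∈ ball (0 : E) 10) : A.symm y + b ∈ e.target ∧
      e.symm (A.symm y + b) = (s.ψ i).symm y ∧
      (s.P i ((s.ψ i).symm y)).det * μ ((s.ψ i).symm y) bv =
        (A.symm : E →L[ℝ] E).det * vcoef μ e (A.symm y + b) := by
  rw [← s.target i] at hy
  have h4 := (s.ψ i).map_target hy
  have h5 : A.symm y + b = e ((s.ψ i).symm y) := by
    conv_lhs => rw [← (s.ψ i).right_inv hy, h1 _ h4]
    rw [A.symm_apply_apply, sub_add_cancel]
  have h6 : e.symm (A.symm y + b) = (s.ψ i).symm y := by rw [h5, e.left_inv (hs h4)]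
  refine ⟨h5 ▸ e.map_source (hs h4), h6, ?_⟩
  have h7 : s.P i ((s.ψ i).symm y) =
      Mo.InFormAux.mfS e (A.symm y + b) ∘L (A.symm : E →L[ℝ] E) := by
    ext1 v
    rw [h2 _ h4, h5]
    rfl
  have h8 : vcoef μ e (A.symm y + b) =
      (Mo.InFormAux.mfS e (A.symm y + b)).det * μ (e.symm (A.symm y + b)) bv :=
    alt_det (μ (e.symm (A.symm y + b))) (Mo.InFormAux.mfS e (A.symm y + b))
  have h9 : (Mo.InFormAux.mfS e (A.symm y + b) ∘L (A.symm : E →L[ℝ] E)).det =
      (Mo.InFormAux.mfS e (A.symm y + b)).det * (A.symm : E →L[ℝ] E).det :=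
    LinearMap.det_comp _ _
  rw [h7, h8, h9, h6]
  ring

end Br1Aux

variable {X : Type u} [TopologicalSpace X] [T2Space X] [CompactSpace X] [ChartedSpace E X]
  [IsManifold 𝓘(ℝ, E) ∞ X] [MeasurableSpace X] [BorelSpace X]

theorem p_br1 :
    S_br1 X := by
  intro μ ν s J hμ hν hA i
  have : SecondCountableTopology X := ChartedSpace.secondCountable_of_sigmaCompact E X
  obtain ⟨e, he, A, b, hs, h1, h2⟩ := hA.chart i
  have key := fun y (hy : y ∈ ball (0 : E) 10) => Br1Aux.chart_eq μ hs h1 h2 hy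
  obtain ⟨D, hD⟩ : ∃ D : E → ℝ,
    D = fun y => (s.P i ((s.ψ i).symm y)).det * μ ((s.ψ i).symm y) bv := ⟨_, rfl⟩
  have hD' : ∀ y ∈ ball (0 : E) 10,
      D y = (A.symm : E →L[ℝ] E).det * vcoef μ e (A.symm y + b) := fun y hy => by
    rw [hD]; exact (key y hy).2.2
  have hg : Continuous fun y : E => A.symm y + b := by fun_prop
  have hc : ContinuousOn D (ball 0 10) :=
    (continuousOn_const.mul ((hμ.smooth e he).continuousOn.comp hg.continuousOn
      fun y hy => (key y hy).1)).congr hD'
  have hm : s.lm ν i = (volume.restrict (ball (0 : E) 10)).withDensity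
      fun y => ENNReal.ofReal |D y| := by
    refine Measure.ext fun B hB => ?_
    have hB' : MeasurableSet (B ∩ ball (0 : E) 10) := hB.inter measurableSet_ball
    have hd : ∀ y ∈ B ∩ ball (0 : E) 10, HasFDerivWithinAt (fun y : E => A.symm y + b)
        (A.symm : E →L[ℝ] E) (B ∩ ball (0 : E) 10) y := fun y _ =>
      (A.symm.hasFDerivAt.add_const b).hasFDerivWithinAt
    have hi : Set.InjOn (fun y : E => A.symm y + b) (B ∩ ball (0 : E) 10) := fun y _ z _ h =>
      A.symm.injective (add_right_cancel h)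
    have e1 : (s.ψ i).source ∩ s.ψ i ⁻¹' B =
        e.symm '' ((fun y : E => A.symm y + b) '' (B ∩ ball (0 : E) 10)) := by
      ext x
      constructor
      · rintro ⟨hx, hxB⟩
        have hb : s.ψ i x ∈ ball (0 : E) 10 := s.target i ▸ (s.ψ i).map_source hx
        exact ⟨_, ⟨_, ⟨hxB, hb⟩, rfl⟩, (key _ hb).2.1.trans ((s.ψ i).left_inv hx)⟩
      · rintro ⟨_, ⟨y, ⟨hyB, hy⟩, rfl⟩, rfl⟩
        have hy' : y ∈ (s.ψ i).target := (s.target i).symm ▸ hy
        rw [(key y hy).2.1]
        exact ⟨(s.ψ i).map_target hy', by rwa [Set.mem_preimage, (s.ψ i).right_inv hy']⟩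
    rw [s.lm_apply ν i hB, withDensity_apply _ hB, Measure.restrict_restrict hB, e1,
      hν e he _ (measurable_image_of_fderivWithin hB' hd hi)
        (by rintro _ ⟨y, hy, rfl⟩; exact (key y hy.2).1),
      lintegral_image_eq_lintegral_abs_det_fderiv_mul volume hB' hd hi]
    refine setLIntegral_congr_fun hB' fun y hy => ?_
    simp only [hD' y hy.2, abs_mul, ENNReal.ofReal_mul (abs_nonneg _)]
  have ha : AEMeasurable (fun y => ENNReal.ofReal |D y|) (volume.restrict (ball (0 : E) 10)) :=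
    (hc.abs.aemeasurable measurableSet_ball).ennreal_ofReal
  have hl : ∀ᵐ y ∂volume.restrict (ball (0 : E) 10), ENNReal.ofReal |D y| < ⊤ :=
    Filter.Eventually.of_forall fun _ => ENNReal.ofReal_lt_top
  have e2 : ∀ h : E → ℝ, (fun y => (ENNReal.ofReal |D y|).toReal • h y) =
      fun y => h y * |D y| := fun h => funext fun y => by
    rw [ENNReal.toReal_ofReal (abs_nonneg _), smul_eq_mul, mul_comm]
  refine ⟨hD ▸ hc, fun h hh => ⟨?_, ?_⟩⟩
  · have i1 : IntegrableOn (fun y => h y * |D y|) (closedBall (0 : E) 9) :=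
      (hh.1.continuousOn.mul (hc.abs.mono (closedBall_subset_ball (by norm_num)))).integrableOn_compact
        (isCompact_closedBall _ _)
    have i2 : IntegrableOn (fun y => h y * |D y|) (ball (0 : E) 10) :=
      i1.of_forall_sdiff_eq_zero measurableSet_ball fun y hy => by
        rw [hh.2 y (by simpa using hy.2), zero_mul]
    have i3 : Integrable h (s.lm ν i) := by
      rw [hm, integrable_withDensity_iff_integrable_smul₀' ha hl, e2]
      exact i2
    have i4 := i3.comp_aemeasurable (s.aemeasurable_chart ν i)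
    have e3 : s.glob0 i h = (s.ψ i).source.indicator (h ∘ s.ψ i) := by
      funext x
      by_cases hx : x ∈ (s.ψ i).source <;> simp [glob0, hx]
    rw [e3, integrable_indicator_iff (s.measurableSet_source i)]
    exact i4
  · rw [← s.integral_lm ν i hh.1.measurable, hm,
      integral_withDensity_eq_integral_toReal_smul₀ ha hl, e2,
      setIntegral_eq_integral_of_forall_compl_eq_zero fun y hy => by
        rw [hh.2 y (lt_of_lt_of_le (by norm_num) (by simpa using hy : 10 ≤ ‖y‖)), zero_mul], hD]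

end Vale.Agent.P247
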