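import Vale.Agent.P247.Stm2
import Vale.Agent.P247.ExT1

open scoped ContDiff RealInnerProductSpace Topology Manifold
open MeasureTheory Metric

namespace Vale.Agent.P247

open Vale.Agent.P204 Vale.Agent.P204.Setup

universe u

variable {X : Type u} [TopologicalSpace X] [T2Space X] [CompactSpace X]
  [SecondCountableTopology X] [MeasurableSpace X] [BorelSpace X]

namespace ExT1LAux

open ExT1Aux

omit [SecondCountableTopology X] [MeasurableSpace X] [BorelSpace X] in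
theorem key {s : Setup X} {a a₁ c : Form X} {m : X → ℝ} [Nonempty X]
    (p3 : ∀ (t : ℝ) φ x, 0 ≤ t → rho s c (t • φ) x = t * rho s c φ x)
    (p4 : ∀ φ φ', s.Pos φ → s.Pos φ' → ∀ x,
      rho s c φ x + rho s c φ' x ≤ rho s c (φ + φ') x)
    (h : s.Tame a) (h1 : Null s (a₁ - a)) (h2 : s.pmF a₁ = 0)
    (hno : ¬∃ t, s.Compat t ∧ Null s (t - a) ∧ ∀ x, m x ≤ rho s c t x) {σ : Form X}
    (hσ : Null s σ) (hσ0 : s.pmF σ = 0) (t r : ℝ) (hp : s.Pos (σ + t • a₁ + r • s.ppF a))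
    (hm : ∀ x, t * m x ≤ rho s c (σ + t • a₁ + r • s.ppF a) x) : 0 ≤ r := by
  by_contra hr
  have hr' : 0 < -r := by linarith
  have hF : s.Smooth (s.ppF a) := h.smooth.ppF
  have e1 : a₁ = (a₁ - a) + a := by abel
  have s1 : s.Smooth a₁ := by rw [e1]; exact h1.smooth.add h.smooth
  have c1 : s.Closed a₁ := by rw [e1]; exact h1.closed.add h.closed h1.smooth h.smooth
  have su : s.Smooth (σ + t • a₁) := hσ.smooth.add (s1.smul t)
  have cu : s.Closed (σ + t • a₁) := hσ.closed.add (c1.smul t) hσ.smooth (s1.smul t)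
  have mu : s.pmF (σ + t • a₁) = 0 := by rw [pmF_add, pmF_smul, hσ0, h2, smul_zero, add_zero]
  have sw : s.Smooth (σ + t • a₁ + r • s.ppF a) := su.add (hF.smul r)
  have iu : s.Int (σ + t • a₁) a = t * s.Int a a := by
    have e := h1.zero a h.smooth h.closed
    rw [s.Int_sub_left s1.cont h.smooth.cont h.smooth.cont] at e
    rw [s.Int_add_left hσ.smooth.cont (s1.smul t).cont h.smooth.cont, s.Int_smul_left,
      hσ.zero a h.smooth h.closed, zero_add, sub_eq_zero.1 e]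
  generalize hu : σ + t • a₁ = u at *
  have e2 : u = (u + r • s.ppF a) + (-r) • s.ppF a := by rw [neg_smul]; abel
  have hV : 0 < s.Int a a := by
    rw [s.Int_split h.smooth.cont h.smooth.cont]
    linarith [h.Int_F_pos, s.Int_pm_nonneg a]
  have ha : s.Pos a := (s.pos_ppF_iff a).1 h.pos_F
  have iu' : 0 < s.Int u a := by
    rw [s.Int_split su.cont h.smooth.cont, mu, s.Int_zero_left, add_zero,
      ← s.Int_ppF_right su.cont h.smooth.cont, e2,
      s.Int_add_left sw.cont (hF.smul _).cont hF.cont, s.Int_smul_left,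
      s.Int_ppF_right sw.cont h.smooth.cont]
    linarith [s.Int_pp_nonneg hp ha, mul_pos hr' h.Int_F_pos]
  have ht : 0 < t := by rw [iu] at iu'; exact (mul_pos_iff_of_pos_right hV).1 iu'
  have hti : 0 < t⁻¹ := inv_pos.2 ht
  refine hno ⟨t⁻¹ • u, ⟨⟨su.smul _, cu.smul _, fun x b hb => ?_⟩, fun x => inv_of_pm ?_⟩, ?_,
    fun x => ?_⟩
  · have q1 := hp x b
    have q2 := h.pos x b hb
    rw [← ev_pp_J (s.J_sq x)] at q2
    rw [Pi.add_apply, Pi.smul_apply, ev_add, ev_smul, ppF] at q1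
    rw [Pi.smul_apply, ev_smul]
    exact mul_pos hti (by nlinarith [mul_pos hr' q2])
  · have q := congrFun (s.pmF_smul t⁻¹ u) x
    rw [mu, smul_zero] at q
    exact q
  · have e3 : t⁻¹ • u - a = t⁻¹ • σ + (a₁ - a) := by
      rw [← hu, smul_add, smul_smul, inv_mul_cancel₀ ht.ne', one_smul]; abel
    rw [e3]
    exact null_add (null_smul hσ _) h1
  · have q := p4 _ _ hp (pos_smul h.pos_F hr'.le) x
    rw [← e2] at q
    rw [p3 _ _ _ hti.le, le_inv_mul_iff₀ ht]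
    have p0 : 0 ≤ rho s c ((-r) • s.ppF a) x := Real.sqrt_nonneg _
    linarith [hm x]

omit [SecondCountableTopology X] in
theorem riesz (G : C(X, ℝ) →ₗ[ℝ] ℝ) (hG : ∀ f : C(X, ℝ), (∀ x, 0 ≤ f x) → 0 ≤ G f) :
    ∃ l : Measure X, IsFiniteMeasure l ∧ ∀ f : C(X, ℝ), ∫ x, f x ∂l = G f := by
  let L : CompactlySupportedContinuousMap X ℝ →ₗ[ℝ] ℝ :=
    { toFun := fun f => G f.toContinuousMap
      map_add' := fun f g => by
        rw [← map_add]
        rfl
      map_smul' := fun t f => by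
        rw [RingHom.id_apply, ← map_smul]
        rfl }
  have hL : ∀ f, 0 ≤ f → 0 ≤ L f := fun f hf => hG _ fun x => hf x
  let Λ := PositiveLinearMap.mk₀ L hL
  refine ⟨RealRMK.rieszMeasure Λ, inferInstance, fun f => ?_⟩
  let g : CompactlySupportedContinuousMap X ℝ := ⟨f, HasCompactSupport.of_compactSpace _⟩
  exact RealRMK.integral_rieszMeasure Λ g

end ExT1LAux

open ExT1Aux in
theorem p_exT1L (h_phi : S_phi X) (h_rhoAlg : S_rhoAlg X) (h_rhoLoc : S_rhoLoc X) :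
    S_exT1L X := by
  intro s a a₁ c m hX h hc h1 h2 hmc hno
  have p0 : ∀ φ x, 0 ≤ rho s c φ x := fun φ x => Real.sqrt_nonneg _
  have p3 : ∀ (t : ℝ) φ x, 0 ≤ t → rho s c (t • φ) x = t * rho s c φ x := fun t φ x ht =>
    (h_phi s c hc).2.2.1 (fun _ => t) φ x ht
  obtain ⟨p4, p5⟩ := h_rhoAlg s c hc
  obtain ⟨r0, hr0, hr0'⟩ := p5 a h
  have p6 := (h_rhoLoc s c hc).2
  have hF : s.Smooth (s.ppF a) := h.smooth.ppF
  have s1 : s.Smooth a₁ := by
    rw [show a₁ = (a₁ - a) + a by abel]; exact h1.smooth.add h.smooth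
  let mc : C(X, ℝ) := ⟨m, hmc⟩
  let Z : Submodule ℝ (s.contSub × C(X, ℝ)) :=
    { carrier := {p | ∃ (σ : Form X) (t : ℝ), Null s σ ∧ s.pmF σ = 0 ∧
        (p.1 : Form X) = σ + t • a₁ ∧ p.2 = t • mc}
      add_mem' := fun {p q} ⟨σ, t, b1, b2, b3, b4⟩ ⟨σ', t', d1, d2, d3, d4⟩ =>
        ⟨σ + σ', t + t', null_add b1 d1, by rw [pmF_add, b2, d2, add_zero], by
          rw [Prod.fst_add, Submodule.coe_add, b3, d3, add_smul]; abel, by
          rw [Prod.snd_add, b4, d4, add_smul]⟩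
      zero_mem' := ⟨0, 0, null_zero s, s.pmF_zero, by simp, by simp⟩
      smul_mem' := fun k p ⟨σ, t, b1, b2, b3, b4⟩ =>
        ⟨k • σ, k * t, null_smul b1 k, by rw [pmF_smul, b2, smul_zero], by
          rw [Prod.smul_fst, Submodule.coe_smul, b3, smul_add, smul_smul], by
          rw [Prod.smul_snd, b4, smul_smul]⟩ }
  let F : s.contSub × C(X, ℝ) := (⟨s.ppF a, hF.cont⟩, 0)
  let P : PointedCone ℝ (s.contSub × C(X, ℝ)) :=
    { carrier := {p | s.Pos p.1 ∧ ∀ x, p.2 x ≤ rho s c p.1 x}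
      add_mem' := fun {p q} hp hq => ⟨pos_add hp.1 hq.1, fun x =>
        (add_le_add (hp.2 x) (hq.2 x)).trans (p4 _ _ hp.1 hq.1 x)⟩
      zero_mem' := ⟨fun x v => by simp [ev_zero], fun x => p0 _ x⟩
      smul_mem' := fun t p hp => ⟨pos_smul hp.1 t.2, fun x =>
        (mul_le_mul_of_nonneg_left (hp.2 x) t.2).trans (p3 _ _ x t.2).ge⟩ }
  have hZ : ∀ z ∈ Z, ∀ r : ℝ, z + r • F ∈ P → 0 ≤ r := by
    rintro z ⟨σ, t, b1, b2, b3, b4⟩ r ⟨q1, q2⟩
    have e : ((z + r • F).1 : Form X) = σ + t • a₁ + r • s.ppF a := by rw [← b3]; rfl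
    have e' : (z + r • F).2 = t • mc := by rw [← b4]; simp [F]
    rw [e] at q1 q2
    rw [e'] at q2
    exact ExT1LAux.key p3 p4 h h1 h2 hno b1 b2 t r q1 q2
  have hFZ : F ∉ Z := fun hm => by
    have := hZ F hm (-1) (by rw [neg_one_smul ℝ F, add_neg_cancel]; exact P.zero_mem)
    linarith
  obtain ⟨f, hf0, hf1⟩ := LinearMap.exists_extend_of_notMem (0 : Z →ₗ[ℝ] ℝ) hFZ 1
  have hf0' : ∀ z ∈ Z, f z = 0 := fun z hz => LinearMap.congr_fun hf0 ⟨z, hz⟩
  obtain ⟨C₁, -, hC₁⟩ := h.pos_add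
  obtain ⟨g, hg, hg0⟩ := riesz_extension P
    (⟨Z ⊔ Submodule.span ℝ {F}, f.domRestrict _⟩ : (s.contSub × C(X, ℝ)) →ₗ.[ℝ] ℝ)
    (fun φ hφ => by
      obtain ⟨σ, hσ, w, hw, he⟩ := Submodule.mem_sup.1 φ.2
      obtain ⟨t, rfl⟩ := Submodule.mem_span_singleton.1 hw
      have h1 := hZ σ hσ t (by rw [he]; exact hφ)
      change 0 ≤ f φ
      rw [← he, map_add, map_smul, hf0' σ hσ, hf1]
      simpa using h1)
    (fun φ => ⟨⟨(C₁ * s.sn 0 φ.1 + ‖φ.2‖ / r0) • F, Submodule.mem_sup_right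
      (Submodule.smul_mem _ _ (Submodule.mem_span_singleton_self F))⟩, by
        have k0 : 0 ≤ ‖φ.2‖ / r0 := by positivity
        have e : (((C₁ * s.sn 0 φ.1 + ‖φ.2‖ / r0) • F + φ).1 : Form X) =
            ((C₁ * s.sn 0 φ.1) • s.ppF a + φ.1) + (‖φ.2‖ / r0) • s.ppF a := by
          rw [add_right_comm, ← add_smul]; rfl
        have e' : ((C₁ * s.sn 0 φ.1 + ‖φ.2‖ / r0) • F + φ).2 = φ.2 := by simp [F]
        refine ⟨?_, fun x => ?_⟩
        · rw [e]; exact pos_add (hC₁ _ φ.1.2).1 (pos_smul h.pos_F k0)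
        · have q := p4 _ _ (hC₁ _ φ.1.2).1 (pos_smul h.pos_F k0) x
          rw [p3 _ _ _ k0] at q
          have q1 := mul_le_mul_of_nonneg_left (hr0' x) k0
          rw [div_mul_cancel₀ _ hr0.ne'] at q1
          have q2 := φ.2.norm_coe_le_norm x
          rw [Real.norm_eq_abs] at q2
          rw [e, e']
          linarith [le_abs_self (φ.2 x), p0 ((C₁ * s.sn 0 φ.1) • s.ppF a + φ.1) x]⟩)
  obtain ⟨T, hT⟩ := LinearMap.exists_extend (g ∘ₗ LinearMap.inl ℝ s.contSub C(X, ℝ))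
  obtain ⟨l, hl, hl'⟩ := ExT1LAux.riesz (-(g ∘ₗ LinearMap.inr ℝ s.contSub C(X, ℝ))) fun v hv => by
    have q := hg0 (0, -v) ⟨fun x v => by simp [ev_zero], fun x =>
      le_trans (neg_nonpos.2 (hv x)) (p0 _ x)⟩
    have e : ((0, -v) : s.contSub × C(X, ℝ)) = -(0, v) := by simp
    rw [e, map_neg] at q
    exact q
  have he : ∀ (φ : s.contSub) (v : C(X, ℝ)), g (φ, v) = T φ - ∫ x, v x ∂l := fun φ v => by
    have e : T φ = g (φ, 0) := LinearMap.congr_fun hT φ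
    have e' : ∫ x, v x ∂l = -g (0, v) := hl' v
    rw [e, e', sub_neg_eq_add, ← map_add]
    simp
  have hgZ : ∀ z ∈ Z, g z = 0 := fun z hz => by
    rw [hg ⟨z, Submodule.mem_sup_left hz⟩]; exact hf0' z hz
  refine ⟨T, l, hl, fun φ q1 q2 => ?_, ?_, fun τ q1 q2 => ?_, ?_⟩
  · have q := hg0 (⟨φ, q1⟩, ⟨rho s c φ, p6 φ q1⟩) ⟨q2, fun x => le_rfl⟩
    rw [he] at q
    exact sub_nonneg.1 q
  · have q := hg ⟨F, Submodule.mem_sup_right (Submodule.mem_span_singleton_self F)⟩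
    have q' : g F = 1 := q.trans hf1
    rw [he] at q'
    simpa using q'
  · have q := hgZ (⟨τ, q1.smooth.cont⟩, 0) ⟨τ, 0, q1, q2, by simp, by simp⟩
    rw [he] at q
    simpa using q
  · have q := hgZ (⟨a₁, s1.cont⟩, mc) ⟨0, 1, null_zero s, s.pmF_zero, by simp, by simp⟩
    rw [he] at q
    exact sub_eq_zero.1 q

end Vale.Agent.P247
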