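import Vale.Agent.P247.Stm

open scoped ContDiff RealInnerProductSpace Topology Manifold
open MeasureTheory Metric

namespace Vale.Agent.P247

open Vale.Agent.P204 Vale.Agent.P204.Setup

universe u

variable {X : Type u} [TopologicalSpace X] [T2Space X] [CompactSpace X]
  [SecondCountableTopology X] [MeasurableSpace X] [BorelSpace X]

namespace ExTAux

omit [SecondCountableTopology X] [MeasurableSpace X] [BorelSpace X] [CompactSpace X] in
/-- Hahn-Banach on the smooth forms. -/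
theorem ext (s : Setup X) (Y : Submodule ℝ (Form X)) (hY : ∀ u ∈ Y, s.Smooth u) (L : GF X) {b : ℝ}
    (hb : 0 ≤ b) (h : ∀ u ∈ Y, L u ≤ b * s.sn 5 (s.pmF u)) :
    ∃ α : GF X, (∀ u ∈ Y, α u = L u) ∧ PmBd s α 5 b := by
  let Z : Submodule ℝ s.smSub := Y.comap s.smSub.subtype
  obtain ⟨g, hg, hle⟩ := exists_extension_of_le_sublinear
    (⟨Z, L ∘ₗ s.smSub.subtype ∘ₗ Z.subtype⟩ : s.smSub →ₗ.[ℝ] ℝ)
    (fun φ => b * s.sn 5 (s.pmF φ))
    (fun c hc φ => by
      simp only [Submodule.coe_smul]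
      rw [pmF_smul, s.sn_smul (Smooth.pmF φ.2), abs_of_pos hc]; ring)
    (fun φ φ' => by
      simp only [Submodule.coe_add]
      rw [pmF_add, ← mul_add]
      exact mul_le_mul_of_nonneg_left (s.sn_add_le (Smooth.pmF φ.2) (Smooth.pmF φ'.2) 5) hb)
    (fun σ => h _ σ.2)
  obtain ⟨α, hα⟩ := LinearMap.exists_extend g
  have he : ∀ φ : s.smSub, α φ = g φ := fun φ => LinearMap.congr_fun hα φ
  refine ⟨α, fun u hu => ?_, fun φ hφ => ?_⟩
  · have := hg ⟨⟨u, hY u hu⟩, hu⟩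
    rw [← he] at this
    exact this
  · have h1 := hle ⟨φ, hφ⟩
    have h2 := hle (-⟨φ, hφ⟩)
    rw [map_neg] at h2
    have h3 : s.pmF (-φ) = -s.pmF φ := by
      rw [← neg_one_smul ℝ φ, pmF_smul, neg_one_smul]
    simp only [Submodule.coe_neg] at h2
    rw [h3, s.sn_neg hφ.pmF] at h2
    rw [← he] at h1 h2
    exact abs_le.2 ⟨by linarith, h1⟩

theorem pm_int {s : Setup X} {b φ : Form X} (hb : Anti s b) (hφ : s.Smooth φ) :
    s.Int (s.pmF φ) b = s.Int φ b := by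
  have h0 : s.ppF b = 0 := by
    have := s.ppF_add_pmF b
    rwa [hb.anti, add_eq_right] at this
  rw [s.Int_split hφ.cont hb.smooth.cont, h0, hb.anti, s.Int_comm _ 0, s.Int_zero_left, zero_add]

/-- The null forms. -/
def nul (s : Setup X) : Submodule ℝ (Form X) where
  carrier := {σ | Null s σ}
  add_mem' h h' := ⟨h.smooth.add h'.smooth, h.closed.add h'.closed h.smooth h'.smooth,
    fun φ h1 h2 => by
      rw [s.Int_add_left h.smooth.cont h'.smooth.cont h1.cont, h.zero φ h1 h2, h'.zero φ h1 h2,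
        add_zero]⟩
  zero_mem' := ⟨s.smooth_zero, s.closed_zero, fun φ _ _ => s.Int_zero_left φ⟩
  smul_mem' t _ h := ⟨h.smooth.smul t, h.closed.smul t, fun φ h1 h2 => by
    rw [s.Int_smul_left, h.zero φ h1 h2, mul_zero]⟩

end ExTAux

open ExTAux in
theorem p_exT (h_surj : S_surj X) (h_exT1 : S_exT1 X) (h_norm : S_norm X) (h_phi : S_phi X) :
    S_exT X := by
  intro s a b c σ m hX ha hT hσ hT' hno
  obtain ⟨C₂, hC₂, hS⟩ := h_surj s σ b c hσ hT'
  obtain ⟨τ, t1, t2, -⟩ := hS _ ha.smooth.pmF (s.pmF_pmF a)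
    ((pm_int hT.hb ha.smooth).trans hT.ab) ((pm_int hT.hc ha.smooth).trans hT.ac)
  have t3 : τ ∈ nul s := t1
  obtain ⟨T, κ, hκ, hpos, hT1, hT0, hTa⟩ := h_exT1 s a (a - τ) c m hX ha hT.hc
    (by rw [sub_sub_cancel_left]; exact (nul s).neg_mem t3) (by rw [pmF_sub, t2, sub_self]) hno
  have hpos' : ∀ φ, s.Cont φ → s.Pos φ → 0 ≤ T φ := fun φ h1 h2 =>
    (mul_nonneg hκ ((h_phi s c hT.hc).1 φ)).trans (hpos φ h1 h2)
  obtain ⟨C₃, hC₃, hA⟩ := ha.abs_le_sn
  have hb : ∀ u ∈ nul s, |T u| ≤ C₃ * C₂ * s.sn 5 (s.pmF u) := fun u hu => by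
    have hu' : Null s u := hu
    obtain ⟨u', a1, a3, a4⟩ := hS _ hu'.smooth.pmF (s.pmF_pmF u)
      ((pm_int hT.hb hu'.smooth).trans (hu'.zero b hT.hb.smooth hT.hb.closed))
      ((pm_int hT.hc hu'.smooth).trans (hu'.zero c hT.hc.smooth hT.hc.closed))
    have a5 := hT0 _ ((nul s).sub_mem hu (show u' ∈ nul s from a1))
      (by rw [pmF_sub, a3, sub_self])
    rw [map_sub, sub_eq_zero] at a5
    have a6 := hA T hpos' u' a1.smooth.cont
    rw [hT1, mul_one] at a6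
    rw [a5, mul_assoc]
    exact a6.trans (mul_le_mul_of_nonneg_left a4 hC₃)
  have hna : a ∉ nul s := fun h => hT.va.ne' (Null.zero h a ha.smooth ha.closed)
  obtain ⟨f, hf0, hf1⟩ := LinearMap.exists_extend_of_notMem (0 : nul s →ₗ[ℝ] ℝ) hna (κ * m)
  have hf0' : ∀ u ∈ nul s, f u = 0 := fun u hu => LinearMap.congr_fun hf0 ⟨u, hu⟩
  obtain ⟨α, h1, h2⟩ := ext s (nul s ⊔ Submodule.span ℝ {a}) (fun u hu => by
      obtain ⟨v, hv, w, hw, rfl⟩ := Submodule.mem_sup.1 hu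
      obtain ⟨t, rfl⟩ := Submodule.mem_span_singleton.1 hw
      exact (Null.smooth hv).add (ha.smooth.smul t)) (f - T) (b := C₃ * C₂) (by positivity)
    fun u hu => by
      obtain ⟨v, hv, w, hw, rfl⟩ := Submodule.mem_sup.1 hu
      obtain ⟨t, rfl⟩ := Submodule.mem_span_singleton.1 hw
      have a1 := hb _ ((nul s).add_mem hv ((nul s).smul_mem t t3))
      rw [pmF_add, pmF_smul, t2, ← pmF_smul, ← pmF_add] at a1
      refine le_trans (le_of_eq ?_) ((neg_le_abs _).trans a1)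
      rw [map_sub] at hTa
      simp only [LinearMap.sub_apply, map_add, map_smul, hf0' v hv, hf1, smul_eq_mul]
      linear_combination (-t) * hTa
  obtain ⟨α', β', b1, b2, b3, b4⟩ := h_norm s a b c α 5 _ 0 0 hT h2
  refine ⟨T, α', κ, β', hκ, hpos, hT1, fun e he => ?_, ?_, b2, b3, b1⟩
  · have e1 := s.ex_smooth_closed he
    have e2 : e ∈ nul s := ⟨e1.1, e1.2, fun φ => s.stokes he⟩
    rw [b4 e e1.1.cont (s.stokes he hT.hb.smooth hT.hb.closed)
      (s.stokes he hT.hc.smooth hT.hc.closed), h1 e (Submodule.mem_sup_left e2),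
      LinearMap.sub_apply, hf0' e e2]
    ring
  · rw [b4 a ha.smooth.cont hT.ab hT.ac,
      h1 a (Submodule.mem_sup_right (Submodule.mem_span_singleton_self a)),
      LinearMap.sub_apply, hf1]
    ring

end Vale.Agent.P247
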