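import Vale.Agent.P247.Stm2
import Vale.Agent.P247.ExT

open scoped ContDiff RealInnerProductSpace Topology Manifold
open MeasureTheory Metric

namespace Vale.Agent.P247

open Vale.Agent.P204 Vale.Agent.P204.Setup

universe u

variable {X : Type u} [TopologicalSpace X] [T2Space X] [CompactSpace X]
  [SecondCountableTopology X] [MeasurableSpace X] [BorelSpace X]

open ExTAux in
theorem p_exTL (h_surj : S_surj X) (h_exT1L : S_exT1L X) (h_norm : S_norm X) :
    S_exTL X := by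
  intro s a b c σ h hX ha hT hσ hT' hh hno
  obtain ⟨C₂, hC₂, hS⟩ := h_surj s σ b c hσ hT'
  obtain ⟨τ, t1, t2, -⟩ := hS _ ha.smooth.pmF (s.pmF_pmF a)
    ((pm_int hT.hb ha.smooth).trans hT.ab) ((pm_int hT.hc ha.smooth).trans hT.ac)
  have t3 : τ ∈ nul s := t1
  obtain ⟨T, l, hl, hpos, hT1, hT0, hTa⟩ := h_exT1L s a (a - τ) c h hX ha hT.hc
    (by rw [sub_sub_cancel_left]; exact (nul s).neg_mem t3) (by rw [pmF_sub, t2, sub_self]) hh hno
  have hpos' : ∀ φ, s.Cont φ → s.Pos φ → 0 ≤ T φ := fun φ h1 h2 =>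
    (integral_nonneg fun _ => Real.sqrt_nonneg _).trans (hpos φ h1 h2)
  obtain ⟨C₃, hC₃, hA⟩ := ha.abs_le_sn
  have hb : ∀ u ∈ nul s, |T u| ≤ C₃ * C₂ * s.sn 5 (s.pmF u) := fun u hu => by
    have hu' : Null s u := hu
    obtain ⟨u', a1, a3, a4⟩ := hS _ hu'.smooth.pmF (s.pmF_pmF u)
      ((pm_int hT.hb hu'.smooth).trans (hu'.zero b hT.hb.smooth hT.hb.closed))
      ((pm_int hT.hc hu'.smooth).trans (hu'.zero c hT.hc.smooth hT.hc.closed))
    have a5 := hT0 _ ((nul s).sub_mem hu (show u' ∈ nul s from a1))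
      (by rw [pmF_sub, a3, sub_self])
    rw [map_sub, sub_eq_zero] at a5
    have a6 := hA T hpos' u' a1.smooth.cont
    rw [hT1, mul_one] at a6
    rw [a5, mul_assoc]
    exact a6.trans (mul_le_mul_of_nonneg_left a4 hC₃)
  have hna : a ∉ nul s := fun h => hT.va.ne' (Null.zero h a ha.smooth ha.closed)
  obtain ⟨f, hf0, hf1⟩ := LinearMap.exists_extend_of_notMem (0 : nul s →ₗ[ℝ] ℝ) hna
    (∫ x, h x ∂l)
  have hf0' : ∀ u ∈ nul s, f u = 0 := fun u hu => LinearMap.congr_fun hf0 ⟨u, hu⟩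
  obtain ⟨α, h1, h2⟩ := ext s (nul s ⊔ Submodule.span ℝ {a}) (fun u hu => by
      obtain ⟨v, hv, w, hw, rfl⟩ := Submodule.mem_sup.1 hu
      obtain ⟨t, rfl⟩ := Submodule.mem_span_singleton.1 hw
      exact (Null.smooth hv).add (ha.smooth.smul t)) (f - T) (b := C₃ * C₂) (by positivity)
    fun u hu => by
      obtain ⟨v, hv, w, hw, rfl⟩ := Submodule.mem_sup.1 hu
      obtain ⟨t, rfl⟩ := Submodule.mem_span_singleton.1 hw
      have a1 := hb _ ((nul s).add_mem hv ((nul s).smul_mem t t3))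
      rw [pmF_add, pmF_smul, t2, ← pmF_smul, ← pmF_add] at a1
      refine le_trans (le_of_eq ?_) ((neg_le_abs _).trans a1)
      rw [map_sub] at hTa
      simp only [LinearMap.sub_apply, map_add, map_smul, hf0' v hv, hf1, smul_eq_mul]
      linear_combination (-t) * hTa
  obtain ⟨α', β', b1, b2, b3, b4⟩ := h_norm s a b c α 5 _ 0 0 hT h2
  refine ⟨T, α', l, β', hl, hpos, hT1, fun e he => ?_, ?_, b2, b3, b1⟩
  · have e1 := s.ex_smooth_closed he
    have e2 : e ∈ nul s := ⟨e1.1, e1.2, fun φ => s.stokes he⟩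
    rw [b4 e e1.1.cont (s.stokes he hT.hb.smooth hT.hb.closed)
      (s.stokes he hT.hc.smooth hT.hc.closed), h1 e (Submodule.mem_sup_left e2),
      LinearMap.sub_apply, hf0' e e2]
    ring
  · rw [b4 a ha.smooth.cont hT.ab hT.ac,
      h1 a (Submodule.mem_sup_right (Submodule.mem_span_singleton_self a)),
      LinearMap.sub_apply, hf1]
    ring

end Vale.Agent.P247
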