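import Vale.Agent.P247.Stm2

open scoped ContDiff RealInnerProductSpace Topology Manifold
open MeasureTheory Metric

namespace Vale.Agent.P247

open Vale.Agent.P204 Vale.Agent.P204.Setup

universe u

namespace Fub1Aux

theorem sub_var (g : E → ℝ) (y : E) {ε : ℝ} (hε : 0 < ε) :
    (ε ^ 4)⁻¹ * ∫ x, g x = ∫ z, g (y + ε • z) := by
  have h := Measure.integral_comp_smul_of_nonneg (volume : Measure E) (fun x => g (y + x)) ε
    (hR := hε.le)
  rw [h, integral_add_left_eq_self g y, finrank_euclideanSpace_fin, smul_eq_mul]

end Fub1Aux

theorem p_fub1 :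
    S_fub1 := by
  intro K R l w f ε hK hl hw hf hε
  let G : E → E → ℝ := fun x y => ev (kerAt K w ε x om0 y) (eb 0) (eb 1)
  have e : ∀ x y, G x y =
      w y * (ε ^ 4)⁻¹ * ev (K (ε, y, ε⁻¹ • (x - y)) om0) (eb 0) (eb 1) := fun x y => ev_smul _ _ _ _
  have cG : Continuous (Function.uncurry G) := by
    have h1 : Continuous fun p : E × E => K (ε, p.2, ε⁻¹ • (p.1 - p.2)) om0 :=
      (hK.smooth.continuous.comp (by fun_prop)).clm_apply continuous_const
    have h2 := (contDiff_ev3 (n := 0)).continuous.comp
      (h1.prodMk (continuous_const (y := (eb 0, eb 1))))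
    exact (((hw.1.comp continuous_snd).mul continuous_const).mul h2).congr fun p => (e _ _).symm
  have z : ∀ x y, 6 < ‖y‖ → G x y = 0 := fun x y hy => by rw [e, hw.2 y hy, zero_mul, zero_mul]
  constructor
  · refine (continuous_parametric_integral_of_continuous (μ := l) cG
      (isCompact_closedBall (0 : E) 6)).congr fun x => ?_
    exact setIntegral_eq_integral_of_forall_compl_eq_zero fun y hy =>
      z x y (by simpa using hy)
  · have hi : Integrable (Function.uncurry fun x y => f x * G x y) (volume.prod l) := by
      refine Continuous.integrable_of_hasCompactSupport ((hf.1.comp continuous_fst).mul cG) ?_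
      refine HasCompactSupport.intro
        ((isCompact_closedBall (0 : E) 1).prod (isCompact_closedBall (0 : E) 6)) fun p hp => ?_
      simp only [Set.mem_prod, mem_closedBall_zero_iff, not_and_or, not_le] at hp
      show f p.1 * G p.1 p.2 = 0
      rcases hp with hp | hp
      · rw [hf.2 _ hp, zero_mul]
      · rw [z _ _ hp, mul_zero]
    have h1 : ∀ x, f x * rk K l w ε x = ∫ y, f x * G x y ∂l := fun x =>
      (integral_const_mul _ _).symm
    simp only [h1]
    rw [integral_integral_swap hi]
    refine integral_congr_ae (Filter.Eventually.of_forall fun y => ?_)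
    have h2 := Fub1Aux.sub_var
      (fun x => f x * ev (K (ε, y, ε⁻¹ • (x - y)) om0) (eb 0) (eb 1)) y hε
    simp only [add_sub_cancel_left, smul_smul, inv_mul_cancel₀ hε.ne', one_smul] at h2
    show ∫ x, f x * G x y = w y * av K f ε y
    rw [av, ← h2, ← mul_assoc, ← integral_const_mul]
    refine integral_congr_ae (Filter.Eventually.of_forall fun x => ?_)
    show f x * G x y = _
    rw [e]
    ring

end Vale.Agent.P247
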