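import Vale.Agent.P247.Stm

open scoped ContDiff RealInnerProductSpace Topology Manifold
open MeasureTheory Metric

namespace Vale.Agent.P247

open Vale.Agent.P204 Vale.Agent.P204.Setup

universe u

namespace KregLorAux

theorem ev01 : ev om0 (eb 0) (eb 1) = 1 := by
  simp [ev, om0, eb]

theorem ctest_sqrt {J : E → E →L[ℝ] E} (hJ : GoodJ J) {q : E → ℝ}
    (hq : ContinuousOn q (ball 0 10)) {θ : E → W} (hθ : CTest 6 θ) :
    CTest 6 fun y => Real.sqrt (q y * wedge (pp (J y) (θ y)) (pp (J y) (θ y))) := by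
  have h1 : CTest 6 fun y => pp (J y) (θ y) := hθ.clm_apply hJ.contDiff_pp.continuous
  have h2 := KregEstAux.ctest_wedge (r' := 10) h1 (by norm_num) h1.1.continuousOn
  have h3 := h2.smul_continuousOn (r' := 10) (by norm_num) hq
  have h4 : CTest 6 fun y => q y * wedge (pp (J y) (θ y)) (pp (J y) (θ y)) := by
    simpa only [smul_eq_mul, mul_comm] using h3
  exact ⟨h4.1.sqrt, fun y hy => by
    have h5 : q y * wedge (pp (J y) (θ y)) (pp (J y) (θ y)) = 0 := h4.2 y hy
    simp only [h5, Real.sqrt_zero]⟩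

theorem pt {A : W →L[ℝ] W} {a b : W} {c q η : ℝ} (hc : 0 ≤ c) (hq : 0 ≤ q)
    (h : η * ev b (eb 0) (eb 1) ≤ Real.sqrt (wedge (A a) (A a))) :
    η * wedge (c • b) (Real.sqrt q • zeta (eb 0) (eb 1)) ≤
      Real.sqrt (q * wedge (A (c • a)) (A (c • a))) := by
  rw [wedge_smul_right, wedge_zeta, ev_smul, map_smul, wedge_smul_left, wedge_smul_right,
    Real.sqrt_mul hq, ← mul_assoc c c, Real.sqrt_mul (mul_self_nonneg c), Real.sqrt_mul_self hc]
  have := mul_le_mul_of_nonneg_left h (mul_nonneg (Real.sqrt_nonneg q) hc)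
  nlinarith

end KregLorAux

theorem p_kregLor (h_kerLor : S_kerLor) :
    S_kregLor := by
  intro K R N ε₀ J L q κ hK hJ hq hq0 hκ hL η η0 η1
  obtain ⟨θ₁, p1, h1⟩ := h_kerLor K R N ε₀ J hK hJ (η / 2) (by positivity) (by linarith)
  have hs : closedBall (0 : E) 1 ⊆ ball 0 10 := closedBall_subset_ball (by norm_num)
  obtain ⟨x₀, hx₀, hm⟩ := (isCompact_closedBall (0 : E) 1).exists_isMinOn
    ⟨0, mem_closedBall_self zero_le_one⟩ (hq.mono hs)
  have s0 : 0 < Real.sqrt (q x₀) := Real.sqrt_pos.2 (hq0 x₀ (hs hx₀))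
  have hF : ContinuousOn (fun y => Real.sqrt (q y) • zeta (eb 0) (eb 1)) (ball (0 : E) 10) :=
    hq.sqrt.smul continuousOn_const
  obtain ⟨ε₁, q1, h2⟩ := hK.tendsto_wedge hF (η := η * Real.sqrt (q x₀) / 4) (by positivity)
  refine ⟨min θ₁ (ε₁ / 2), lt_min p1 (by positivity), fun ε hε he x hx ψ hψ hw hn => ?_⟩
  have e0 := hε.1
  have hε1 : ε ∈ Set.Ioo 0 ε₁ := ⟨e0, by linarith [he.trans (min_le_right _ _)]⟩
  have h3 := fun y hy => h1 ε hε (he.trans (min_le_left _ _)) y hy (ε⁻¹ • (x - y)) ψ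
    (by rwa [KregEstAux.back e0]) hw (hn.trans (min_le_left _ _))
  have c0 : ∀ y, 0 ≤ bp 5 6 y * (ε ^ 4)⁻¹ := fun y =>
    mul_nonneg (bp_nonneg _ _ _) (by positivity)
  have c1 := KregEstAux.ctest_ker hK ε x ψ
  have c2 := KregEstAux.ctest_ker hK ε x om0
  have k1 := hL _ (c1.mono (by norm_num)) fun y v => by
    rw [kerAt, ev_smul]
    by_cases hy : y ∈ closedBall (0 : E) 6
    · exact mul_nonneg (c0 y) ((h3 y hy).1 v)
    · rw [KregEstAux.bp_far hy, zero_mul, zero_mul]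
  have k2 := (abs_le.1 (h2 ε hε1 x hx om0)).1
  rw [wedge_smul_right, wedge_zeta, KregLorAux.ev01, mul_one] at k2
  have k3 := integral_mono
    (((KregEstAux.ctest_wedge c2 (by norm_num) hF).integrable volume).const_mul (1 - η / 2))
    ((KregLorAux.ctest_sqrt hJ hq c1).integrable volume) fun y => by
      by_cases hy : y ∈ closedBall (0 : E) 6
      · exact KregLorAux.pt (c0 y) (hq0 y (closedBall_subset_ball (by norm_num) hy)).le
          (h3 y hy).2.2
      · have h4 : kerAt K (bp 5 6) ε x om0 y = 0 := by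
          rw [kerAt, KregEstAux.bp_far hy, zero_mul, zero_smul]
        simp only [h4, wedge_zero_left, mul_zero]
        exact Real.sqrt_nonneg _
  rw [integral_const_mul] at k3
  rw [kreg, wedge_regLoc]
  refine le_trans ?_ k1
  rw [mul_assoc]
  refine mul_le_mul_of_nonneg_left (le_trans ?_ k3) hκ
  have s1 : Real.sqrt (q x₀) ≤ Real.sqrt (q x) := Real.sqrt_le_sqrt (hm hx)
  have s2 := mul_le_mul_of_nonneg_left norm_om0_le
    (show 0 ≤ η * Real.sqrt (q x₀) / 4 by positivity)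
  have s3 := mul_le_mul_of_nonneg_left s1 η0.le
  have s4 : (1 - η / 2) * Real.sqrt (q x) ≤
      ∫ y, wedge (kerAt K (bp 5 6) ε x om0 y) (Real.sqrt (q y) • zeta (eb 0) (eb 1)) := by
    linarith
  have s5 := mul_le_mul_of_nonneg_left s4 (show 0 ≤ 1 - η / 2 by linarith)
  have s6 := mul_nonneg (sq_nonneg η) (Real.sqrt_nonneg (q x))
  nlinarith

end Vale.Agent.P247
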