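import Vale.Agent.P247.Stm2
import Vale.Agent.P247.KregLor

open scoped ContDiff RealInnerProductSpace Topology Manifold
open MeasureTheory Metric

namespace Vale.Agent.P247

open Vale.Agent.P204 Vale.Agent.P204.Setup

universe u

namespace Fub2Aux

theorem cont_ev01 : Continuous fun a : W => ev a (eb 0) (eb 1) := by
  unfold ev; fun_prop

theorem cont_av {K : ℝ × E × E → W →L[ℝ] W} {R : ℝ} (hK : SKer K R) {f : E → ℝ}
    (hf : Continuous f) : Continuous fun p : ℝ × E => av K f p.1 p.2 := by
  have hc : Continuous fun q : (ℝ × E) × E =>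
      f (q.1.2 + q.1.1 • q.2) * ev (K (q.1.1, q.1.2, q.2) om0) (eb 0) (eb 1) := by
    refine (hf.comp (by fun_prop)).mul (cont_ev01.comp ?_)
    exact (hK.smooth.continuous.comp (by fun_prop)).clm_apply continuous_const
  have h1 := continuous_parametric_integral_of_continuous (μ := (volume : Measure E))
    (f := fun (p : ℝ × E) (z : E) =>
      f (p.2 + p.1 • z) * ev (K (p.1, p.2, z) om0) (eb 0) (eb 1)) hc (isCompact_closedBall 0 R)
  refine h1.congr fun p => ?_
  refine setIntegral_eq_integral_of_forall_compl_eq_zero fun z hz => ?_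
  rw [hK.supp _ _ z (by simpa using hz)]
  simp [ev_zero]

theorem av_zero {K : ℝ × E × E → W →L[ℝ] W} {R N ε₀ : ℝ} (hK : IsKer K R N ε₀) (f : E → ℝ)
    {y : E} (hy : y ∈ closedBall (0 : E) 6) : av K f 0 y = f y := by
  obtain ⟨k, h1, h2⟩ := hK.zero
  have e : ∀ z, f (y + (0 : ℝ) • z) * ev (K (0, y, z) om0) (eb 0) (eb 1) = f y * k y z := by
    intro z
    rw [h1 y hy z, zero_smul, add_zero, ContinuousLinearMap.smul_apply,
      ContinuousLinearMap.id_apply, ev_smul, KregLorAux.ev01, mul_one]
  simp only [av, e]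
  rw [integral_const_mul, h2 y hy, mul_one]

end Fub2Aux

open Fub2Aux in
theorem p_fub2 :
    S_fub2 := by
  intro K R N ε₀ l w f hK hl hw hf
  have hc : Continuous fun q : ℝ × E => w q.2 * av K f q.1 q.2 :=
    (hw.1.comp continuous_snd).mul (cont_av hK.toSKer hf.1)
  have h1 := continuous_parametric_integral_of_continuous (μ := l)
    (f := fun (ε : ℝ) (y : E) => w y * av K f ε y) hc (isCompact_closedBall 0 6)
  have h2 : Continuous fun ε : ℝ => ∫ y, w y * av K f ε y ∂l := by
    refine h1.congr fun ε => ?_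
    refine setIntegral_eq_integral_of_forall_compl_eq_zero fun y hy => ?_
    rw [hw.2 y (by simpa using hy), zero_mul]
  have h3 : ∫ y, w y * av K f 0 y ∂l = ∫ y, w y * f y ∂l := by
    refine integral_congr_ae (Filter.Eventually.of_forall fun y => ?_)
    by_cases hy : y ∈ closedBall (0 : E) 6
    · simp only [av_zero hK f hy]
    · simp only [hw.2 y (by simpa using hy), zero_mul]
  rw [← h3]
  exact (h2.tendsto 0).mono_left nhdsWithin_le_nhds

end Vale.Agent.P247
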