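import Vale.Agent.P247.Stm2
import Vale.Agent.P247.KregLor

open scoped ContDiff RealInnerProductSpace Topology Manifold
open MeasureTheory Metric

namespace Vale.Agent.P247

open Vale.Agent.P204 Vale.Agent.P204.Setup

universe u

namespace KregLAux

theorem pt {A : W →L[ℝ] W} {a b : W} {c d q η : ℝ} (hc : 0 ≤ c) (hd : 0 ≤ d) (hq : 0 ≤ q)
    (h : η * ev b (eb 0) (eb 1) ≤ Real.sqrt (wedge (A a) (A a))) :
    η * ev ((c / Real.sqrt q * d) • b) (eb 0) (eb 1) ≤
      Real.sqrt (wedge (A ((c * d) • a)) (A ((c * d) • a)) / q) := by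
  have h0 := mul_nonneg hc hd
  rw [ev_smul, map_smul, wedge_smul_left, wedge_smul_right, Real.sqrt_div' _ hq,
    ← mul_assoc (c * d), Real.sqrt_mul (mul_self_nonneg _), Real.sqrt_mul_self h0,
    div_mul_eq_mul_div c, mul_left_comm η, mul_div_right_comm (c * d)]
  exact mul_le_mul_of_nonneg_left h (div_nonneg h0 (Real.sqrt_nonneg _))

end KregLAux

theorem p_kregL (h_kerLor : S_kerLor) :
    S_kregL := by
  intro K R N ε₀ J L q l hK hJ _ hq hq0 hL η η0 η1
  obtain ⟨θ₁, p1, h1⟩ := h_kerLor K R N ε₀ J hK hJ η η0 η1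
  refine ⟨θ₁, p1, fun ε hε he x ψ hψ hw hn => ?_⟩
  have e0 := hε.1
  have h3 := fun y hy => h1 ε hε he y hy (ε⁻¹ • (x - y)) ψ (by rwa [KregEstAux.back e0]) hw hn
  have c0 : 0 ≤ (ε ^ 4)⁻¹ := by positivity
  have c1 := KregEstAux.ctest_ker hK ε x ψ
  have k1 := hL _ (c1.mono (by norm_num)) fun y v => by
    rw [kerAt, ev_smul]
    by_cases hy : y ∈ closedBall (0 : E) 6
    · exact mul_nonneg (mul_nonneg (bp_nonneg _ _ _) c0) ((h3 y hy).1 v)
    · rw [KregEstAux.bp_far hy, zero_mul, zero_mul]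
  have i1 := (KregLorAux.ctest_sqrt hJ (hq.inv₀ fun y hy => (hq0 y hy).ne') c1).integrable l
  simp only [Pi.inv_apply, ← div_eq_inv_mul] at i1
  rw [kreg, wedge_regLoc, rk, ← integral_const_mul]
  refine le_trans (integral_mono_of_nonneg (ae_of_all _ fun y => ?_) i1
    (ae_of_all _ fun y => ?_)) k1
  · refine mul_nonneg (by linarith) ?_
    rw [kerAt, ev_smul]
    by_cases hy : y ∈ closedBall (0 : E) 6
    · exact mul_nonneg (mul_nonneg (div_nonneg (bp_nonneg _ _ _) (Real.sqrt_nonneg _)) c0)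
        (h3 y hy).2.1
    · rw [KregEstAux.bp_far hy, zero_div, zero_mul, zero_mul]
  · by_cases hy : y ∈ closedBall (0 : E) 6
    · exact KregLAux.pt (bp_nonneg _ _ _) c0
        (hq0 y (closedBall_subset_ball (by norm_num) hy)).le (h3 y hy).2.2
    · simp only [kerAt, ev_smul, KregEstAux.bp_far hy, zero_div, zero_mul, mul_zero]
      exact Real.sqrt_nonneg _

end Vale.Agent.P247
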