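import Vale.Agent.P247.Stm

open scoped ContDiff RealInnerProductSpace Topology Manifold
open MeasureTheory Metric

namespace Vale.Agent.P247

open Vale.Agent.P204 Vale.Agent.P204.Setup

universe u

namespace MainAux

theorem arith {κ η V m x y V0 p u C : ℝ} (hκ : 0 ≤ κ) (hV : 0 < V) (_hη : η < 1)
    (hm : m < (1 - η) * V) (hV0 : 0 < V0) (hp : 0 < p) (hy : 0 ≤ y) (hu : u ≤ 1)
    (hx : x = u + κ * m - 1) (huy : u ≤ C * y)
    (h : ∀ t : ℝ, (κ * (1 - η)) ^ 2 * V + 2 * t * y + t ^ 2 * V0 ≤ (x + t * p) ^ 2 / V) :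
    False := by
  have hΛ : 0 ≤ (κ * (1 - η)) ^ 2 * V := by positivity
  have hx0 : 0 ≤ x := by
    by_contra hneg
    push Not at hneg
    have ht : 0 < -x / p := div_pos (by linarith) hp
    have h1 := h (-x / p)
    have h2 : x + -x / p * p = 0 := by field_simp; ring
    rw [h2] at h1
    have h3 : 0 < (-x / p) ^ 2 * V0 := by positivity
    have h4 : 0 ≤ 2 * (-x / p) * y := by positivity
    simp at h1
    nlinarith
  have h0 := h 0
  have h5 : (κ * (1 - η) * V) ^ 2 ≤ x ^ 2 := by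
    have h6 : (κ * (1 - η)) ^ 2 * V ≤ x ^ 2 / V := by simpa using h0
    rw [le_div_iff₀ hV] at h6
    nlinarith
  have h7 : κ * (1 - η) * V ≤ x := abs_le_of_sq_le_sq' h5 hx0 |>.2
  have hκ0 : κ = 0 := by
    by_contra hne
    have : 0 < κ := lt_of_le_of_ne hκ (Ne.symm hne)
    nlinarith
  subst hκ0
  have hu1 : u = 1 := by linarith
  have hx1 : x = 0 := by linarith
  have hy0 : 0 < y := by
    rcases hy.eq_or_lt with h' | h'
    · rw [← h'] at huy; linarith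
    · exact h'
  set q := p ^ 2 / V with hq
  have hq0 : 0 ≤ q := by positivity
  have ht : 0 < y / (q + 1) := by positivity
  have h8 := h (y / (q + 1))
  have h9 : (x + y / (q + 1) * p) ^ 2 / V = (y / (q + 1)) ^ 2 * q := by
    rw [hx1, hq]; ring
  rw [h9] at h8
  have h10 : y / (q + 1) * q ≤ y := by
    rw [div_mul_eq_mul_div, div_le_iff₀ (by positivity)]
    nlinarith
  have h11 : 0 < (y / (q + 1)) ^ 2 * V0 := by positivity
  have h12 : 0 < y / (q + 1) * y := by positivity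
  nlinarith

variable {X : Type u} [TopologicalSpace X] [T2Space X]

theorem ppF_eq (s : Setup X) (φ : Form X) : s.ppF φ = φ - s.pmF φ := by
  rw [eq_sub_iff_add_eq, s.ppF_add_pmF]

theorem kill {s : Setup X} {T : GF X} (hT : ∀ φ, s.Cont φ → s.Pos φ → 0 ≤ T φ) {φ : Form X}
    (hφ : s.Cont φ) (h : s.pmF φ = φ) : T φ = 0 := by
  have hp : ∀ t : ℝ, s.Pos (t • φ) := by
    intro t
    rw [← s.pos_ppF_iff, ppF_eq, s.pmF_smul, h, sub_self]
    intro x b
    simp [ev]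
  have h1 := hT _ (hφ.smul 1) (hp 1)
  have h2 := hT _ (hφ.smul (-1)) (hp (-1))
  rw [map_smul, smul_eq_mul] at h1 h2
  linarith

theorem eq_ppF {s : Setup X} {T : GF X} (hT : ∀ φ, s.Cont φ → s.Pos φ → 0 ≤ T φ) {φ : Form X}
    (hφ : s.Cont φ) : T φ = T (s.ppF φ) := by
  have h1 := kill hT hφ.pmF (s.pmF_pmF φ)
  conv_lhs => rw [← s.ppF_add_pmF φ, map_add, h1, add_zero]

omit [T2Space X] in
theorem compat_pmF {s : Setup X} {σ : Form X} (h : s.Compat σ) : s.pmF σ = 0 := by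
  funext x
  simp [Setup.pmF, pm, h.inv x]

theorem int_pos [CompactSpace X] [Nonempty X] {s : Setup X} {σ a : Form X} (h : s.Compat σ)
    (ha : s.Tame a) : 0 < s.Int σ a := by
  have h0 := compat_pmF h
  have hpp : s.ppF σ = σ := by rw [ppF_eq, h0, sub_zero]
  obtain ⟨C, hC, hP⟩ := h.toTame.pos_add
  have hF : s.Cont (s.ppF a) := ha.smooth.cont.ppF
  have hσ : s.Cont σ := h.smooth.cont
  have h1 := (hP _ hF).2
  have h2 := s.Int_pp_nonneg h1 ha.pos_F
  have hFF : s.ppF (s.ppF a) = s.ppF a := by rw [ppF_eq, s.pmF_ppF, sub_zero]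
  have h3 : s.ppF ((C * s.sn 0 (s.ppF a)) • s.ppF σ - s.ppF a) =
      (C * s.sn 0 (s.ppF a)) • σ - s.ppF a := by
    rw [ppF_eq, s.pmF_sub, s.pmF_smul, s.pmF_ppF, s.pmF_ppF, hpp]
    simp
  rw [h3, hFF, s.Int_sub_left (hσ.smul _) hF hF, s.Int_smul_left] at h2
  have h4 := ha.Int_F_pos
  have h5 : s.Int σ a = s.Int σ (s.ppF a) := by
    rw [s.Int_split hσ ha.smooth.cont, h0, s.Int_zero_left, add_zero, hpp]
  have h6 : 0 ≤ s.Int σ (s.ppF a) := by
    have := s.Int_pp_nonneg h.toTame.pos_F ha.pos_F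
    rwa [hFF, hpp, hpp] at this
  rw [h5]
  rcases h6.eq_or_lt with h7 | h7
  · rw [← h7] at h2; linarith
  · exact h7

end MainAux

variable {X : Type u} [TopologicalSpace X] [T2Space X] [CompactSpace X]
  [SecondCountableTopology X] [MeasurableSpace X] [BorelSpace X]

theorem p_main (h_exT : S_exT X) (h_aL2 : S_aL2 X) (h_kbd : S_kbd X) (h_kcur : S_kcur X)
    (h_pol : S_pol X) (h_lim : S_lim X) (h_quad : S_quad X) (h_hi1 : S_hi1 X)
    (h_phi : S_phi X) : S_main X := by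
  intro s a b c m₀ hne ha htri hV hm₀
  by_contra hno₀
  set V := s.Int c c with hVdef
  have hV0 : 0 < V := htri.vc
  set m := max m₀ (V / 2) with hmdef
  have hmV : m < V := max_lt hm₀ (by linarith)
  have hm0 : V / 2 ≤ m := le_max_right _ _
  have hno : ¬∃ t, s.Compat t ∧ Null s (t - a) ∧ m ≤ Phi s c t := by
    rintro ⟨t, h1, h2, h3⟩
    exact hno₀ ⟨t, h1, h2, (le_max_left _ _).trans h3⟩
  obtain ⟨σ, hσ⟩ := main_setup s a ha
  have hσ0 := MainAux.compat_pmF hσ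
  have hpp : s.ppF σ = σ := by rw [MainAux.ppF_eq, hσ0, sub_zero]
  have htσ := h_hi1 s a b c σ hne htri hσ
  obtain ⟨T, α, κ, β, hκ, hT, hT1, hEx, hTa, hb, hc, hβ⟩ :=
    h_exT s a b c σ m hne ha htri hσ0 htσ hno
  have hphi := (h_phi s c htri.hc).1
  have hTp : ∀ φ, s.Cont φ → s.Pos φ → 0 ≤ T φ := fun φ h1 h2 =>
    (mul_nonneg hκ (hphi φ)).trans (hT φ h1 h2)
  obtain ⟨μ, hμ⟩ := ha.exists_posCur hTp
  obtain ⟨M, K, R, N, ε₀, hM⟩ := Mo.exists_moll s
  obtain ⟨A₀, hA₀, hL2⟩ := h_aL2 s M K R N ε₀ a σ b c T α μ β hM ha hμ hσ0 htσ hEx hb hc hβ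
  obtain ⟨c₁, hc₁⟩ := h_kbd s a T α β A₀ hne ha hEx hβ hA₀ hL2
  obtain ⟨S, hS, hSe⟩ := h_kcur s a T c₁ hne ha hc₁
  obtain ⟨T', ν', D, hT', hEx', hD, hTT⟩ :=
    h_pol s a c T α S μ κ A₀ ha htri.hc hμ hEx hL2 hκ hT hS hSe
  have hF : s.Cont (s.ppF a) := ha.smooth.cont.ppF
  have hb' : T' b + α b = 0 := by
    rw [hb, MainAux.kill hT'.pos htri.hb.smooth.cont htri.hb.anti, add_zero]
  have hc' : T' c + α c = 0 := by
    rw [hc, MainAux.kill hT'.pos htri.hc.smooth.cont htri.hc.anti, add_zero]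
  have hασ : α σ = 0 := by
    rw [AtlasSnAux.eq_pmF s hβ hσ.smooth, hσ0, map_zero]
  set η := (1 - m / V) / 2 with hη
  have hmV' : m / V < 1 := (div_lt_one hV0).2 hmV
  have hmV'' : 0 < m / V := div_pos (by linarith) hV0
  have hη0 : 0 < η := by rw [hη]; linarith
  have hη1 : η < 1 := by rw [hη]; linarith
  have hq := h_quad s a b c σ ((κ * (1 - η)) ^ 2 * V) (T' a + α a) (T' σ) htri htσ (by
    intro δ hδ
    obtain ⟨H, h1, h2, h3, h4, h5, h6, h7⟩ := h_lim s M K R N ε₀ a b c σ T' α ν' κ β A₀ D η δ hM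
      hne ha htri.hc htri.hb.smooth hσ.smooth hT' hD hEx' hβ hA₀ hL2 hκ
      (fun φ h1 h2 => (hTT φ h1 h2).1) hη0 hη1 hδ
    rw [hb', sub_zero] at h5
    rw [hc', sub_zero] at h6
    rw [hασ, add_zero] at h7
    exact ⟨H, h1, h2, h3, h4, h5, h6, h7⟩)
  rw [hV] at hq
  obtain ⟨C, -, hC⟩ := hσ.toTame.abs_le_sn
  have h1 := hC T' hT'.pos _ hF
  rw [hpp] at h1
  have hy : 0 ≤ T' σ := by
    have := hT'.pos _ hσ.smooth.cont.ppF hσ.toTame.pos_F
    rwa [hpp] at this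
  refine MainAux.arith (u := T' (s.ppF a)) (C := C * s.sn 0 (s.ppF a)) hκ hV0 hη1 (m := m) ?_
    htσ.va (MainAux.int_pos hσ ha) hy ?_ ?_ ?_ hq
  · have : (1 - η) * V = (V + m) / 2 := by rw [hη]; field_simp; ring
    linarith
  · rw [← hT1]
    exact (hTT _ hF ha.pos_F).2
  · rw [MainAux.eq_ppF hT'.pos ha.smooth.cont]
    rw [MainAux.eq_ppF hTp ha.smooth.cont, hT1] at hTa
    linarith
  · have := le_abs_self (T' (s.ppF a))
    linarith

end Vale.Agent.P247
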