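import Vale.Agent.P247.Stm2
import Vale.Agent.P247.Main

open scoped ContDiff RealInnerProductSpace Topology Manifold
open MeasureTheory Metric

namespace Vale.Agent.P247

open Vale.Agent.P204 Vale.Agent.P204.Setup

universe u

variable {X : Type u} [TopologicalSpace X] [T2Space X] [CompactSpace X]
  [SecondCountableTopology X] [MeasurableSpace X] [BorelSpace X]

theorem p_l2 (h_selfL : S_selfL X) (h_enbd : S_enbd X) :
    S_l2 X := by
  intro s a σ b c T ν l D hX ha ht hT hE hD hl hdom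
  obtain ⟨M, K, R, N, ε₀, hM⟩ := Mo.exists_moll s
  obtain ⟨x⟩ := hX
  obtain ⟨i, -⟩ := s.cover_lt x
  have hk := hM.ker i
  have e0 := hk.epos
  obtain ⟨C₁, hC₁, h1⟩ := h_selfL s M K R N ε₀ a c T ν l (1 / 2) hM ha ht.hc hT hl hdom
    (by norm_num) (by norm_num)
  obtain ⟨C₂, -, h2⟩ := h_enbd s M K R N ε₀ σ b c hM ht 0 0
  obtain ⟨C₃, -, h3⟩ := ha.abs_le_sn
  obtain ⟨C₄, -, h4⟩ := En_le hk.Rpos
  obtain ⟨e3, p3, q3⟩ := hM.exists_reg
  obtain ⟨c₁, C₅, hloc⟩ := ha.locPos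
  refine ⟨(C₂ * |C₃ * T (s.ppF a)|) ^ 2 + C₁ * ∑ j, C₄ * D * (s.lm ν j).real Set.univ + 1,
    fun g hg hg0 => ?_⟩
  obtain ⟨ε, hε, hI, hI3⟩ := ((h1 g hg hg0 1 one_pos).and
    (Filter.Eventually.and (Ioo_mem_nhdsGT e0) (Ioo_mem_nhdsGT p3))).exists
  obtain ⟨G, h⟩ := q3 ε hI3 hI.2 5 T fun j => (hloc T ν hT j).distBd (s.good j) 5
  obtain ⟨G', h'⟩ := q3 ε hI3 hI.2 0 0 fun j => ⟨0, fun θ _ => by simp [Setup.lf]⟩
  have a1 := hε G h
  have a2 := h2 T 0 |C₃ * T (s.ppF a)| (abs_nonneg _) (fun φ hφ => (h3 T hT.pos φ hφ.cont).trans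
      (mul_le_mul_of_nonneg_right (le_abs_self _) (s.sn_nonneg _ _))) rfl
    (fun e he => by simp [hE e he])
    (by simp [MainAux.kill hT.pos ht.hb.smooth.cont ht.hb.anti])
    (by simp [MainAux.kill hT.pos ht.hc.smooth.cont ht.hc.anti]) ε hI 0 le_rfl
    (fun j θ _ => by simp [Setup.lf]) G G' h h'
  rw [s.Int_comm G G', h'.dual G h.smooth, h'.dual G' h'.smooth] at a2
  simp only [LinearMap.zero_apply, mul_zero, add_zero] at a2
  have a3 : ∑ j, En (s.lm ν j) R ε ≤ ∑ j, C₄ * D * (s.lm ν j).real Set.univ :=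
    Finset.sum_le_sum fun j _ => by
      have := (hloc T ν hT j).fin
      exact h4 (s.lm ν j) ε D hI.1 (hk.R_mul_le hI) fun z hz =>
        hD j z (closedBall_subset_closedBall (by norm_num) hz) ε
          ⟨hI.1, by have := hk.eps_le_one; linarith [hI.2]⟩
  have a4 := mul_le_mul_of_nonneg_left a3 hC₁
  linarith

end Vale.Agent.P247
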