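import Vale.Agent.P247.Stm

open scoped ContDiff RealInnerProductSpace Topology Manifold
open MeasureTheory Metric

namespace Vale.Agent.P247

open Vale.Agent.P204 Vale.Agent.P204.Setup

universe u

variable {X : Type u} [TopologicalSpace X] [T2Space X] [CompactSpace X]
  [SecondCountableTopology X] [MeasurableSpace X] [BorelSpace X]

namespace LimAux

/-- The error of mollification is below `δ` for all small `ε`. -/
theorem err (h_msub : S_msub X) {s : Setup X} {M : ℝ → Form X → Form X}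
    {K : Fin s.m → ℝ × E × E → W →L[ℝ] W} {R N ε₀ : ℝ} {a : Form X} {T α : GF X}
    {ν : Measure X} {A₀ δ : ℝ} (hM : s.Moll M K R N ε₀) (ha : s.Tame a)
    (hT : s.PosCur (s.ppF a) T ν) (hA : 0 ≤ A₀) (hL : LocL2 s α A₀) (hδ : 0 < δ) {f : Form X}
    (hf : s.Smooth f) : ∃ ε₁ > (0 : ℝ), ∀ ε ∈ Set.Ioo 0 ε₀, ε < ε₁ →
      |T (M ε f) + α (M ε f) - (T f + α f)| ≤ δ := by
  obtain ⟨C, hC, h1⟩ := h_msub s M K R N ε₀ hM f hf 0
  obtain ⟨C', -, h2⟩ := ha.abs_le_sn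
  have hB : 0 ≤ |C' * T (s.ppF a)| * C + C * A₀ := by positivity
  refine ⟨δ / (|C' * T (s.ppF a)| * C + C * A₀ + 1), by positivity, fun ε hε hlt => ?_⟩
  obtain ⟨h3, h4⟩ := h1 ε hε
  have hs := hf.sub (hM.smooth ε hε f hf)
  have h5 := h2 T hT.pos _ hs.cont
  have h6 := h4 α A₀ hA fun i => LBd_of_nL2 hε.1.le hA (hL i)
  have h7 : C' * T (s.ppF a) * s.sn 0 (f - M ε f) ≤ |C' * T (s.ppF a)| * (C * ε) :=
    mul_le_mul (le_abs_self _) h3 (s.sn_nonneg _ _) (abs_nonneg _)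
  have h8 : ε * (|C' * T (s.ppF a)| * C + C * A₀ + 1) < δ := (lt_div_iff₀ (by positivity)).1 hlt
  rw [map_sub] at h5 h6
  have h9 := abs_le.1 (h5.trans h7)
  have h10 := abs_le.1 h6
  have h11 := hε.1
  rw [abs_le]
  constructor <;> nlinarith [h9.1, h9.2, h10.1, h10.2]

end LimAux

theorem p_lim (h_selfT : S_selfT X) (h_cross : S_cross X) (h_msub : S_msub X) :
    S_lim X := by
  intro s M K R N ε₀ a b c σ T α ν κ β A₀ D η δ hM hX ha hc hb hσ hT hD hE hP hA hL hκ hΦ hη hη1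
    hδ
  obtain ⟨x⟩ := hX
  obtain ⟨i, -⟩ := s.cover_lt x
  have e0 := (hM.ker i).epos
  obtain ⟨e1, p1, q1⟩ := h_selfT s M K R N ε₀ a c T ν κ D η (δ / 2) hM ha hc hT hD hκ hΦ hη hη1
    (half_pos hδ)
  obtain ⟨e2, p2, q2⟩ := h_cross s M K R N ε₀ a T α ν β A₀ D (δ / 2) hM ha hT hD hP hA hL
    (half_pos hδ)
  obtain ⟨e3, p3, q3⟩ := hM.exists_reg
  obtain ⟨e4, p4, q4⟩ := LimAux.err h_msub hM ha hT hA hL hδ ha.smooth
  obtain ⟨e5, p5, q5⟩ := LimAux.err h_msub hM ha hT hA hL hδ hb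
  obtain ⟨e6, p6, q6⟩ := LimAux.err h_msub hM ha hT hA hL hδ hc.smooth
  obtain ⟨e7, p7, q7⟩ := LimAux.err h_msub hM ha hT hA hL hδ hσ
  obtain ⟨ε, hε, hlt⟩ := exists_between
    (lt_min (lt_min (lt_min e0 p1) (lt_min p2 p3)) (lt_min (lt_min p4 p5) (lt_min p6 p7)))
  simp only [lt_min_iff] at hlt
  obtain ⟨⟨⟨l0, l1⟩, l2, l3⟩, ⟨l4, l5⟩, l6, l7⟩ := hlt
  obtain ⟨c₁, C₁, hloc⟩ := ha.locPos
  obtain ⟨G, h⟩ := q3 ε ⟨hε, l3⟩ l0 5 T fun j => (hloc T ν hT j).distBd (s.good j) 5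
  obtain ⟨G', h'⟩ := q3 ε ⟨hε, l3⟩ l0 5 α fun j => s.distBd_of_sn_pm hP j
  have hI : ε ∈ Set.Ioo 0 ε₀ := ⟨hε, l0⟩
  have hS := h.smooth.add h'.smooth
  have key : ∀ φ, s.Smooth φ → s.Int (G + G') φ = T (M ε φ) + α (M ε φ) := fun φ hφ => by
    rw [s.Int_add_left h.smooth.cont h'.smooth.cont hφ.cont, h.dual φ hφ, h'.dual φ hφ]
  have hC : s.Closed (G + G') := s.closed_of_weak hS fun j p hp => by
    rw [s.Int_comm, key _ (Mo.smooth_glob s j (hp.d1.mono (by norm_num)))]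
    exact hE _ (hM.ex ε hI j p hp)
  refine ⟨G + G', hS, hC, ?_, ?_, ?_, ?_, ?_⟩
  · rw [s.Int_add_left h.smooth.cont h'.smooth.cont hS.cont,
      s.Int_add_right h.smooth.cont h.smooth.cont h'.smooth.cont,
      s.Int_add_right h'.smooth.cont h.smooth.cont h'.smooth.cont, s.Int_comm G' G]
    have a1 := q1 ε ⟨hε, l1⟩ l0 G h
    have a2 := q2 ε ⟨hε, l2⟩ l0 G G' h h'
    linarith
  · rw [key _ ha.smooth]
    exact q4 ε hI l4
  · rw [key _ hb]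
    exact q5 ε hI l5
  · rw [key _ hc.smooth]
    exact q6 ε hI l6
  · rw [key _ hσ]
    exact q7 ε hI l7

end Vale.Agent.P247
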