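import Vale.Agent.P247.Stm2
import Vale.Agent.P247.Lim

open scoped ContDiff RealInnerProductSpace Topology Manifold
open MeasureTheory Metric

namespace Vale.Agent.P247

open Vale.Agent.P204 Vale.Agent.P204.Setup

universe u

variable {X : Type u} [TopologicalSpace X] [T2Space X] [CompactSpace X]
  [SecondCountableTopology X] [MeasurableSpace X] [BorelSpace X]

theorem p_limL (h_selfL : S_selfL X) (h_cross : S_cross X) (h_msub : S_msub X) :
    S_limL X := by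
  intro s M K R N ε₀ a b c σ T α ν l β A₀ D η δ g hM hX ha hc hb hσ hT hD hE hP hA hL hl hΦ hg hg0
    hη hη1 hδ
  obtain ⟨x⟩ := hX
  obtain ⟨i, -⟩ := s.cover_lt x
  have e0 := (hM.ker i).epos
  obtain ⟨c₁, C₁, hloc⟩ := ha.locPos
  obtain ⟨C₂, -, hself⟩ := h_selfL s M K R N ε₀ a c T ν l η hM ha hc hT hl hΦ hη hη1
  have hδ4 : 0 < δ / 4 := by positivity
  have ht : Filter.Tendsto (fun ε => C₂ * ∑ j, En (s.lm ν j) R ε) (𝓝[>] 0) (𝓝 0) := by
    have h1 : ∀ j, Filter.Tendsto (fun ε => En (s.lm ν j) R ε) (𝓝[>] 0) (𝓝 0) := fun j => by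
      have := (hloc T ν hT j).fin
      exact tendsto_En (s.lm ν j) (hM.ker j).Rpos (hD j).1 (hD j).2
    simpa only [Finset.sum_const_zero, mul_zero] using
      (tendsto_finsetSum Finset.univ fun i _ => h1 i).const_mul C₂
  obtain ⟨e1, p1, q1⟩ := mem_nhdsGT_iff_exists_Ioo_subset.1
    ((ht.eventually (gt_mem_nhds hδ4)).and (hself g hg hg0 (δ / 4) hδ4))
  obtain ⟨e2, p2, q2⟩ := h_cross s M K R N ε₀ a T α ν β A₀ D (δ / 2) hM ha hT hD hP hA hL
    (half_pos hδ)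
  obtain ⟨e3, p3, q3⟩ := hM.exists_reg
  obtain ⟨e4, p4, q4⟩ := LimAux.err h_msub hM ha hT hA hL hδ ha.smooth
  obtain ⟨e5, p5, q5⟩ := LimAux.err h_msub hM ha hT hA hL hδ hb
  obtain ⟨e6, p6, q6⟩ := LimAux.err h_msub hM ha hT hA hL hδ hc.smooth
  obtain ⟨e7, p7, q7⟩ := LimAux.err h_msub hM ha hT hA hL hδ hσ
  obtain ⟨ε, hε, hlt⟩ := exists_between (lt_min (lt_min (lt_min e0 (show (0 : ℝ) < e1 from p1))
    (lt_min p2 p3)) (lt_min (lt_min p4 p5) (lt_min p6 p7)))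
  simp only [lt_min_iff] at hlt
  obtain ⟨⟨⟨l0, l1⟩, l2, l3⟩, ⟨l4, l5⟩, l6, l7⟩ := hlt
  obtain ⟨G, h⟩ := q3 ε ⟨hε, l3⟩ l0 5 T fun j => (hloc T ν hT j).distBd (s.good j) 5
  obtain ⟨G', h'⟩ := q3 ε ⟨hε, l3⟩ l0 5 α fun j => s.distBd_of_sn_pm hP j
  have hI : ε ∈ Set.Ioo 0 ε₀ := ⟨hε, l0⟩
  have hS := h.smooth.add h'.smooth
  have key : ∀ φ, s.Smooth φ → s.Int (G + G') φ = T (M ε φ) + α (M ε φ) := fun φ hφ => by
    rw [s.Int_add_left h.smooth.cont h'.smooth.cont hφ.cont, h.dual φ hφ, h'.dual φ hφ]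
  have hC : s.Closed (G + G') := s.closed_of_weak hS fun j p hp => by
    rw [s.Int_comm, key _ (Mo.smooth_glob s j (hp.d1.mono (by norm_num)))]
    exact hE _ (hM.ex ε hI j p hp)
  refine ⟨G + G', hS, hC, ?_, ?_, ?_, ?_, ?_⟩
  · rw [s.Int_add_left h.smooth.cont h'.smooth.cont hS.cont,
      s.Int_add_right h.smooth.cont h.smooth.cont h'.smooth.cont,
      s.Int_add_right h'.smooth.cont h.smooth.cont h'.smooth.cont, s.Int_comm G' G]
    obtain ⟨a0, a1⟩ := q1 ⟨hε, l1⟩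
    have a2 := a1 G h
    have a3 := q2 ε ⟨hε, l2⟩ l0 G G' h h'
    linarith
  · rw [key _ ha.smooth]
    exact q4 ε hI l4
  · rw [key _ hb]
    exact q5 ε hI l5
  · rw [key _ hc.smooth]
    exact q6 ε hI l6
  · rw [key _ hσ]
    exact q7 ε hI l7

end Vale.Agent.P247
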