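import Vale.Agent.P247.Stm

open scoped ContDiff RealInnerProductSpace Topology Manifold
open MeasureTheory Metric

namespace Vale.Agent.P247

open Vale.Agent.P204 Vale.Agent.P204.Setup

universe u

namespace SelfTAux

theorem cut {c q w f : E → ℝ} {l : ℝ} (hc : ∀ y, 1 < ‖y‖ → c y = 0) (h0 : ∀ y, 0 ≤ c y)
    (h1 : ∀ y, c y ≤ 1) (hq : Integrable fun y => c y * q y) (hw : Integrable fun y => c y * w y)
    (hf : Continuous f) (hf0 : ∀ y, 0 ≤ f y)
    (h : ∀ y ∈ closedBall (0 : E) 1, l * q y - f y ≤ w y) :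
    l * (∫ y, c y * q y) - ∫ y in closedBall (0 : E) 1, f y ≤ ∫ y, c y * w y := by
  have hi : IntegrableOn f (closedBall (0 : E) 1) :=
    hf.continuousOn.integrableOn_compact (isCompact_closedBall _ _)
  have hi' := (integrable_indicator_iff measurableSet_closedBall).2 hi
  rw [← integral_indicator measurableSet_closedBall, ← integral_const_mul,
    ← integral_sub (hq.const_mul l) hi']
  refine integral_mono ((hq.const_mul l).sub hi') hw fun y => ?_
  by_cases hy : y ∈ closedBall (0 : E) 1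
  · have a1 := mul_le_mul_of_nonneg_left (h y hy) (h0 y)
    have a2 := mul_le_mul_of_nonneg_right (h1 y) (hf0 y)
    simp only [Set.indicator_of_mem hy]
    linarith
  · have hy' : 1 < ‖y‖ := by simpa using hy
    simp only [Set.indicator_of_notMem hy, hc y hy', zero_mul, mul_zero, sub_zero, le_refl]

theorem en_le (μ : Measure E) [IsFiniteMeasure μ] (R ε : ℝ) :
    ∫ x in closedBall (0 : E) 1, (ε⁻¹ * lam μ R ε x) ^ 2 ≤ En μ R ε := by
  have hcont : Continuous fun x => (ε⁻¹ * lam μ R ε x) ^ 2 :=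
    (continuous_const.mul (continuous_lam _ R ε)).pow 2
  refine setIntegral_mono_set
    (hcont.continuousOn.integrableOn_compact (isCompact_closedBall _ _))
    (Filter.Eventually.of_forall fun x => sq_nonneg _) ?_
  exact (closedBall_subset_closedBall (by norm_num)).eventuallyLE

end SelfTAux

variable {X : Type u} [TopologicalSpace X] [T2Space X] [CompactSpace X]
  [SecondCountableTopology X] [MeasurableSpace X] [BorelSpace X]

theorem p_selfT (h_kregSq : S_kregSq) (h_phiGlob : S_phiGlob X) (h_rhoLoc : S_rhoLoc X) :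
    S_selfT X := by
  intro s M K R N ε₀ a c T ν κ D η δ hM ha hc hT hD hκ hlow hη hη1 hδ
  obtain ⟨c₀, C₀, hLP⟩ := ha.locPos
  have LT := hLP T ν hT
  have hcc := hc.smooth.cont
  have key : ∀ j, ∃ C₁ : ℝ, 0 ≤ C₁ ∧ ∃ θ : ℝ, 0 < θ ∧ ∀ ε ∈ Set.Ioo 0 ε₀, ε ≤ θ →
      ∀ x ∈ closedBall (0 : E) 1,
        (κ * (1 - η)) ^ 2 * wedge (s.loc j c x) (s.loc j c x) -
          C₁ * (ε⁻¹ * lam (s.lm ν j) R ε x) ^ 2 ≤
        wedge (kreg (K j) (s.lf T j) ε x) (kreg (K j) (s.lf T j) ε x) := fun j =>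
    h_kregSq (K j) R N ε₀ (s.Jl j) (s.lf T j) (s.lm ν j) c₀ C₀
      (fun y => wedge (s.loc j c y) (s.loc j c y)) κ (hM.ker j) (s.good j) (LT j)
      (AtlasIntAux.contOn_wedge (hcc j) (hcc j))
      (fun y hy => ((h_rhoLoc s c hc).1 j y hy).1) hκ
      (fun θ hθ hp => by
        have := hlow _ (s.cont_glob j hθ) (s.pos_glob j hp)
        rw [h_phiGlob s c hc j θ hθ] at this
        exact this) η hη hη1
  choose C₁ hC₁ θ hθ hpt using key
  have ht : Filter.Tendsto (fun ε => ∑ j, C₁ j * En (s.lm ν j) R ε) (𝓝[>] 0) (𝓝 0) := by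
    have : ∀ j, Filter.Tendsto (fun ε => C₁ j * En (s.lm ν j) R ε) (𝓝[>] 0) (𝓝 0) := fun j => by
      have := (LT j).fin
      have a1 := (tendsto_En (s.lm ν j) (hM.ker j).Rpos (hD j).1 (hD j).2).const_mul (C₁ j)
      simpa only [mul_zero] using a1
    simpa only [Finset.sum_const_zero] using tendsto_finsetSum Finset.univ fun i _ => this i
  have ev1 := ht.eventually (gt_mem_nhds hδ)
  have ev2 : ∀ᶠ ε in 𝓝[>] (0 : ℝ), ∀ i, ε ∈ Set.Ioo 0 (θ i) :=
    Filter.eventually_all.2 fun i => Ioo_mem_nhdsGT (hθ i)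
  obtain ⟨ε₁, h1, h2⟩ := mem_nhdsGT_iff_exists_Ioo_subset.1 (ev1.and ev2)
  refine ⟨ε₁, h1, fun ε hε hε0 G hG => ?_⟩
  obtain ⟨q1, q2⟩ := h2 hε
  have hGc := hG.smooth.cont
  have loc : ∀ j, (κ * (1 - η)) ^ 2 * (∫ y, s.c j y * wedge (s.loc j c y) (s.loc j c y)) -
      C₁ j * En (s.lm ν j) R ε ≤ ∫ y, s.c j y * wedge (s.loc j G y) (s.loc j G y) := fun j => by
    have := (LT j).fin
    have b1 := SelfTAux.cut (l := (κ * (1 - η)) ^ 2)
      (f := fun x => C₁ j * (ε⁻¹ * lam (s.lm ν j) R ε x) ^ 2)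
      (s.c_test j).2 (s.c_nonneg j) (s.c_le_one j) (s.integrable_Int hcc hcc j)
      (s.integrable_Int hGc hGc j)
      (continuous_const.mul ((continuous_const.mul (continuous_lam _ R ε)).pow 2))
      (fun y => mul_nonneg (hC₁ j) (sq_nonneg _))
      (fun y hy => by
        rw [hG.loc j y (closedBall_subset_closedBall (by norm_num) hy)]
        exact hpt j ε ⟨hε.1, hε0⟩ (q2 j).2.le y hy)
    rw [integral_const_mul] at b1
    have b2 := mul_le_mul_of_nonneg_left (SelfTAux.en_le (s.lm ν j) R ε) (hC₁ j)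
    linarith
  have hs := Finset.sum_le_sum fun j (_ : j ∈ Finset.univ) => loc j
  rw [Finset.sum_sub_distrib, ← Finset.mul_sum] at hs
  change (κ * (1 - η)) ^ 2 * (∑ j, ∫ y, s.c j y * wedge (s.loc j c y) (s.loc j c y)) - δ ≤
    ∑ j, ∫ y, s.c j y * wedge (s.loc j G y) (s.loc j G y)
  have q1' : ∑ j, C₁ j * En (s.lm ν j) R ε < δ := q1
  linarith

end Vale.Agent.P247
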