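import Vale.Agent.P247.Stm2
import Vale.Agent.P247.SelfT

open scoped ContDiff RealInnerProductSpace Topology Manifold
open MeasureTheory Metric

namespace Vale.Agent.P247

open Vale.Agent.P204 Vale.Agent.P204.Setup

universe u

theorem p_locL (h_sqPt : S_sqPt) (h_kregL : S_kregL) (h_fub1 : S_fub1) (h_fub2 : S_fub2) :
    S_locL := by
  intro K R N ε₀ J L μ c C q l hK hJ hL hl hq q0 hD η η0 η1
  obtain ⟨θ, θ0, h1⟩ := h_kregL K R N ε₀ J L q l hK hJ hl hq q0 hD η η0 η1
  obtain ⟨C₁, C0, θ₁, θ1, h2⟩ := h_sqPt K R N ε₀ J L μ c C hK hJ hL θ θ0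
  refine ⟨C₁, C0, fun k g hk k0 k1 hg g0 δ δ0 => ?_⟩
  have := hL.fin
  have sq : ContinuousOn (fun y => Real.sqrt (q y)) (ball (0 : E) 10) := hq.sqrt
  have hw : CTest 6 fun y => bp 5 6 y / Real.sqrt (q y) :=
    CTest.smul_continuousOn (g := bp 5 6) (θ := fun y => (Real.sqrt (q y))⁻¹)
      ⟨(contDiff_bp 5 6).continuous, fun y hy => bp_eq_zero (by norm_num) (by norm_num) hy.le⟩
      (by norm_num) (sq.inv₀ fun y hy => (Real.sqrt_pos.2 (q0 y hy)).ne')
  have hf : CTest 1 fun y => k y * (g y * Real.sqrt (q y)) :=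
    hk.smul_continuousOn (by norm_num) (hg.mul sq)
  have hf' : CTest 1 fun y => k y * (g y ^ 2 * q y) :=
    hk.smul_continuousOn (by norm_num) ((hg.pow 2).mul hq)
  have qq : ∀ y : E, ‖y‖ ≤ 1 → 0 < q y := fun y hy => q0 y (by rw [mem_ball_zero_iff]; linarith)
  have e : (fun y => bp 5 6 y / Real.sqrt (q y) * (k y * (g y * Real.sqrt (q y)))) =
      fun y => k y * g y := funext fun y => by
    rcases le_or_gt ‖y‖ 1 with hy | hy
    · have := (Real.sqrt_pos.2 (qq y hy)).ne'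
      rw [bp_eq_one (by norm_num) (by norm_num) (hy.trans (by norm_num))]
      field_simp
    · rw [hk.2 y hy, zero_mul, zero_mul, mul_zero]
  have t := h_fub2 K R N ε₀ l _ _ hK hl hw hf
  rw [e] at t
  filter_upwards [(t.const_mul (2 * (1 - η))).eventually (lt_mem_nhds (sub_lt_self _ δ0)),
    Ioo_mem_nhdsGT hK.epos, Ioo_mem_nhdsGT θ0, Ioo_mem_nhdsGT θ1] with ε a1 a2 a3 a4
  obtain ⟨rc, re⟩ := h_fub1 K R l _ _ ε hK.toSKer hl hw hf a2.1
  have kc := (hK.toSKer.contDiff_kreg (hL.distBd hJ 0) ε).continuous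
  have i1 := ((hf.smul_fun rc).integrable volume).const_mul (2 * (1 - η))
  simp only [smul_eq_mul] at i1
  have i2 := hf'.integrable volume
  have e2 : (fun y => k y * (2 * (g y * Real.sqrt (q y)) *
      ((1 - η) * rk K l (fun y => bp 5 6 y / Real.sqrt (q y)) ε y) - g y ^ 2 * q y)) =
      fun y => 2 * (1 - η) * (k y * (g y * Real.sqrt (q y)) *
        rk K l (fun y => bp 5 6 y / Real.sqrt (q y)) ε y) - k y * (g y ^ 2 * q y) :=
    funext fun y => by ring
  have b1 := SelfTAux.cut (l := 1) (f := fun x => C₁ * (ε⁻¹ * lam μ R ε x) ^ 2)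
    (q := fun y => 2 * (g y * Real.sqrt (q y)) *
      ((1 - η) * rk K l (fun y => bp 5 6 y / Real.sqrt (q y)) ε y) - g y ^ 2 * q y)
    (w := fun y => wedge (kreg K L ε y) (kreg K L ε y)) hk.2 k0 k1 (by rw [e2]; exact i1.sub i2)
    ((hk.smul_fun ((contDiff_wedge2 (n := 0)).continuous.comp (kc.prodMk kc))).integrable volume)
    (continuous_const.mul ((continuous_const.mul (continuous_lam _ R ε)).pow 2))
    (fun y => mul_nonneg C0 (sq_nonneg _)) fun y hy => by
      have := h2 ε a2 a4.2.le y _ _ (mul_nonneg (g0 y) (Real.sqrt_nonneg (q y)))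
        (h1 ε a2 a3.2.le y)
      rw [mul_pow (g y), Real.sq_sqrt (qq y (mem_closedBall_zero_iff.1 hy)).le] at this
      rwa [one_mul]
  rw [e2, integral_sub i1 i2, integral_const_mul, integral_const_mul, re] at b1
  have b2 := mul_le_mul_of_nonneg_left (SelfTAux.en_le μ R ε) C0
  linarith

end Vale.Agent.P247
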