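import Vale.Agent.P247.Stm2
import Vale.Agent.P247.Main

open scoped ContDiff RealInnerProductSpace Topology Manifold
open MeasureTheory Metric

namespace Vale.Agent.P247

open Vale.Agent.P204 Vale.Agent.P204.Setup

universe u

variable {X : Type u} [TopologicalSpace X] [T2Space X] [CompactSpace X]
  [SecondCountableTopology X] [MeasurableSpace X] [BorelSpace X]

theorem p_mainL (h_exTL : S_exTL X) (h_aL2 : S_aL2 X) (h_kbd : S_kbd X) (h_kcur : S_kcur X)
    (h_polL : S_polL X) (h_limL : S_limL X) (h_quad : S_quad X) (h_hi1 : S_hi1 X) :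
    S_mainL X := by
  intro s a b c h hne ha htri hh hh0 hW0 hWV
  by_contra hno
  set V := s.Int a a with hVdef
  set U := s.Int (fun x => h x ^ 2 • c x) c with hUdef
  have hV0 : 0 < V := htri.va
  set m := Real.sqrt (U * V) with hmdef
  have hm2 : m ^ 2 = U * V := Real.sq_sqrt (by positivity)
  have hm0 : 0 < m := Real.sqrt_pos.2 (by positivity)
  have hmV : m < V := by
    by_contra hc
    push Not at hc
    nlinarith
  obtain ⟨σ, hσ⟩ := main_setup s a ha
  have hσ0 := MainAux.compat_pmF hσ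
  have hpp : s.ppF σ = σ := by rw [MainAux.ppF_eq, hσ0, sub_zero]
  have htσ := h_hi1 s a b c σ hne htri hσ
  obtain ⟨T, α, l, β, hl, hT, hT1, hEx, hTa, hb, hc, hβ⟩ :=
    h_exTL s a b c σ h hne ha htri hσ0 htσ hh hno
  have hTp : ∀ φ, s.Cont φ → s.Pos φ → 0 ≤ T φ := fun φ h1 h2 =>
    (integral_nonneg fun _ => Real.sqrt_nonneg _).trans (hT φ h1 h2)
  obtain ⟨μ, hμ⟩ := ha.exists_posCur hTp
  obtain ⟨M, K, R, N, ε₀, hM⟩ := Mo.exists_moll s
  obtain ⟨A₀, hA₀, hL2⟩ := h_aL2 s M K R N ε₀ a σ b c T α μ β hM ha hμ hσ0 htσ hEx hb hc hβ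
  obtain ⟨c₁, hc₁⟩ := h_kbd s a T α β A₀ hne ha hEx hβ hA₀ hL2
  obtain ⟨S, hS, hSe⟩ := h_kcur s a T c₁ hne ha hc₁
  obtain ⟨T', ν', D, hT', hEx', hD, hdom, hTT⟩ :=
    h_polL s a σ b c T α S μ l A₀ hne ha htσ hμ hEx hL2 hl hT hS hSe
  have hF : s.Cont (s.ppF a) := ha.smooth.cont.ppF
  have hb' : T' b + α b = 0 := by
    rw [hb, MainAux.kill hT'.pos htri.hb.smooth.cont htri.hb.anti, add_zero]
  have hc' : T' c + α c = 0 := by
    rw [hc, MainAux.kill hT'.pos htri.hc.smooth.cont htri.hc.anti, add_zero]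
  have hασ : α σ = 0 := by
    rw [AtlasSnAux.eq_pmF s hβ hσ.smooth, hσ0, map_zero]
  set η := (1 - m / V) / 2 with hη
  have hmV' : m / V < 1 := (div_lt_one hV0).2 hmV
  have hmV'' : 0 < m / V := div_pos hm0 hV0
  have hη0 : 0 < η := by rw [hη]; linarith
  have hη1 : η < 1 := by rw [hη]; linarith
  set I := ∫ x, h x ∂l with hI
  have hI0 : 0 ≤ I := integral_nonneg hh0
  have ht0 : 0 ≤ (1 - η) * I / U := div_nonneg (mul_nonneg (by linarith) hI0) hW0.le
  have hq := h_quad s a b c σ ((I / m * (1 - η)) ^ 2 * V) (T' a + α a) (T' σ) htri htσ (by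
    intro δ hδ
    obtain ⟨H, h1, h2, h3, h4, h5, h6, h7⟩ := h_limL s M K R N ε₀ a b c σ T' α ν' l β A₀ D η δ
      (fun x => (1 - η) * I / U * h x) hM hne ha htri.hc htri.hb.smooth hσ.smooth hT' hD hEx' hβ
      hA₀ hL2 hl hdom (continuous_const.mul hh) (fun x => mul_nonneg ht0 (hh0 x)) hη0 hη1 hδ
    rw [hb', sub_zero] at h5
    rw [hc', sub_zero] at h6
    rw [hασ, add_zero] at h7
    refine ⟨H, h1, h2, le_trans (le_of_eq ?_) h3, h4, h5, h6, h7⟩
    have e : (fun x => ((1 - η) * I / U * h x) ^ 2 • c x) =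
        ((1 - η) * I / U) ^ 2 • fun x => h x ^ 2 • c x := by
      funext x
      rw [Pi.smul_apply, smul_smul, mul_pow]
    rw [e, s.Int_smul_left, integral_const_mul, ← hI, ← hUdef, mul_pow, div_pow, hm2]
    field_simp
    ring)
  obtain ⟨C, -, hC⟩ := hσ.toTame.abs_le_sn
  have h1 := hC T' hT'.pos _ hF
  rw [hpp] at h1
  have hy : 0 ≤ T' σ := by
    have := hT'.pos _ hσ.smooth.cont.ppF hσ.toTame.pos_F
    rwa [hpp] at this
  refine MainAux.arith (u := T' (s.ppF a)) (C := C * s.sn 0 (s.ppF a)) (div_nonneg hI0 hm0.le)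
    hV0 hη1 (m := m) ?_ htσ.va (MainAux.int_pos hσ ha) hy ?_ ?_ ?_ hq
  · have : (1 - η) * V = (V + m) / 2 := by rw [hη]; field_simp; ring
    linarith
  · rw [← hT1]
    exact hTT _ hF ha.pos_F
  · rw [MainAux.eq_ppF hT'.pos ha.smooth.cont, div_mul_cancel₀ _ hm0.ne']
    rw [MainAux.eq_ppF hTp ha.smooth.cont, hT1] at hTa
    linarith
  · have := le_abs_self (T' (s.ppF a))
    linarith

end Vale.Agent.P247
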