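import Vale.Agent.P247.Stm2

open scoped ContDiff RealInnerProductSpace Topology Manifold
open MeasureTheory Metric

namespace Vale.Agent.P247

open Vale.Agent.P204 Vale.Agent.P204.Setup

universe u

variable {X : Type u} [TopologicalSpace X] [T2Space X] [CompactSpace X]
  [SecondCountableTopology X] [MeasurableSpace X] [BorelSpace X]

theorem p_null :
    S_null X := by
  intro s c μ l A C hc hμ hl hA hE h
  have cc := hc.smooth.cont
  obtain ⟨K, hK⟩ := PolarAux.Int_err (μ := μ) hA hE cc cc
  have key : ∀ t η : ℝ, 0 ≤ t → 0 < η → t * l.real Aᶜ ≤ C + (t + t ^ 2 * |K|) * η := by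
    intro t η ht hη
    obtain ⟨g, hg, g0, g1, hgη⟩ := exists_approx (l + ∑ j, PolarAux.nu s j) hA hη
    have hm : ∀ ν' : Measure X, ν' ≤ l + ∑ j, PolarAux.nu s j →
        ∫ x, |g x - A.indicator 1 x| ∂ν' ≤ η := fun ν' hν =>
      (integral_mono_measure hν (ae_of_all _ fun _ => abs_nonneg _)
        (PolarAux.int_err _ hA hg g0 g1)).trans hgη
    have h2 := hm (l.restrict Aᶜ) (Measure.restrict_le_self.trans (Measure.le_add_right le_rfl))
    have h3 := (hK g hg g0 g1 _ fun j => hm _ (Measure.le_add_left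
      (Finset.single_le_sum (f := fun j => PolarAux.nu s j) (fun _ _ => bot_le)
        (Finset.mem_univ j)))).trans (mul_le_mul_of_nonneg_right (le_abs_self K) hη.le)
    have c1 : Continuous fun x => 1 - g x := continuous_const.sub hg
    have h4 := h (fun x => t * (1 - g x)) (continuous_const.mul c1)
      fun x => mul_nonneg ht (sub_nonneg.2 (g1 x))
    have e1 : ∫ x in Aᶜ, |g x - A.indicator 1 x| ∂l = ∫ x in Aᶜ, g x ∂l :=
      setIntegral_congr_fun hA.compl fun x hx => by
        simp only [Set.indicator_of_notMem hx, sub_zero, abs_of_nonneg (g0 x)]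
    have ig : Integrable g (l.restrict Aᶜ) := .of_bound hg.aestronglyMeasurable 1
      (ae_of_all _ fun x => by rw [Real.norm_of_nonneg (g0 x)]; exact g1 x)
    have e2 : (fun x => (t * (1 - g x)) ^ 2 • c x) = t ^ 2 • fun x => (1 - g x) ^ 2 • c x := by
      funext x
      rw [mul_pow, mul_smul]
      rfl
    have e3 : c - (fun x => g x • c x) =
        (fun x => (1 - g x) ^ 2 • c x) + fun x => (g x * (1 - g x)) • c x := by
      funext x
      simp only [Pi.sub_apply, Pi.add_apply]
      module
    have h5 : 0 ≤ s.Int (fun x => (g x * (1 - g x)) • c x) c :=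
      AtlasInt2Aux.Int_nn s fun j y hy => by
        have := AtlasInt2Aux.pm_nn s c j y hy
        rw [hc.anti] at this
        rw [s.loc_fun_smul, wedge_smul_left]
        exact mul_nonneg (mul_nonneg (g0 _) (sub_nonneg.2 (g1 _))) this
    rw [← s.Int_sub_left cc (cc.fun_smul hg) cc, e3,
      s.Int_add_left (cc.fun_smul (c1.fun_pow 2)) (cc.fun_smul (hg.fun_mul c1)) cc] at h3
    rw [integral_const_mul, integral_sub (integrable_const _) ig, integral_const,
      measureReal_restrict_apply_univ, smul_eq_mul, mul_one, e2, s.Int_smul_left] at h4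
    rw [e1] at h2
    have h6 := mul_le_mul_of_nonneg_left h2 ht
    have h7 := mul_le_mul_of_nonneg_left ((le_add_of_nonneg_right h5).trans h3) (sq_nonneg t)
    linarith
  by_contra hn
  have hp : 0 < l.real Aᶜ := ENNReal.toReal_pos hn (measure_ne_top _ _)
  obtain ⟨t, t0, ht⟩ : ∃ t : ℝ, 0 ≤ t ∧ t * l.real Aᶜ = |C| + 2 :=
    ⟨(|C| + 2) / l.real Aᶜ, by positivity, div_mul_cancel₀ _ hp.ne'⟩
  have q : 0 < t + t ^ 2 * |K| + 1 := by positivity
  have h1 := key t _ t0 (inv_pos.2 q)
  have h2 := mul_inv_cancel₀ q.ne'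
  have h3 := inv_pos.2 q
  have h4 := le_abs_self C
  linarith

end Vale.Agent.P247
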