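import Vale.Agent.P247.Stm

open scoped ContDiff RealInnerProductSpace Topology Manifold
open MeasureTheory Metric

namespace Vale.Agent.P247

open Vale.Agent.P204 Vale.Agent.P204.Setup

universe u

namespace PolAux

theorem zeroDens_of_le {μ μ' : Measure E} [IsFiniteMeasure μ] (h : ZeroDens μ) (hle : μ' ≤ μ) :
    ZeroDens μ' := by
  filter_upwards [ae_mono hle h] with y hy hb
  refine squeeze_zero (fun r => by positivity) (fun r => ?_) (hy hb)
  exact mul_le_mul_of_nonneg_left (ENNReal.toReal_mono (measure_ne_top μ _) (hle _))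
    (by positivity)

end PolAux

variable {X : Type u} [TopologicalSpace X] [T2Space X] [CompactSpace X]
  [SecondCountableTopology X] [MeasurableSpace X] [BorelSpace X]

theorem p_pol (h_elm : S_elm) (h_kill : S_kill X) (h_restr : S_restr X) :
    S_pol X := by
  intro s a c T α S ν κ A₀ h hc hν hT hα hκ hl hS hE
  have hF : s.Cont (s.ppF a) := h.smooth.cont.ppF
  have hI : ∀ φ, s.Cont φ → s.Pos φ → 0 ≤ s.Int φ (s.ppF a) := fun φ hφ hp => by
    rw [s.Int_ppF_right hφ h.smooth.cont]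
    exact s.Int_pp_nonneg hp (ExSAux.pos_om h)
  obtain ⟨μR, hR⟩ := h.exists_posCur (T := S - T) fun φ hφ hp => by
    rw [LinearMap.sub_apply]
    linarith [hS φ hφ hp, hI φ hφ hp]
  have := hν.fin
  have := hR.fin
  have hμ : s.PosCur (s.ppF a) S (ν + μR) := ⟨inferInstance, fun φ hφ hp => by
    linarith [hS φ hφ hp, hI φ hφ hp, hν.pos φ hφ hp], fun f hf => by
      rw [integral_add_measure (RestrictAux.integrable ν hf) (RestrictAux.integrable μR hf),
        ← hν.trace f hf, ← hR.trace f hf, LinearMap.sub_apply]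
      ring⟩
  set μ := ν + μR with hμd
  have hle : ν ≤ μ := Measure.le_add_right le_rfl
  obtain ⟨c', C, hL⟩ := h.locPos
  have hK : ∀ i, KillsD (s.lf S i) := fun i _ hp => hE _ (Mo.ex_of_test s i hp)
  have hK' : ∀ i, KillsD (s.lf T i + s.lf α i) := fun i _ hp => hT _ (Mo.ex_of_test s i hp)
  choose D hD using fun i => (hL S μ hμ i).densBd (s.good i) (hK i)
  obtain ⟨A, hA, hEp⟩ := s.exists_polar_set μ
  obtain ⟨T', hT', hap⟩ := hν.exists_restrict h hA
  obtain ⟨c₀, hc₀, C₀, -, hb⟩ := h.bounds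
  refine ⟨T', ν.restrict A, ∑ i, |D i|, hT', fun e he => ?_, fun i => ⟨fun x hx ε hε => ?_, ?_⟩,
    h_restr s a c T T' μ ν A κ h hc hμ.fin hν hA hEp hap hκ hl⟩
  · refine (Submodule.span_le (p := LinearMap.ker (T' + α))).2 ?_ he
    rintro _ ⟨i, p, hp, rfl⟩
    obtain ⟨C₁, hC₁, h1⟩ := hap _ (s.cont_glob i (hp.d1.ctest.mono (by norm_num)))
    refine h_kill s T T' α μ ν A i c' C C₁ p hμ.fin hle hA (hEp i) (hL T ν hν i) hp hC₁ ?_ h1
    refine h_elm (s.Jl i) (s.lf S i) (s.lf T i) (s.lf α i) (s.lm μ i) (s.lm ν i) c' C (D i) A₀ c₀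
      (s.loc i (s.ppF a)) (hL S μ hμ i) (hL T ν hν i) (s.good i) (hK i) (hD i) (s.lm_mono hle i)
      (hK' i) (hα i) (hF i) hc₀ (fun y hy => (hb i y hy).2) (fun θ hθ hp' => ?_) p hp
    have c1 := s.cont_glob i hθ
    have c2 := s.pos_glob i hp'
    rw [← s.Int_glob i hθ hF]
    change T (s.glob i θ) ≤ S (s.glob i θ) ∧ _ ≤ S (s.glob i θ)
    constructor <;> linarith [hS _ c1 c2, hI _ c1 c2, hν.pos _ c1 c2]
  · have := s.isFiniteMeasure_lm μ i
    have := s.isFiniteMeasure_lm (ν.restrict A) i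
    exact ((hD i).of_le _ _ (s.lm_mono (Measure.restrict_le_self.trans hle) i) x hx ε hε).trans
      ((le_abs_self _).trans (Finset.single_le_sum (f := fun i => |D i|)
        (fun _ _ => abs_nonneg _) (Finset.mem_univ i)))
  · have := s.isFiniteMeasure_lm (μ.restrict A) i
    exact PolAux.zeroDens_of_le (s.zeroDens_restrict μ hA hEp i)
      (s.lm_mono (Measure.restrict_mono le_rfl hle) i)

end Vale.Agent.P247
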