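import Vale.Agent.P247.Stm2

open scoped ContDiff RealInnerProductSpace Topology Manifold
open MeasureTheory Metric

namespace Vale.Agent.P247

open Vale.Agent.P204 Vale.Agent.P204.Setup

universe u

variable {X : Type u} [TopologicalSpace X] [T2Space X] [CompactSpace X]
  [SecondCountableTopology X] [MeasurableSpace X] [BorelSpace X]

theorem p_polL (h_polA : S_polA X) (h_restrL : S_restrL X) (h_l2 : S_l2 X) (h_null : S_null X) :
    S_polL X := by
  intro s a σ b c T α S ν l A₀ hX ha ht hT hK hL hl hD hS hS0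
  obtain ⟨T', μ, A, D, hμ, hA, hE, hT', hK', hd, hr⟩ := h_polA s a T α S ν A₀ ha hT hK hL hS hS0
  obtain ⟨d1, d2⟩ := h_restrL s a c T T' ν l A ht.hc hT hl hA hr hD
  have := hT.fin
  have hp : ∀ φ, s.Cont φ → s.Pos φ → 0 ≤ (T - T') φ := fun φ h1 h2 =>
    (integral_nonneg fun x => Real.sqrt_nonneg _).trans (d2 φ h1 h2)
  have h2 : s.PosCur (s.ppF a) (T - T') (ν.restrict Aᶜ) := by
    refine ⟨inferInstance, hp, fun f hf => ?_⟩
    rw [LinearMap.sub_apply, hT.trace f hf, hT'.trace f hf,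
      ← integral_add_compl hA (RestrictAux.integrable ν hf), add_sub_cancel_left]
  have hle : ∀ (B : Set X) i, DensBd (s.lm (ν.restrict B) i) 2 D := fun B i =>
    have := s.isFiniteMeasure_lm ν i
    have := s.isFiniteMeasure_lm (ν.restrict B) i
    (hd i).1.of_le _ _ (s.lm_mono Measure.restrict_le_self i)
  obtain ⟨C, hC⟩ := h_l2 s a σ b c (T - T') (ν.restrict Aᶜ) (l.restrict Aᶜ) D hX ha ht h2
    (fun e he => by rw [LinearMap.sub_apply]; linarith [hK e he, hK' e he]) (hle _)
    inferInstance d2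
  have h0 := h_null s c μ l A C ht.hc hμ hl hA hE hC
  rw [Measure.restrict_eq_self_of_ae_mem (mem_ae_iff.2 h0)] at d1
  exact ⟨T', ν.restrict A, D, hT', hK', fun i => ⟨hle A i, (hd i).2⟩, d1,
    fun φ h1 h2 => sub_nonneg.1 (hp φ h1 h2)⟩

end Vale.Agent.P247
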