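import Vale.Agent.P247.Stm2

open scoped ContDiff RealInnerProductSpace Topology Manifold
open MeasureTheory Metric

namespace Vale.Agent.P247

open Vale.Agent.P204 Vale.Agent.P204.Setup

universe u

variable {X : Type u} [TopologicalSpace X] [T2Space X] [CompactSpace X]
  [SecondCountableTopology X] [MeasurableSpace X] [BorelSpace X]

namespace RestrLAux

omit [T2Space X] [SecondCountableTopology X] in
theorem integ (l : Measure X) [IsFiniteMeasure l] {f : X → ℝ} (hf : Continuous f) :
    Integrable f l := by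
  obtain ⟨B, hB⟩ := isCompact_univ.exists_bound_of_continuousOn hf.continuousOn
  exact .of_bound hf.aestronglyMeasurable B (ae_of_all _ fun x => hB x (Set.mem_univ x))

omit [T2Space X] [SecondCountableTopology X] in
theorem err (l : Measure X) [IsFiniteMeasure l] {A : Set X} (hA : MeasurableSet A) {f : X → ℝ}
    (hf : Continuous f) : ∃ B : ℝ, 0 ≤ B ∧ ∀ g : X → ℝ, Continuous g → (∀ x, 0 ≤ g x) →
      (∀ x, g x ≤ 1) → |∫ x, g x * f x ∂l - ∫ x in A, f x ∂l| ≤
        B * ∫ x, |g x - A.indicator 1 x| ∂l := by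
  obtain ⟨B, hB⟩ := isCompact_univ.exists_bound_of_continuousOn hf.continuousOn
  refine ⟨|B|, abs_nonneg _, fun g hg g0 g1 => ?_⟩
  rw [← integral_indicator hA, ← integral_sub (integ l (hg.fun_mul hf)) ((integ l hf).indicator hA),
    ← integral_const_mul]
  refine abs_integral_le_integral_abs.trans (integral_mono_of_nonneg
    (ae_of_all _ fun _ => abs_nonneg _) ((PolarAux.int_err l hA hg g0 g1).const_mul _)
    (ae_of_all _ fun x => ?_))
  have e : g x * f x - A.indicator f x = f x * (g x - A.indicator 1 x) := by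
    by_cases hx : x ∈ A
    · simp only [Set.indicator_of_mem hx, Pi.one_apply]
      ring
    · simp only [Set.indicator_of_notMem hx]
      ring
  have hb : |f x| ≤ |B| := (hB x (Set.mem_univ x)).trans (le_abs_self B)
  change |g x * f x - A.indicator f x| ≤ |B| * |g x - A.indicator 1 x|
  rw [e, abs_mul]
  exact mul_le_mul_of_nonneg_right hb (abs_nonneg _)

end RestrLAux

theorem p_restrL (h_phi : S_phi X) (h_rhoLoc : S_rhoLoc X) :
    S_restrL X := by
  intro s a c T T' ν l A hc hT hl hA hap hD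
  have := hT.fin
  have h3' := (h_phi s c hc).2.2.1
  have key : ∀ φ, s.Cont φ → ∀ ε : ℝ, 0 < ε → ∃ g : X → ℝ, Continuous g ∧ (∀ x, 0 ≤ g x) ∧
      (∀ x, g x ≤ 1) ∧ |T' φ - T fun x => g x • φ x| +
        |∫ x, g x * rho s c φ x ∂l - ∫ x in A, rho s c φ x ∂l| ≤ ε := by
    intro φ hφ ε hε
    obtain ⟨C₁, hC₁, h1⟩ := hap φ hφ
    obtain ⟨B, hB, h2⟩ := RestrLAux.err l hA ((h_rhoLoc s c hc).2 φ hφ)
    have hη : 0 < ε / (C₁ + B + 1) := by positivity
    obtain ⟨g, hg, g0, g1, hgη⟩ := exists_approx (ν + l) hA hη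
    have hm : ∀ ν' : Measure X, ν' ≤ ν + l →
        ∫ x, |g x - A.indicator 1 x| ∂ν' ≤ ε / (C₁ + B + 1) := fun ν' hν =>
      (integral_mono_measure hν (ae_of_all _ fun _ => abs_nonneg _)
        (PolarAux.int_err _ hA hg g0 g1)).trans hgη
    have h4 := (h1 g hg).trans (mul_le_mul_of_nonneg_left
      (hm ν (Measure.le_add_right le_rfl)) hC₁)
    have h5 := (h2 g hg g0 g1).trans (mul_le_mul_of_nonneg_left
      (hm l (Measure.le_add_left le_rfl)) hB)
    have h6 : (C₁ + B + 1) * (ε / (C₁ + B + 1)) = ε := mul_div_cancel₀ _ (by positivity)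
    refine ⟨g, hg, g0, g1, ?_⟩
    generalize ε / (C₁ + B + 1) = η at h4 h5 h6 hη
    linarith
  have low : ∀ φ, s.Cont φ → s.Pos φ → ∀ g : X → ℝ, Continuous g → (∀ x, 0 ≤ g x) →
      ∫ x, g x * rho s c φ x ∂l ≤ T fun x => g x • φ x := by
    intro φ hφ hp g hg g0
    have h4 := hD _ (hφ.fun_smul hg) fun x b => by
      rw [ev_smul]
      exact mul_nonneg (g0 x) (hp x b)
    have e : (fun x => rho s c (fun x => g x • φ x) x) = fun x => g x * rho s c φ x :=
      funext fun x => h3' g φ x (g0 x)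
    rwa [e] at h4
  refine ⟨fun φ hφ hp => ?_, fun φ hφ hp => ?_⟩
  · refine le_of_forall_pos_le_add fun ε hε => ?_
    obtain ⟨g, hg, g0, _, h⟩ := key φ hφ ε hε
    have h4 := low φ hφ hp g hg g0
    have h5 := neg_abs_le (T' φ - T fun x => g x • φ x)
    have h6 := neg_abs_le (∫ x, g x * rho s c φ x ∂l - ∫ x in A, rho s c φ x ∂l)
    linarith
  · refine le_of_forall_pos_le_add fun ε hε => ?_
    obtain ⟨g, hg, _, g1, h⟩ := key φ hφ ε hε
    have hρ : Continuous (rho s c φ) := (h_rhoLoc s c hc).2 φ hφ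
    have h4 := low φ hφ hp (fun x => 1 - g x) (continuous_const.sub hg)
      fun x => sub_nonneg.2 (g1 x)
    have e : (fun x => (1 - g x) • φ x) = φ - fun x => g x • φ x := by
      funext x
      rw [sub_smul, one_smul]
      rfl
    have e2 : ∫ x, (1 - g x) * rho s c φ x ∂l =
        ∫ x, rho s c φ x ∂l - ∫ x, g x * rho s c φ x ∂l := by
      rw [← integral_sub (RestrLAux.integ l hρ) (RestrLAux.integ l (hg.fun_mul hρ))]
      refine integral_congr_ae (ae_of_all _ fun x => ?_)
      ring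
    rw [e, map_sub, e2] at h4
    have h5 := le_abs_self (T' φ - T fun x => g x • φ x)
    have h6 := le_abs_self (∫ x, g x * rho s c φ x ∂l - ∫ x in A, rho s c φ x ∂l)
    have h7 := integral_add_compl hA (RestrLAux.integ l hρ)
    rw [LinearMap.sub_apply]
    linarith

end Vale.Agent.P247
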