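import Vale.Agent.P247.Stm

open scoped ContDiff RealInnerProductSpace Topology Manifold
open MeasureTheory Metric

namespace Vale.Agent.P247

open Vale.Agent.P204 Vale.Agent.P204.Setup

universe u

variable {X : Type u} [TopologicalSpace X] [T2Space X] [CompactSpace X]
  [SecondCountableTopology X] [MeasurableSpace X] [BorelSpace X]

namespace PhiAux

theorem sqrt_sup {a b w q : ℝ} (ha : 0 ≤ a) (hb : 0 ≤ b) (hw : 0 ≤ w) (h : a * b ≤ w ^ 2)
    (hq : 0 < q) : √(a / q) + √(b / q) ≤ √((a + w + (w + b)) / q) := by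
  have h1 := Real.sq_sqrt (div_nonneg ha hq.le)
  have h2 := Real.sq_sqrt (div_nonneg hb hq.le)
  have h3 : √(a / q) * √(b / q) ≤ w / q := by
    rw [← sq_le_sq₀ (by positivity) (by positivity), mul_pow, h1, h2, div_mul_div_comm, div_pow,
      ← sq]
    exact div_le_div_of_nonneg_right h (by positivity)
  refine Real.le_sqrt_of_sq_le ?_
  rw [add_sq, h1, h2, add_div, add_div, add_div]
  linarith

end PhiAux

open AtlasInt2Aux in
theorem p_phi (h_rhoLoc : S_rhoLoc X) (h_lor2 : S_lor2) :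
    S_phi X := by
  intro s c hc
  obtain ⟨h1, h2⟩ := h_rhoLoc s c hc
  have cc := hc.smooth.cont
  have q : ∀ j y, ‖y‖ < 10 → 0 < wedge (s.loc j c y) (s.loc j c y) := fun j y hy =>
    (h1 j y (mem_ball_zero_iff.2 hy)).1
  have nn : ∀ φ j y, ‖y‖ < 10 →
      0 ≤ wedge (s.loc j (fun x => rho s c φ x • c x) y) (s.loc j c y) := fun φ j y hy => by
    rw [s.loc_fun_smul, wedge_smul_left]
    exact mul_nonneg (Real.sqrt_nonneg _) (q j y hy).le
  have sm : ∀ (g : X → ℝ) φ x, 0 ≤ g x →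
      rho s c (fun x => g x • φ x) x = g x * rho s c φ x := fun g φ x hg => by
    simp only [rho, ppF, map_smul, wedge_smul_left, wedge_smul_right]
    rw [← mul_assoc, mul_div_assoc, Real.sqrt_mul (mul_self_nonneg _), Real.sqrt_mul_self hg]
  refine ⟨fun φ => Int_nn s (nn φ), fun φ => ?_, sm, fun t φ ht => ?_,
    fun φ φ' c1 c2 p1 p2 => ?_, fun a ha hX => ?_⟩
  · simp only [Phi, rho, ppF, pp_pp (s.J_sq _)]
  · rw [Phi, Phi, ← s.Int_smul_left]
    refine congrArg (s.Int · c) (funext fun x => ?_)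
    rw [Pi.smul_apply, smul_smul]
    exact congrArg (· • c x) (sm (fun _ => t) φ x ht)
  · have k1 := cc.fun_smul (h2 φ c1)
    have k2 := cc.fun_smul (h2 φ' c2)
    rw [Phi, Phi, Phi, ← s.Int_add_left k1 k2 cc]
    refine Finset.sum_le_sum fun j _ => integral_mono (s.integrable_Int (k1.add k2) cc j)
      (s.integrable_Int (cc.fun_smul (h2 _ (c1.add c2))) cc j) fun y => c_le s j y fun hy => ?_
    have hJ := (s.good j).near y
    have e := (h1 j y (mem_ball_zero_iff.2 hy)).2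
    have w := fun φ φ' p1 p2 => (pp_nn s (φ := φ) (φ' := φ') p1 p2 j y hy).trans_eq
      (congrArg₂ wedge (s.loc_ppF j φ hy) (s.loc_ppF j φ' hy))
    rw [map_add, Pi.add_apply, s.loc_fun_smul, s.loc_fun_smul, s.loc_fun_smul, ← add_smul,
      wedge_smul_left, wedge_smul_left, e, e, e, map_add, Pi.add_apply, map_add, wedge_add_left,
      wedge_add_right, wedge_add_right, wedge_comm (pp _ (s.loc j φ' y)) (pp _ (s.loc j φ y))]
    exact mul_le_mul_of_nonneg_right (PhiAux.sqrt_sup (w _ _ p1 p1) (w _ _ p2 p2) (w _ _ p1 p2)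
      (h_lor2 _ _ _ hJ (pull_pp hJ.1 _) (pull_pp hJ.1 _) (w _ _ p2 p2)) (q j y hy)) (q j y hy).le
  · obtain ⟨i, -, hy, hc⟩ := s.cover_lt (Classical.arbitrary X)
    obtain ⟨c₀, hc₀, C₀, -, hb⟩ := ha.bounds
    generalize s.ψ i (Classical.arbitrary X) = y₀ at hy hc
    refine Finset.sum_pos' (fun j _ => integral_nonneg fun y => c_nn s j y (nn a j y))
      ⟨i, Finset.mem_univ i, ?_⟩
    have ht : CTest 1 fun y =>
        s.c i y * wedge (s.loc i (fun x => rho s c a x • c x) y) (s.loc i c y) :=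
      (s.c_test i).ctest.smul_continuousOn (by norm_num)
        (AtlasIntAux.contOn_wedge (cc.fun_smul (h2 a ha.smooth.cont) i) (cc i))
    refine ht.1.integral_pos_of_hasCompactSupport_nonneg_nonzero ht.hasCompactSupport
      (fun y => c_nn s i y (nn a i y)) (x := y₀) (mul_pos hc ?_).ne'
    have hJ := (s.good i).near y₀
    have hy' : ‖y₀‖ < 10 := by linarith
    rw [s.loc_fun_smul, wedge_smul_left, (h1 i y₀ (mem_ball_zero_iff.2 hy')).2]
    refine mul_pos (Real.sqrt_pos.2 (div_pos (hJ.wedge_self_pos (pull_pp hJ.1 _) fun v hv => ?_)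
      (q i y₀ hy'))) (q i y₀ hy')
    rw [← s.loc_ppF i a hy']
    refine lt_of_lt_of_le ?_ ((hb i y₀ (mem_closedBall_zero_iff.2 (by linarith))).2 v)
    exact mul_pos hc₀ (pow_pos (norm_pos_iff.2 hv) 2)

end Vale.Agent.P247
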