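import Vale.Agent.P247.Stm2
import Vale.Agent.P247.Phi

open scoped ContDiff RealInnerProductSpace Topology Manifold
open MeasureTheory Metric

namespace Vale.Agent.P247

open Vale.Agent.P204 Vale.Agent.P204.Setup

universe u

variable {X : Type u} [TopologicalSpace X] [T2Space X] [CompactSpace X]
  [SecondCountableTopology X] [MeasurableSpace X] [BorelSpace X]

open AtlasInt2Aux in
theorem p_rhoAlg (h_rhoLoc : S_rhoLoc X) (h_lor2 : S_lor2) :
    S_rhoAlg X := by
  intro s c hc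
  obtain ⟨h1, h2⟩ := h_rhoLoc s c hc
  have pt : ∀ x, ∃ i y, ‖y‖ < 1 ∧ x = (s.ψ i).symm y := fun x => by
    obtain ⟨i, hx, hy, -⟩ := s.cover_lt x
    exact ⟨i, _, hy, ((s.ψ i).left_inv hx).symm⟩
  refine ⟨fun φ φ' p1 p2 x => ?_, fun a ha => ?_⟩
  · obtain ⟨j, y, hy', rfl⟩ := pt x
    have hy : ‖y‖ < 10 := by linarith
    have hJ := (s.good j).near y
    obtain ⟨q, e⟩ := h1 j y (mem_ball_zero_iff.2 hy)
    have w := fun φ φ' p1 p2 => (pp_nn s (φ := φ) (φ' := φ') p1 p2 j y hy).trans_eq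
      (congrArg₂ wedge (s.loc_ppF j φ hy) (s.loc_ppF j φ' hy))
    rw [e, e, e, map_add, Pi.add_apply, map_add, wedge_add_left,
      wedge_add_right, wedge_add_right, wedge_comm (pp _ (s.loc j φ' y)) (pp _ (s.loc j φ y))]
    exact PhiAux.sqrt_sup (w _ _ p1 p1) (w _ _ p2 p2) (w _ _ p1 p2)
      (h_lor2 _ _ _ hJ (pull_pp hJ.1 _) (pull_pp hJ.1 _) (w _ _ p2 p2)) q
  · have e : rho s c (s.ppF a) = rho s c a := by
      funext x
      simp only [rho, ppF, pp_pp (s.J_sq _)]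
    rw [e]
    have pos : ∀ x, 0 < rho s c a x := fun x => by
      obtain ⟨i, y, hy, rfl⟩ := pt x
      obtain ⟨c₀, hc₀, C₀, -, hb⟩ := ha.bounds
      have hJ := (s.good i).near y
      have hy' : ‖y‖ < 10 := by linarith
      obtain ⟨q, e⟩ := h1 i y (mem_ball_zero_iff.2 hy')
      rw [e]
      refine Real.sqrt_pos.2 (div_pos (hJ.wedge_self_pos (pull_pp hJ.1 _) fun v hv => ?_) q)
      rw [← s.loc_ppF i a hy']
      refine lt_of_lt_of_le ?_ ((hb i y (mem_closedBall_zero_iff.2 (by linarith))).2 v)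
      exact mul_pos hc₀ (pow_pos (norm_pos_iff.2 hv) 2)
    cases isEmpty_or_nonempty X with
    | inl h => exact ⟨1, one_pos, fun x => h.elim x⟩
    | inr h =>
      obtain ⟨x₀, -, hx⟩ := isCompact_univ.exists_isMinOn Set.univ_nonempty
        (h2 a ha.smooth.cont).continuousOn
      exact ⟨_, pos x₀, fun x => hx (Set.mem_univ x)⟩

end Vale.Agent.P247
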