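import Vale.Agent.P247.Stm2

open scoped ContDiff RealInnerProductSpace Topology Manifold
open MeasureTheory Metric

namespace Vale.Agent.P247

open Vale.Agent.P204 Vale.Agent.P204.Setup

universe u

variable {X : Type u} [TopologicalSpace X] [T2Space X] [CompactSpace X]
  [SecondCountableTopology X] [MeasurableSpace X] [BorelSpace X]

theorem p_rhoLm (h_rhoLoc : S_rhoLoc X) :
    S_rhoLm X := by
  intro s c l hc hl
  refine ⟨fun T hT i θ hθ hp => ?_, fun g hg => ?_⟩
  · have h1 := (h_rhoLoc s c hc).1 i
    have hw : CTest 9 fun y => wedge (pp (s.Jl i y) (θ y)) (pp (s.Jl i y) (θ y)) := by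
      have h2 := hθ.clm_apply (A := fun y => pp (s.Jl i y))
        ((contDiff_pp (n := 0)).continuous.comp (s.good i).smooth.continuous)
      exact ⟨(contDiff_wedge2 (n := 0)).continuous.comp (h2.1.prodMk h2.1), fun y hy => by
        simp only [hθ.2 y hy, map_zero, wedge_zero_left]⟩
    have hh := hw.smul_continuousOn (r' := 10)
      (θ := fun y => (wedge (s.loc i c y) (s.loc i c y))⁻¹) (by norm_num)
      ((AtlasIntAux.contOn_wedge (hc.smooth.cont i) (hc.smooth.cont i)).inv₀
        fun y hy => (h1 y hy).1.ne')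
    have hm : Measurable fun y => Real.sqrt (wedge (pp (s.Jl i y) (θ y)) (pp (s.Jl i y) (θ y)) /
        wedge (s.loc i c y) (s.loc i c y)) := hh.1.sqrt.measurable
    have e : s.glob0 i (fun y => Real.sqrt (wedge (pp (s.Jl i y) (θ y)) (pp (s.Jl i y) (θ y)) /
        wedge (s.loc i c y) (s.loc i c y))) = rho s c (s.glob i θ) := by
      funext x
      by_cases hx : x ∈ (s.ψ i).source
      · have hy := s.norm_lt_of_mem i hx
        have k3 := (h1 _ (mem_ball_zero_iff.2 hy)).2 (s.glob i θ)
        rw [(s.ψ i).left_inv hx, Mo.loc_glob s i θ hy] at k3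
        rw [k3, glob0, if_pos hx]
      · have : s.glob i θ x = 0 := if_neg hx
        rw [glob0, if_neg hx, rho, ppF, this, map_zero, wedge_zero_left, zero_div, Real.sqrt_zero]
    beta_reduce
    rw [s.integral_lm l i hm, e]
    exact hT _ (s.cont_glob i hθ) (s.pos_glob i hp)
  · have hc1 : ∀ i, CTest 9 (s.c i) := fun i => ((s.c_test i).mono (by norm_num)).ctest
    have h1 : ∀ i, ∫ y, s.c i y * g ((s.ψ i).symm y) ∂s.lm l i =
        ∫ x, s.glob0 i (s.c i) x * g x ∂l := fun i => by
      have a := (hc1 i).smul_continuousOn (r' := 10) (θ := fun y => g ((s.ψ i).symm y))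
        (by norm_num) (hg.comp_continuousOn (PolarAux.contOn_symm s i))
      rw [s.integral_lm l i (h := fun y => s.c i y * g ((s.ψ i).symm y)) a.1.measurable]
      refine integral_congr_ae (Filter.Eventually.of_forall fun x => ?_)
      by_cases hx : x ∈ (s.ψ i).source
      · simp only [glob0, if_pos hx, (s.ψ i).left_inv hx]
      · simp only [glob0, if_neg hx, zero_mul]
    have h2 : ∀ i, Integrable (fun x => s.glob0 i (s.c i) x * g x) l := fun i =>
      ((s.continuous_glob0 i (hc1 i)).mul hg).integrable_of_hasCompactSupport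
        (HasCompactSupport.of_compactSpace _)
    simp only [h1]
    rw [← integral_finsetSum _ fun i _ => h2 i]
    simp only [← Finset.sum_mul, s.sum_glob0_c, one_mul]

end Vale.Agent.P247
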