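import Vale.Agent.P247.Stm2

open scoped ContDiff RealInnerProductSpace Topology Manifold
open MeasureTheory Metric

namespace Vale.Agent.P247

open Vale.Agent.P204 Vale.Agent.P204.Setup

universe u

variable {X : Type u} [TopologicalSpace X] [T2Space X] [CompactSpace X]
  [SecondCountableTopology X] [MeasurableSpace X] [BorelSpace X]

theorem p_selfL (h_locL : S_locL) (h_rhoLm : S_rhoLm X) (h_rhoLoc : S_rhoLoc X) :
    S_selfL X := by
  intro s M K R N ε₀ a c T ν l η hM ha hc hT hl hdom hη hη1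
  obtain ⟨c₀, C₀, hLP⟩ := ha.locPos
  have LT := hLP T ν hT
  have hcc := hc.smooth.cont
  obtain ⟨hLD, hsum⟩ := h_rhoLm s c l hc hl
  have key := fun j => h_locL (K j) R N ε₀ (s.Jl j) (s.lf T j) (s.lm ν j) c₀ C₀
    (fun y => wedge (s.loc j c y) (s.loc j c y)) (s.lm l j) (hM.ker j) (s.good j) (LT j)
    (s.isFiniteMeasure_lm l j) (AtlasIntAux.contOn_wedge (hcc j) (hcc j))
    (fun y hy => ((h_rhoLoc s c hc).1 j y hy).1) (hLD T hdom j) η hη hη1
  choose C₁ hC₁ hev using key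
  refine ⟨∑ j, C₁ j, Finset.sum_nonneg fun j _ => hC₁ j, fun g hg hg0 δ hδ => ?_⟩
  have hδ' : 0 < δ / ((s.m : ℝ) + 1) := by positivity
  have ev1 := Filter.eventually_all.2 fun j => hev j (s.c j) (fun y => g ((s.ψ j).symm y))
    (s.c_test j).ctest (s.c_nonneg j) (s.c_le_one j)
    (hg.comp_continuousOn (PolarAux.contOn_symm s j)) (fun y => hg0 _) _ hδ'
  refine ev1.mono fun ε hε G hG => ?_
  have hs := Finset.sum_le_sum fun j (_ : j ∈ Finset.univ) => hε j
  rw [Finset.sum_sub_distrib, Finset.sum_sub_distrib, Finset.sum_sub_distrib, ← Finset.mul_sum,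
    hsum g hg, ← GStepAux.Int_eq s hG.loc hG.loc, Finset.sum_const, Finset.card_univ,
    Fintype.card_fin, nsmul_eq_mul] at hs
  have e1 : s.Int (fun x => g x ^ 2 • c x) c =
      ∑ j, ∫ y, s.c j y * (g ((s.ψ j).symm y) ^ 2 * wedge (s.loc j c y) (s.loc j c y)) := by
    refine Finset.sum_congr rfl fun j _ => ?_
    simp only [s.loc_fun_smul j (fun x => g x ^ 2) c, wedge_smul_left]
  have e2 : ∑ j, C₁ j * En (s.lm ν j) R ε ≤ (∑ j, C₁ j) * ∑ j, En (s.lm ν j) R ε := by
    rw [Finset.sum_mul]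
    refine Finset.sum_le_sum fun j _ => mul_le_mul_of_nonneg_left ?_ (hC₁ j)
    exact Finset.single_le_sum (f := fun j => En (s.lm ν j) R ε)
      (fun i _ => integral_nonneg fun z => sq_nonneg _) (Finset.mem_univ j)
  have e3 : (s.m : ℝ) * (δ / ((s.m : ℝ) + 1)) ≤ δ := by
    rw [← mul_div_assoc, div_le_iff₀ (by positivity)]
    nlinarith
  rw [e1]
  linarith

end Vale.Agent.P247
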