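import Vale.Agent.P247.Stm2

open scoped ContDiff RealInnerProductSpace Topology Manifold
open MeasureTheory Metric

namespace Vale.Agent.P247

open Vale.Agent.P204 Vale.Agent.P204.Setup

universe u

namespace SqPtAux

theorem small {C th δ h ε n : ℝ} (hC : 0 ≤ C) (hth : 0 < th) (hδ : 0 < δ) (hε : 0 < ε)
    (hh : (2 * C + 1) / th * h ≤ δ) (he : ε ≤ th / (2 * C + 1))
    (hn : n ≤ C * (ε⁻¹ * h + δ) / δ) : ε * n ≤ th := by
  have hD : 0 < 2 * C + 1 := by positivity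
  have h1 : ε * n ≤ ε * (C * (ε⁻¹ * h + δ) / δ) := mul_le_mul_of_nonneg_left hn hε.le
  have h2 : ε * (C * (ε⁻¹ * h + δ) / δ) = C * (h / δ) + C * ε := by
    field_simp
  have h3 : h / δ ≤ th / (2 * C + 1) := by
    rw [div_le_iff₀ hδ]
    have h0 : 0 ≤ th / (2 * C + 1) := by positivity
    calc h = th / (2 * C + 1) * ((2 * C + 1) / th * h) := by field_simp
      _ ≤ th / (2 * C + 1) * δ := mul_le_mul_of_nonneg_left hh h0
  have h4 : C * (h / δ) ≤ C * (th / (2 * C + 1)) := mul_le_mul_of_nonneg_left h3 hC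
  have h5 : C * ε ≤ C * (th / (2 * C + 1)) := mul_le_mul_of_nonneg_left he hC
  have h6 : (2 * C + 1) * (th / (2 * C + 1)) = th := by field_simp
  have h7 : 0 ≤ th / (2 * C + 1) := by positivity
  nlinarith

theorem big {r t b : ℝ} (ht : 0 ≤ t) (hr : r ≤ b) : 2 * t * r - t ^ 2 ≤ b ^ 2 := by
  nlinarith [sq_nonneg (t - b), mul_le_mul_of_nonneg_left hr ht]

end SqPtAux

open SqPtAux in
theorem p_sqPt (h_lorPt : S_lorPt) :
    S_sqPt := by
  intro K R N ε₀ J L μ c C hK hJ hL th hth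
  obtain ⟨C', hC', hest⟩ := hK.kreg_est hJ hL
  obtain ⟨D, hD, hpt⟩ := h_lorPt
  have hfin := hL.fin
  have hD1 : 0 < 2 * D + 1 := by positivity
  obtain ⟨B, hB⟩ : ∃ B : ℝ, B = (2 * D + 1) / th := ⟨_, rfl⟩
  have hB0 : 0 < B := by rw [hB]; positivity
  refine ⟨C' ^ 2 * (1 + B ^ 2), by positivity, th / (2 * D + 1), by positivity,
    fun ε hε hεθ x r t ht hr => ?_⟩
  obtain ⟨hn, -, hw⟩ := hest ε hε x
  have hl : 0 ≤ ε⁻¹ * lam μ R ε x := mul_nonneg (inv_nonneg.2 hε.1.le) (lam_nonneg μ R ε x)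
  obtain ⟨h, hh⟩ : ∃ h : ℝ, h = C' * (ε⁻¹ * lam μ R ε x) := ⟨_, rfl⟩
  have hh0 : 0 ≤ h := by rw [hh]; exact mul_nonneg hC' hl
  have e : C' ^ 2 * (1 + B ^ 2) * (ε⁻¹ * lam μ R ε x) ^ 2 = h ^ 2 + (B * h) ^ 2 := by
    rw [hh]; ring
  rw [← hh] at hn hw
  rw [e]
  have hBh : 0 ≤ B * h := mul_nonneg hB0.le hh0
  rcases le_or_gt r (B * h) with hle | hlt
  · have := big ht hle
    linarith
  · have hδ : 0 < (r + B * h) / 2 := by linarith
    have key := hpt (J x) (kreg K L ε x) r ((r + B * h) / 2) _ (hJ.near x) hδ (by linarith) hn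
      (fun ψ hψ hψ1 hψn => hr ψ hψ hψ1
        (small hD hth hδ hε.1 (by rw [← hB]; linarith) hεθ hψn))
    have h1 := big ht (le_refl r)
    have h2 := sq_nonneg h
    have h3 := sq_nonneg (B * h)
    linarith

end Vale.Agent.P247
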