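import Vale.Agent.P247.Top
import Vale.Agent.P247.ExT1L
import Vale.Agent.P247.Fub1
import Vale.Agent.P247.Fub2
import Vale.Agent.P247.KregL
import Vale.Agent.P247.L2b
import Vale.Agent.P247.LimL
import Vale.Agent.P247.LocL
import Vale.Agent.P247.NullL
import Vale.Agent.P247.PolL
import Vale.Agent.P247.RestrL
import Vale.Agent.P247.RhoAlg
import Vale.Agent.P247.RhoLm
import Vale.Agent.P247.SelfL
import Vale.Agent.P247.SqPt
import Vale.Agent.P247.PolA
import Vale.Agent.P247.ExTL
import Vale.Agent.P247.MainL
import Vale.Agent.P247.FinalL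

/-! P247: assembly of the pointwise lower bound. -/

open scoped ContDiff Manifold
open MeasureTheory

namespace Vale.Agent.P247

open Vale.Agent.P204

universe u

theorem q_locL : S_locL := p_locL (p_sqPt q_lorPt) (p_kregL q_kerLor) p_fub1 p_fub2

section atlas

variable {X : Type u} [TopologicalSpace X] [T2Space X] [CompactSpace X]
  [SecondCountableTopology X] [MeasurableSpace X] [BorelSpace X]

theorem q_selfL : S_selfL X := p_selfL q_locL (p_rhoLm p_rhoLoc) p_rhoLoc

theorem q_mainL : S_mainL X :=
  p_mainL (p_exTL q_surj (p_exT1L q_phi (p_rhoAlg p_rhoLoc p_lor2) p_rhoLoc) p_norm) q_aL2 p_kbd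
    p_kcur (p_polL (p_polA q_elm p_kill) (p_restrL q_phi p_rhoLoc)
      (p_l2 q_selfL (p_enbd p_msub)) p_null)
    (p_limL q_selfL p_cross p_msub) p_quad (p_hi1 p_hi0)

end atlas

variable {X : Type u} [TopologicalSpace X] [T2Space X] [CompactSpace X] [ChartedSpace E X]
  [IsManifold 𝓘(ℝ, E) ∞ X] [MeasurableSpace X] [BorelSpace X]

theorem q_stepL : S_stepL X := by
  have : SecondCountableTopology X := ChartedSpace.secondCountable_of_sigmaCompact E X
  exact p_stepL q_acs p_toW (p_br p_br1 p_rhoLoc) p_hi0 q_mainL p_pd p_br1 p_rhoLoc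

theorem q_stepU : S_stepU X := by
  have : SecondCountableTopology X := ChartedSpace.secondCountable_of_sigmaCompact E X
  exact p_stepU q_acs p_toW p_pd

end Vale.Agent.P247
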