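import Vale.Agent.P247.SDefs
import Vale.Agent.P247.Top2

/-! P247: translation to the definitions of the statement. -/

open scoped Manifold ContDiff
open MeasureTheory

namespace Vale.Agent.P247

open Vale.Agent.P204 HS

universe u

variable {X : Type u} [TopologicalSpace X] [ChartedSpace E X]

theorem closed_iff {σ : BilField E X} : IsClosedTwoForm σ ↔ IsClosedForm σ :=
  ⟨fun h => ⟨h.alt, h.smooth, h.closed⟩, fun h => ⟨h.alt, h.smooth, h.closed⟩⟩

theorem hyper_iff {μ : TopField X} {om : Fin 3 → BilField E X} :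
    IsHyper stdBasis μ om ↔ IsHypersymplectic μ om :=
  ⟨fun h => ⟨fun i => closed_iff.1 (h.form i), h.pos⟩,
    fun h => ⟨fun i => closed_iff.2 (h.form i), h.pos⟩⟩

theorem pinched [T2Space X] [CompactSpace X] [IsManifold 𝓘(ℝ, E) ∞ X] [MeasurableSpace X]
    [BorelSpace X] (μ : TopForm E X) (hμ : IsVolumeForm stdBasis μ)
    (ν : Measure X) (hν : IsVolumeMeasure stdBasis μ ν)
    (om : Fin 3 → BilField E X) (hom : IsHyper stdBasis μ om) :
    (∃ Om, IsFamily stdBasis μ om Om ∧ IsOrth stdBasis μ (Om 1)) ∧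
    ((∀ i j, pairing stdBasis μ ν (om i) (om j) = if i = j then 1 else 0) →
      (∀ φ, IsClosedTwoForm φ → (∀ i, pairing stdBasis μ ν φ (om i) = 0) →
        pairing stdBasis μ ν φ φ ≤ 0) →
      ∀ f : X → ℝ, Continuous f → (∀ x, 0 < f x) → ∫ x, f x ∂ν < 1 →
        ∃ Om, IsFamily stdBasis μ om Om ∧
          (∀ t ∈ Set.Icc (0 : ℝ) 1, ∀ i, SameClass stdBasis μ ν (Om t i) (om i)) ∧
          IsOrth stdBasis μ (Om 1) ∧ ∀ i x, f x ≤ ratio stdBasis μ (Om 1 i) (Om 1 i) x) := by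
  have hom' := hyper_iff.1 hom
  constructor
  · obtain ⟨Om, h1, h2⟩ := p_finalU q_stepU (p_path p_toW) p_toW μ om hom'
    exact ⟨Om, ⟨h1.smooth, h1.start, fun t ht => hyper_iff.2 (h1.hyp t ht)⟩, h2⟩
  · intro hn hb f hf hf0 hf1
    obtain ⟨Om, h1, h2, h3⟩ := p_finalL q_stepL (p_path p_toW) p_toW μ ν om f ⟨hμ.ne, hμ.smooth⟩
      hν hom' hn (fun φ h => hb φ (closed_iff.2 h)) hf hf0 hf1
    exact ⟨Om, ⟨h1.smooth, h1.start, fun t ht => hyper_iff.2 (h1.hyp t ht)⟩,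
      fun t ht i φ h => h1.coh t ht i φ (closed_iff.1 h), h2, h3⟩

end Vale.Agent.P247
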