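import Vale.Agent.P247.Stm

open scoped ContDiff RealInnerProductSpace Topology Manifold
open MeasureTheory Metric

namespace Vale.Agent.P247

open Vale.Agent.P204 Vale.Agent.P204.Setup

universe u

namespace ConeAux

theorem pi_add {J : E →L[ℝ] E} {a b : W} (ha : PosInv J a) (hb : PosInv J b) :
    PosInv J (a + b) :=
  ⟨by rw [map_add, ha.1, hb.1], fun v => by rw [ev_add]; exact add_nonneg (ha.2 v) (hb.2 v)⟩

theorem pi_smul {J : E →L[ℝ] E} {a : W} {t : ℝ} (ht : 0 ≤ t) (ha : PosInv J a) :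
    PosInv J (t • a) :=
  ⟨by rw [map_smul, ha.1], fun v => by rw [ev_smul]; exact mul_nonneg ht (ha.2 v)⟩

theorem sq_add (w f : W) (d : ℝ) : wedge (w + d • f) (w + d • f) =
    wedge w w + 2 * d * wedge w f + d ^ 2 * wedge f f := by
  rw [wedge_add_left, wedge_add_right, wedge_add_right, wedge_smul_left, wedge_smul_left,
    wedge_smul_right, wedge_smul_right, wedge_comm f w]
  ring

theorem unit_sq {u : W} {n : ℝ} (hn : 0 < n) (h : wedge u u = n ^ 2) :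
    wedge (n⁻¹ • u) (n⁻¹ • u) = 1 := by
  rw [wedge_smul_left, wedge_smul_right, h]
  field_simp

theorem lim0 {x y : ℝ} (h : ∀ d : ℝ, 0 < d → x ≤ d * y) : x ≤ 0 := by
  by_contra hx
  rw [not_le] at hx
  have h1 : 0 < |y| + 1 := by positivity
  have h2 := h (x / (2 * (|y| + 1))) (by positivity)
  have h3 : x / (2 * (|y| + 1)) * y ≤ x / (2 * (|y| + 1)) * (|y| + 1) :=
    mul_le_mul_of_nonneg_left (by linarith [le_abs_self y]) (by positivity)
  have h4 : x / (2 * (|y| + 1)) * (|y| + 1) = x / 2 := by field_simp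
  linarith

theorem test {J : E →L[ℝ] E} (hJ : Near J) {a f w : W} {r : ℝ}
    (H : ∀ ζ : W, PosInv J ζ → wedge ζ ζ = 1 → r ≤ wedge a ζ) (hf : PosInv J f)
    (hff : 1 ≤ wedge f f) (hw : PosInv J w) {d : ℝ} (hd : 0 < d) :
    ∃ n : ℝ, 0 < n ∧ n ^ 2 = wedge w w + 2 * d * wedge w f + d ^ 2 * wedge f f ∧
      r * n ≤ wedge a w + d * wedge a f := by
  have h1 := hJ.wedge_pos_pos hw.1 hw.1 hw.2 hw.2
  have h2 := hJ.wedge_pos_pos hw.1 hf.1 hw.2 hf.2
  have h3 : 0 < wedge w w + 2 * d * wedge w f + d ^ 2 * wedge f f := by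
    have h4 : 0 < d ^ 2 * wedge f f := mul_pos (by positivity) (by linarith)
    have h5 : 0 ≤ 2 * d * wedge w f := by positivity
    linarith
  have hn := Real.sqrt_pos.2 h3
  have hsq := Real.sq_sqrt h3.le
  refine ⟨_, hn, hsq, ?_⟩
  have h6 := H _ (pi_smul (inv_pos.2 hn).le (pi_add hw (pi_smul hd.le hf)))
    (unit_sq hn (by rw [sq_add, hsq]))
  rw [wedge_smul_right, wedge_add_right, wedge_smul_right, ← div_eq_inv_mul,
    le_div_iff₀ hn] at h6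
  exact h6

theorem root {p q m δ : ℝ} (hq : 1 ≤ q) (hδ : 0 < δ) (hl : m * q ≤ p ^ 2) :
    ∃ s t : ℝ, 0 < s ∧ s ^ 2 = p ^ 2 - q * (m - δ ^ 2) ∧ t * q = s - p ∧
      m + 2 * t * p + t ^ 2 * q = δ ^ 2 := by
  have hq0 : 0 < q := by linarith
  have hD : 0 < p ^ 2 - q * (m - δ ^ 2) := by
    have h1 : 0 < q * δ ^ 2 := by positivity
    nlinarith
  have hsq := Real.sq_sqrt hD.le
  obtain ⟨s, hs, hs2⟩ : ∃ s : ℝ, 0 < s ∧ s ^ 2 = p ^ 2 - q * (m - δ ^ 2) :=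
    ⟨_, Real.sqrt_pos.2 hD, hsq⟩
  have htq : (s - p) / q * q = s - p := by field_simp
  refine ⟨s, (s - p) / q, hs, hs2, htq, ?_⟩
  generalize (s - p) / q = t at htq
  apply mul_left_cancel₀ hq0.ne'
  have h1 : q * (m + 2 * t * p + t ^ 2 * q) = q * m + 2 * (t * q) * p + (t * q) ^ 2 := by ring
  rw [h1, htq]
  nlinarith

theorem tbd {p q m δ Λ s t : ℝ} (hq : 1 ≤ q) (hq1 : q ≤ 64) (hδ : 0 < δ) (hΛ : 0 ≤ Λ)
    (hp1 : |p| ≤ 24 * Λ) (hm1 : -m ≤ 9 * Λ ^ 2) (hs2 : s ^ 2 = p ^ 2 - q * (m - δ ^ 2))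
    (htq : t * q = s - p) (h0 : 0 ≤ t) : t ≤ 72 * Λ + 8 * δ := by
  have hq0 : 0 < q := by linarith
  have hs1 : s ≤ 48 * Λ + 8 * δ := by
    refine (abs_le_of_sq_le_sq' ?_ (by positivity)).2
    have h1 : p ^ 2 ≤ (24 * Λ) ^ 2 := by
      rw [← sq_abs p]; exact pow_le_pow_left₀ (abs_nonneg _) hp1 2
    have h2 : q * (δ ^ 2 - m) ≤ q * (δ ^ 2 + 9 * Λ ^ 2) :=
      mul_le_mul_of_nonneg_left (by linarith) hq0.le
    have h3 : q * (δ ^ 2 + 9 * Λ ^ 2) ≤ 64 * (δ ^ 2 + 9 * Λ ^ 2) :=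
      mul_le_mul_of_nonneg_right hq1 (by positivity)
    have h4 : 0 ≤ Λ * δ := by positivity
    nlinarith [sq_nonneg Λ]
  have h1 : t * 1 ≤ t * q := mul_le_mul_of_nonneg_left hq h0
  linarith [neg_abs_le p]

theorem caseA {J : E →L[ℝ] E} {g f : W} {r δ Λ s t : ℝ} (hδ : 0 < δ) (hr : δ < r) (hΛ : 0 ≤ Λ)
    (hng : ‖g‖ ≤ 3 * Λ) (hnf : ‖f‖ ≤ 8) (hff : 1 ≤ wedge f f) (hs : 0 < s)
    (hs2 : s ^ 2 = wedge g f ^ 2 - wedge f f * (wedge g g - δ ^ 2))
    (htq : t * wedge f f = s - wedge g f) (h0 : 0 ≤ t) (hu : PosInv J (g + t • f))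
    (huu : wedge (g + t • f) (g + t • f) = δ ^ 2) (huf : wedge (g + t • f) f = s)
    (H : ∀ ψ : W, PosInv J ψ → wedge ψ ψ = 1 → ‖ψ‖ ≤ 1000 * (Λ + δ) / δ → r ≤ wedge g ψ) :
    False := by
  have hp1 : |wedge g f| ≤ 24 * Λ := by
    have h1 := abs_wedge_le g f
    have h2 : ‖g‖ * ‖f‖ ≤ 3 * Λ * 8 := mul_le_mul hng hnf (norm_nonneg _) (by positivity)
    linarith
  have hq1 : wedge f f ≤ 64 := by
    have h1 := abs_wedge_le f f
    have h2 : ‖f‖ * ‖f‖ ≤ 8 * 8 := mul_le_mul hnf hnf (norm_nonneg _) (by norm_num)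
    linarith [le_abs_self (wedge f f)]
  have hm1 : -wedge g g ≤ 9 * Λ ^ 2 := by
    have h1 := abs_wedge_le g g
    have h2 : ‖g‖ * ‖g‖ ≤ 3 * Λ * (3 * Λ) := mul_le_mul hng hng (norm_nonneg _) (by positivity)
    have h3 : 3 * Λ * (3 * Λ) = 9 * Λ ^ 2 := by ring
    linarith [neg_abs_le (wedge g g)]
  have ht1 := tbd hff hq1 hδ hΛ hp1 hm1 hs2 htq h0
  have hnu : ‖g + t • f‖ ≤ 1000 * (Λ + δ) := by
    have h1 := norm_add_le g (t • f)
    rw [norm_smul, Real.norm_of_nonneg h0] at h1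
    have h2 : t * ‖f‖ ≤ t * 8 := mul_le_mul_of_nonneg_left hnf h0
    linarith
  have h1 := H _ (pi_smul (inv_pos.2 hδ).le hu) (unit_sq hδ huu) (by
    rw [norm_smul, Real.norm_of_nonneg (inv_pos.2 hδ).le, ← div_eq_inv_mul]
    exact div_le_div_of_nonneg_right hnu hδ.le)
  rw [wedge_smul_right, ← div_eq_inv_mul, le_div_iff₀ hδ] at h1
  have h2 : wedge g (g + t • f) = δ ^ 2 - t * s := by
    rw [← huu, ← huf, wedge_add_left g (t • f) (g + t • f), wedge_smul_left,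
      wedge_comm f (g + t • f)]
    ring
  have h3 : 0 ≤ t * s := mul_nonneg h0 hs.le
  have h4 : δ * δ < r * δ := mul_lt_mul_of_pos_right hr hδ
  have h5 : δ * δ = δ ^ 2 := by ring
  linarith

theorem caseB {J : E →L[ℝ] E} {g f : W} {r δ Λ s t : ℝ} (hδ : 0 < δ) (hr : δ < r) (hΛ : 0 ≤ Λ)
    (hng : ‖g‖ ≤ 3 * Λ) (hf : PosInv J f) (hff : 1 ≤ wedge f f) (hs : 0 < s)
    (h0 : t < 0) (hu : PosInv J (g + t • f))
    (huu : wedge (g + t • f) (g + t • f) = δ ^ 2) (huf : wedge (g + t • f) f = s)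
    (H : ∀ ψ : W, PosInv J ψ → wedge ψ ψ = 1 → ‖ψ‖ ≤ 1000 * (Λ + δ) / δ → r ≤ wedge g ψ) :
    r ^ 2 ≤ wedge g g := by
  have he : (g + t • f) + (-t) • f = g := by rw [neg_smul]; abel
  have hgp : PosInv J g := by
    have h1 := pi_add hu (pi_smul (t := -t) (by linarith) hf)
    rwa [he] at h1
  have hm1 : δ ^ 2 ≤ wedge g g := by
    have h1 := sq_add (g + t • f) f (-t)
    rw [he, huu, huf] at h1
    have h2 : 0 ≤ 2 * -t * s := mul_nonneg (by linarith) hs.le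
    have h3 : 0 ≤ (-t) ^ 2 * wedge f f := mul_nonneg (sq_nonneg _) (by linarith)
    linarith
  have hm0 : 0 < wedge g g := lt_of_lt_of_le (by positivity) hm1
  have hnd : δ ≤ Real.sqrt (wedge g g) := Real.le_sqrt_of_sq_le hm1
  obtain ⟨n, hn, hnq, hnd⟩ : ∃ n : ℝ, 0 < n ∧ wedge g g = n ^ 2 ∧ δ ≤ n :=
    ⟨_, Real.sqrt_pos.2 hm0, (Real.sq_sqrt hm0.le).symm, hnd⟩
  have h1 := H _ (pi_smul (inv_pos.2 hn).le hgp) (unit_sq hn hnq) (by
    rw [norm_smul, Real.norm_of_nonneg (inv_pos.2 hn).le, ← div_eq_inv_mul]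
    exact div_le_div₀ (by positivity) (by linarith) hδ hnd)
  rw [wedge_smul_right, ← div_eq_inv_mul, le_div_iff₀ hn, hnq, sq] at h1
  rw [hnq]
  exact pow_le_pow_left₀ (by linarith) (le_of_mul_le_mul_right h1 hn) 2

end ConeAux

open ConeAux in
theorem p_cone (h_lor1 : S_lor1) (h_trace : S_trace) :
    S_cone := by
  have _h := h_lor1
  intro J a r hJ ha hr H
  obtain ⟨hf, hff, -, -⟩ := h_trace J hJ
  have hpos : ∀ v, 0 ≤ ev a v (J v) := by
    intro v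
    have hw : PosInv J (zeta v (J v)) := ⟨hJ.zeta_inv v, hJ.zeta_pos v⟩
    have h1 : -ev a v (J v) ≤ 0 := by
      refine lim0 (y := wedge a (pull (Aop J) om0)) fun d hd => ?_
      obtain ⟨n, hn, -, h2⟩ := test hJ H hf hff hw hd
      rw [wedge_zeta] at h2
      have h3 : 0 ≤ r * n := mul_nonneg hr hn.le
      linarith
    linarith
  refine ⟨hpos, Real.le_sqrt_of_sq_le ?_⟩
  have hw : PosInv J a := ⟨ha, hpos⟩
  have h1 := hJ.wedge_pos_pos hw.1 hw.1 hw.2 hw.2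
  have h2 := hJ.wedge_pos_pos hw.1 hf.1 hw.2 hf.2
  have h3 : r ^ 2 - wedge a a ≤ 0 := by
    refine lim0 (y := wedge a (pull (Aop J) om0)) fun d hd => ?_
    obtain ⟨n, hn, h4, h5⟩ := test hJ H hf hff hw hd
    set p := wedge a (pull (Aop J) om0)
    set q := wedge (pull (Aop J) om0) (pull (Aop J) om0)
    have h6 : 0 ≤ d * p := mul_nonneg hd.le h2
    have h7 : 0 ≤ d ^ 2 * q := mul_nonneg (sq_nonneg d) (by linarith)
    have h8 : wedge a a + d * p ≤ n ^ 2 := by rw [h4]; linarith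
    have h9 : r * n ≤ n * n := by nlinarith
    have h10 : r ≤ n := le_of_mul_le_mul_right h9 hn
    have h11 : r * r ≤ r * n := mul_le_mul_of_nonneg_left h10 hr
    nlinarith
  linarith

open ConeAux in
theorem p_lorPt (h_lor1 : S_lor1) (h_lor2 : S_lor2) (h_trace : S_trace) :
    S_lorPt := by
  refine ⟨1000, by norm_num, fun J g r δ Λ hJ hδ hr hg H => ?_⟩
  obtain ⟨hf, hff, hnf, -⟩ := h_trace J hJ
  generalize pull (Aop J) om0 = f at hf hff hnf
  have hΛ : 0 ≤ Λ := (norm_nonneg g).trans hg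
  have hgi : pull J (pp J g) = pp J g := pull_pp hJ.1 g
  have hng : ‖pp J g‖ ≤ 3 * Λ :=
    ((pp J).le_opNorm g).trans (mul_le_mul hJ.norm_pp_le hg (norm_nonneg _) (by norm_num))
  have H' : ∀ ψ : W, PosInv J ψ → wedge ψ ψ = 1 → ‖ψ‖ ≤ 1000 * (Λ + δ) / δ →
      r ≤ wedge (pp J g) ψ := fun ψ h1 h2 h3 => by
    have h4 := hJ.wedge_split g ψ
    rw [pp_of_inv h1.1, pm_of_inv h1.1, wedge_zero_right, add_zero] at h4
    rw [← h4]
    exact H ψ h1 h2 h3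
  have hgg : wedge (pp J g) (pp J g) ≤ wedge g g := by
    have h1 := hJ.wedge_split g g
    have h2 := hJ.wedge_anti (pull_pm hJ.1 g)
    have h3 : 0 ≤ ‖pm J g‖ ^ 2 / 2 := by positivity
    linarith
  refine le_trans ?_ hgg
  generalize pp J g = a at hgi hng H'
  obtain ⟨s, t, hs, hs2, htq, he⟩ := root hff hδ (h_lor2 J a f hJ hgi hf.1 (by linarith))
  have huu : wedge (a + t • f) (a + t • f) = δ ^ 2 := by rw [sq_add, he]
  have huf : wedge (a + t • f) f = s := by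
    rw [wedge_add_left, wedge_smul_left, htq]; ring
  have hui : pull J (a + t • f) = a + t • f := by rw [map_add, map_smul, hgi, hf.1]
  have hu : PosInv J (a + t • f) := by
    refine ⟨hui, fun v => ?_⟩
    by_cases hv : v = 0
    · rw [hv, map_zero, ev_self]
    · exact (h_lor1 J _ f hJ hui hf (by rw [huu]; positivity) (by rw [huf]; exact hs) v hv).le
  rcases le_or_gt 0 t with h0 | h0
  · exact (caseA hδ hr hΛ hng hnf hff hs hs2 htq h0 hu huu huf H').elim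
  · exact caseB hδ hr hΛ hng hf hff hs h0 hu huu huf H'

end Vale.Agent.P247
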