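import Vale.Agent.P247.Stm

open scoped ContDiff RealInnerProductSpace Topology Manifold
open MeasureTheory Metric

namespace Vale.Agent.P247

open Vale.Agent.P204 Vale.Agent.P204.Setup

universe u

namespace CrossAux

open GStepAux

theorem loc_est {J : E → E →L[ℝ] E} (hJ : GoodJ J) {c h : E → ℝ} {g g' : E → W}
    (hc : CTest 1 c) (h0 : ∀ y, 0 ≤ c y) (h1 : ∀ y, c y ≤ 1) (hg : Continuous g)
    (hg' : Continuous g') (hh : Continuous h) (hh0 : ∀ y, 0 ≤ h y) {ε β p : ℝ} (hε : 0 < ε)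
    (hβ : 0 ≤ β) (hp : 0 ≤ p) (i1 : ∫ x in closedBall (0 : E) 1, h x ^ 2 ≤ β ^ 2)
    (d : ∀ x ∈ closedBall (0 : E) 1, ‖g x‖ ≤ ε⁻¹ * h x ∧ ‖pm (J x) (g x)‖ ≤ h x)
    (i2 : ∫ x in closedBall (0 : E) 1, ‖g' x‖ ^ 2 ≤ p ^ 2)
    (i3 : ∫ x in closedBall (0 : E) 1, ‖pp (J x) (g' x)‖ ^ 2 ≤ (ε * p) ^ 2) :
    -(6 * (β * p) * 2 + (ε * p) ^ 2) ≤ 2 * (∫ y, c y * wedge (g y) (g' y)) +
      ∫ y, c y * wedge (pp (J y) (g' y)) (pp (J y) (g' y)) := by
  have hu : Continuous fun y => pp (J y) (g' y) := hJ.contDiff_pp.continuous.clm_apply hg'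
  have a3 := cut hc h0 h1 (cont_wedge hu hu) (hu.norm.pow 2) (fun y => sq_nonneg _)
    fun y _ => by
      have := abs_wedge_le (pp (J y) (g' y)) (pp (J y) (g' y))
      rw [← sq] at this
      exact (abs_le.1 this).1
  have c1 : Continuous fun y => h y * ‖pp (J y) (g' y)‖ := hh.mul hu.norm
  have c2 : Continuous fun y => h y * ‖g' y‖ := hh.mul hg'.norm
  have a2 := cut (f := fun y => 3 * ε⁻¹ * (h y * ‖pp (J y) (g' y)‖) + 3 * (h y * ‖g' y‖))
    hc h0 h1 (cont_wedge hg hg') ((continuous_const.mul c1).add (continuous_const.mul c2))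
    (fun y => by have := hh0 y; positivity) fun y hy => by
      obtain ⟨d1, d2⟩ := d y hy
      have n1 : ‖pp (J y) (g y)‖ ≤ 3 * (ε⁻¹ * h y) :=
        ((pp (J y)).le_opNorm _).trans
          (mul_le_mul (hJ.near y).norm_pp_le d1 (norm_nonneg _) (by norm_num))
      have n2 : ‖pm (J y) (g' y)‖ ≤ 3 * ‖g' y‖ :=
        ((pm (J y)).le_opNorm _).trans
          (mul_le_mul_of_nonneg_right (hJ.near y).norm_pm_le (norm_nonneg _))
      have w1 := (abs_wedge_le (pp (J y) (g y)) (pp (J y) (g' y))).trans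
        (mul_le_mul_of_nonneg_right n1 (norm_nonneg _))
      have w2 := (abs_wedge_le (pm (J y) (g y)) (pm (J y) (g' y))).trans
        (mul_le_mul d2 n2 (norm_nonneg _) (hh0 y))
      rw [(hJ.near y).wedge_split (g y) (g' y)]
      linarith [(abs_le.1 w1).1, (abs_le.1 w2).1]
  rw [integral_add
    ((c1.continuousOn.integrableOn_compact (isCompact_closedBall _ _)).const_mul _)
    ((c2.continuousOn.integrableOn_compact (isCompact_closedBall _ _)).const_mul _),
    integral_const_mul, integral_const_mul] at a2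
  have b1 := cs_ball hh hu.norm hh0 (fun y => norm_nonneg _) hβ (mul_nonneg hε.le hp) i1 i3
  have b2 := cs_ball hh hg'.norm hh0 (fun y => norm_nonneg _) hβ hp i1 i2
  have b3 := mul_le_mul_of_nonneg_left b1 (show 0 ≤ 3 * ε⁻¹ by positivity)
  have e : 3 * ε⁻¹ * (β * (ε * p)) = 3 * (β * p) := by field_simp
  simp only [Pi.pow_apply] at a3
  linarith

theorem en_le (μ : Measure E) [IsFiniteMeasure μ] (R ε C : ℝ) :
    ∫ x in closedBall (0 : E) 1, (C * (ε⁻¹ * lam μ R ε x)) ^ 2 ≤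
      (C * Real.sqrt (En μ R ε)) ^ 2 := by
  have hcont : Continuous fun x => (ε⁻¹ * lam μ R ε x) ^ 2 :=
    (continuous_const.mul (continuous_lam _ R ε)).pow 2
  have h4 : ∫ x in closedBall (0 : E) 1, (ε⁻¹ * lam μ R ε x) ^ 2 ≤ En μ R ε := by
    refine setIntegral_mono_set
      (hcont.continuousOn.integrableOn_compact (isCompact_closedBall _ _))
      (Filter.Eventually.of_forall fun x => sq_nonneg _) ?_
    exact (closedBall_subset_closedBall (by norm_num)).eventuallyLE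
  simp_rw [mul_pow C]
  rw [integral_const_mul,
    Real.sq_sqrt ((integral_nonneg fun x => sq_nonneg _).trans h4)]
  exact mul_le_mul_of_nonneg_left h4 (sq_nonneg _)

end CrossAux

variable {X : Type u} [TopologicalSpace X] [T2Space X] [CompactSpace X]
  [SecondCountableTopology X] [MeasurableSpace X] [BorelSpace X]

open CrossAux in
theorem p_cross :
    S_cross X := by
  intro s M K R N ε₀ a T α ν β A₀ D δ hM h hT hD hα hA hL hδ
  obtain ⟨c, C, hLP⟩ := h.locPos
  have LT := hLP T ν hT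
  have f1 := fun i => (LT i).fin
  choose C' hC' hest using fun i => (hM.ker i).kreg_est (s.good i) (LT i)
  choose C₁ hC₁ hant using fun i => (hM.ker i).anti_est (s.good i) 0
  set err : Fin s.m → ℝ → ℝ := fun i ε =>
    6 * (C' i * Real.sqrt (En (s.lm ν i) R ε) * (C₁ i * A₀)) * 2 + (ε * (C₁ i * A₀)) ^ 2
    with herr
  have ht : Filter.Tendsto (fun ε => ∑ i, err i ε) (𝓝[>] 0) (𝓝 0) := by
    have : ∀ i, Filter.Tendsto (err i) (𝓝[>] 0) (𝓝 0) := fun i => by
      have a2 := (tendsto_En (s.lm ν i) (hM.ker i).Rpos (hD i).1 (hD i).2).sqrt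
      have a1 : Filter.Tendsto (fun ε : ℝ => ε) (𝓝[>] 0) (𝓝 0) := nhdsWithin_le_nhds
      have a3 := ((((a2.const_mul (C' i)).mul_const (C₁ i * A₀)).const_mul 6).mul_const 2).add
        ((a1.mul_const (C₁ i * A₀)).pow 2)
      simpa only [Real.sqrt_zero, mul_zero, zero_mul, add_zero, zero_pow two_ne_zero] using a3
    simpa only [Finset.sum_const_zero] using tendsto_finsetSum Finset.univ fun i _ => this i
  obtain ⟨ε₁, h1, hs⟩ := mem_nhdsGT_iff_exists_Ioo_subset.1 (ht.eventually (gt_mem_nhds hδ))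
  refine ⟨ε₁, h1, fun ε hε hε' G G' hG hG' => ?_⟩
  have hε₀ : ε ∈ Set.Ioo 0 ε₀ := ⟨hε.1, hε'⟩
  have e1 : ∑ i, err i ε < δ := hs hε
  have e2 := s.Int_split hG'.smooth.cont hG'.smooth.cont
  have e3 := s.Int_pm_nonneg G'
  have hpp : ∀ j, ∀ y ∈ closedBall (0 : E) 3, s.loc j (s.ppF G') y =
      pp (s.Jl j y) (kreg (K j) (s.lf α j) ε y) := fun j y hy => by
    rw [s.loc_ppF j G' (by linarith [mem_closedBall_zero_iff.1 hy]), hG'.loc j y hy]
  have key : -∑ i, err i ε ≤ 2 * s.Int G G' + s.Int (s.ppF G') (s.ppF G') := by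
    rw [GStepAux.Int_eq s hG.loc hG'.loc, GStepAux.Int_eq s hpp hpp, Finset.mul_sum,
      ← Finset.sum_neg_distrib, ← Finset.sum_add_distrib]
    refine Finset.sum_le_sum fun j _ => ?_
    have dα := s.distBd_of_sn_pm hα j
    obtain ⟨i2, i3⟩ := hant j 5 _ dα (s.antiF_of_sn_pm hα j) ε hε₀ A₀ hA
      (LBd_of_nL2 hε.1.le hA (hL j))
    have p1 := hC' j
    have p2 := hε.1
    refine loc_est (s.good j) (s.c_test j).ctest (s.c_nonneg j) (s.c_le_one j)
      ((hM.ker j).toSKer.contDiff_kreg ((LT j).distBd (s.good j) 0) ε).continuous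
      ((hM.ker j).toSKer.contDiff_kreg dα ε).continuous
      (h := fun x => C' j * (ε⁻¹ * lam (s.lm ν j) R ε x))
      (continuous_const.mul (continuous_const.mul (continuous_lam _ R ε)))
      (fun x => by have := lam_nonneg (s.lm ν j) R ε x; positivity) hε.1 (by positivity)
      (mul_nonneg (hC₁ j) hA) (en_le _ R ε _)
      (fun x _ => ⟨(hest j ε hε₀ x).1, (hest j ε hε₀ x).2.1⟩) i2 (i3.trans (le_of_eq ?_))
    ring
  linarith

end Vale.Agent.P247
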