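import Vale.Agent.P204.Defs

/-! Hypersymplectic structures on an oriented four-manifold. -/

open scoped Manifold ContDiff
open MeasureTheory

namespace Vale.Agent.P247

open Vale.Agent.P204

/-- The model space. -/
abbrev R4 : Type := EuclideanSpace ℝ (Fin 4)

/-- The standard basis of the model space. -/
noncomputable def bv (i : Fin 4) : R4 := EuclideanSpace.single i 1

/-- The value `(σ ∧ τ)(e₀, e₁, e₂, e₃)` of the wedge product of two alternating bilinear forms. -/
noncomputable def wd (σ τ : R4 →L[ℝ] R4 →L[ℝ] ℝ) : ℝ :=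
  σ (bv 0) (bv 1) * τ (bv 2) (bv 3) - σ (bv 0) (bv 2) * τ (bv 1) (bv 3) +
    σ (bv 0) (bv 3) * τ (bv 1) (bv 2) + σ (bv 1) (bv 2) * τ (bv 0) (bv 3) -
    σ (bv 1) (bv 3) * τ (bv 0) (bv 2) + σ (bv 2) (bv 3) * τ (bv 0) (bv 1)

variable {X : Type*} [TopologicalSpace X] [ChartedSpace R4 X]

variable (X) in
/-- Fields of alternating four-forms on the tangent spaces. -/
abbrev TopField : Type _ := ∀ x : X, TangentSpace 𝓘(ℝ, R4) x [⋀^Fin 4]→L[ℝ] ℝ

/-- The coefficient of the four-form `μ` in the chart `e`, at the point `z` of the target. -/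
noncomputable def vcoef (μ : TopField X) (e : OpenPartialHomeomorph X R4) (z : R4) : ℝ :=
  μ (e.symm z) fun i => mfderiv 𝓘(ℝ, R4) 𝓘(ℝ, R4) e.symm z (bv i)

/-- `μ` is a volume form: a smooth four-form without zeros. It orients `X`. -/
structure IsVolForm (μ : TopField X) : Prop where
  ne : ∀ x, μ x ≠ 0
  smooth : ∀ e ∈ atlas R4 X, ContDiffOn ℝ ∞ (vcoef μ e) e.target

/-- `ν` is the measure of the volume form `μ`. -/
def IsVolMeasure [MeasurableSpace X] (μ : TopField X) (ν : Measure X) : Prop :=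
  ∀ e ∈ atlas R4 X, ∀ A : Set R4, MeasurableSet A → A ⊆ e.target →
    ν (e.symm '' A) = ∫⁻ z in A, ENNReal.ofReal |vcoef μ e z|

/-- `σ` is a smooth closed two-form. -/
structure IsClosedForm (σ : BilField R4 X) : Prop where
  alt : ∀ x v, σ x v v = 0
  smooth : ∀ e ∈ atlas R4 X, ∀ u v, ContDiffOn ℝ ∞ (coef σ e u v) e.target
  closed : ∀ e ∈ atlas R4 X, ∀ z ∈ e.target, ∀ u v w,
    fderiv ℝ (coef σ e v w) z u + fderiv ℝ (coef σ e w u) z v + fderiv ℝ (coef σ e u v) z w = 0

/-- The function `f` with `σ ∧ τ = f μ`. -/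
noncomputable def quo (μ : TopField X) (σ τ : BilField R4 X) (x : X) : ℝ :=
  wd (σ x) (τ x) / μ x bv

/-- The integral of `σ ∧ τ` over `X`. -/
noncomputable def intg [MeasurableSpace X] (μ : TopField X) (ν : Measure X)
    (σ τ : BilField R4 X) : ℝ :=
  ∫ x, quo μ σ τ x ∂ν

/-- `om` is a hypersymplectic structure: three closed two-forms whose matrix of wedge products
is positive definite at every point. -/
structure IsHypersymplectic (μ : TopField X) (om : Fin 3 → BilField R4 X) : Prop where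
  form : ∀ i, IsClosedForm (om i)
  pos : ∀ x, ∀ r : Fin 3 → ℝ, r ≠ 0 → 0 < ∑ i, ∑ j, r i * r j * quo μ (om i) (om j) x

/-- `σ` and `τ` have the same pairing with every closed two-form. -/
def Cohomologous [MeasurableSpace X] (μ : TopField X) (ν : Measure X) (σ τ : BilField R4 X) :
    Prop :=
  ∀ φ, IsClosedForm φ → intg μ ν σ φ = intg μ ν τ φ

/-- `Om` is a cohomologous deformation of `om`. -/
structure IsDeformation [MeasurableSpace X] (μ : TopField X) (ν : Measure X)
    (om : Fin 3 → BilField R4 X) (Om : ℝ → Fin 3 → BilField R4 X) : Prop where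
  smooth : ∀ i, ∀ e ∈ atlas R4 X, ∀ u v,
    ContDiffOn ℝ ∞ (fun p : ℝ × R4 => coef (Om p.1 i) e u v p.2) (Set.univ ×ˢ e.target)
  start : Om 0 = om
  hyp : ∀ t ∈ Set.Icc (0 : ℝ) 1, IsHypersymplectic μ (Om t)
  coh : ∀ t ∈ Set.Icc (0 : ℝ) 1, ∀ i, Cohomologous μ ν (Om t i) (om i)

end Vale.Agent.P247
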