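import Vale.Agent.P247.Defs

/-! Paths of hypersymplectic structures and pointwise orthogonal triples. -/

open scoped Manifold ContDiff

namespace Vale.Agent.P247

open Vale.Agent.P204

variable {X : Type*} [TopologicalSpace X] [ChartedSpace R4 X]

/-- `Om` is a smooth family of hypersymplectic structures that starts at `om`. -/
structure IsPath (μ : TopField X) (om : Fin 3 → BilField R4 X)
    (Om : ℝ → Fin 3 → BilField R4 X) : Prop where
  smooth : ∀ i, ∀ e ∈ atlas R4 X, ∀ u v,
    ContDiffOn ℝ ∞ (fun p : ℝ × R4 => coef (Om p.1 i) e u v p.2) (Set.univ ×ˢ e.target)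
  start : Om 0 = om
  hyp : ∀ t ∈ Set.Icc (0 : ℝ) 1, IsHypersymplectic μ (Om t)

/-- The wedge products of different members of the triple vanish identically. -/
def IsOrthogonal (μ : TopField X) (om : Fin 3 → BilField R4 X) : Prop :=
  ∀ i j, i ≠ j → ∀ x, quo μ (om i) (om j) x = 0

end Vale.Agent.P247
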