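import Vale.Agent.P247.Stm

open scoped ContDiff RealInnerProductSpace Topology Manifold
open MeasureTheory Metric

namespace Vale.Agent.P247

open Vale.Agent.P204 Vale.Agent.P204.Setup

universe u

variable {X : Type u} [TopologicalSpace X] [T2Space X] [CompactSpace X]
  [SecondCountableTopology X] [MeasurableSpace X] [BorelSpace X]

namespace DomTAux

variable {s : Setup X} {M : ℝ → Form X → Form X} {K : Fin s.m → ℝ × E × E → W →L[ℝ] W}
  {R N ε₀ : ℝ} {om : Form X} {T α : GF X} {μ : Measure X} {b : ℝ}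

theorem dens_le (h : s.Tame om) (hT : s.PosCur (s.ppF om) T μ)
    (hZ : KEx s T α)
    (hα : ∀ φ, s.Smooth φ → |α φ| ≤ b * s.sn 5 (s.pmF φ)) (n : ℕ) : ∃ C : ℝ, 0 ≤ C ∧
    ∀ ε ∈ Set.Ioc (0 : ℝ) 1, ∀ a : ℝ, 0 ≤ a → ∀ i, LBd n (s.lf α i) ε 2 a →
      ∀ z ∈ closedBall (0 : E) (3 / 2), dens (s.lm μ i) z ε ≤ C * (1 + a) := by
  obtain ⟨c, C, hloc⟩ := h.locPos
  have h1 : ∀ i, ∃ C' : ℝ, 0 ≤ C' ∧ ∀ ε ∈ Set.Ioc (0 : ℝ) 1, ∀ a : ℝ, 0 ≤ a →
      LBd n (s.lf α i) ε 2 a →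
      ∀ z ∈ closedBall (0 : E) (3 / 2), dens (s.lm μ i) z ε ≤ C' * (1 + a) := by
    intro i
    obtain ⟨C₁, hC₁, hd⟩ := (hloc T μ hT i).dens_le (s.good i)
    obtain ⟨C₂, hC₂, hn⟩ := nrm_logP_le (s.good i) n
    refine ⟨C₁ * (1 + C₂), by positivity, fun ε hε a ha hL z hz => ?_⟩
    have hz' : ‖z‖ ≤ 3 / 2 := by simpa using hz
    have hz5 : z ∈ closedBall (0 : E) 5 := by
      rw [mem_closedBall_zero_iff]; linarith
    have ht : Test 2 (logP (s.Jl i) z ε) :=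
      (test_logP (s.good i) z hε.1).mono (by linarith)
    have hTα : s.lf T i (d1 (logP (s.Jl i) z ε)) = -s.lf α i (d1 (logP (s.Jl i) z ε)) := by
      have := hZ _ (Mo.ex_of_test s i (ht.mono (by norm_num)))
      simp only [lf, LinearMap.comp_apply]
      linarith
    have hanti := s.antiF_of_sn_pm hα i _ (ht.d1.mono (by norm_num : (2 : ℝ) ≤ 7))
    have hb := hL _ (ht.d1.clm_apply (s.good i).contDiff_pm)
    have hn' := hn z hz5 ε hε
    have h2 : |s.lf T i (d1 (logP (s.Jl i) z ε))| ≤ a * C₂ := by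
      rw [hTα, abs_neg, hanti]
      exact hb.trans (mul_le_mul_of_nonneg_left hn' ha)
    refine (hd z hz5 ε hε).trans ?_
    have : 1 + |s.lf T i (d1 (logP (s.Jl i) z ε))| ≤ (1 + C₂) * (1 + a) := by nlinarith
    calc C₁ * (1 + |s.lf T i (d1 (logP (s.Jl i) z ε))|) ≤ C₁ * ((1 + C₂) * (1 + a)) :=
          mul_le_mul_of_nonneg_left this hC₁
      _ = _ := by ring
  choose C' hC' hb using h1
  refine ⟨∑ i, C' i, Finset.sum_nonneg fun i _ => hC' i, fun ε hε a ha i hL z hz => ?_⟩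
  refine (hb i ε hε a ha hL z hz).trans ?_
  exact mul_le_mul_of_nonneg_right
    (Finset.single_le_sum (fun j _ => hC' j) (Finset.mem_univ i)) (by linarith)

/-- The regularisation of `T` is dominated in terms of the bound for `α`. -/
theorem dom_T (hM : s.Moll M K R N ε₀) (h : s.Tame om) (hT : s.PosCur (s.ppF om) T μ)
    (hZ : KEx s T α)
    (hα : ∀ φ, s.Smooth φ → |α φ| ≤ b * s.sn 5 (s.pmF φ)) (n : ℕ) : ∃ C : ℝ, 0 ≤ C ∧
    ∀ ε ∈ Set.Ioo 0 ε₀, ∀ a : ℝ, 0 ≤ a → (∀ i, LBd n (s.lf α i) ε 2 a) →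
      s.Dom K T ε (C * Real.sqrt (1 + a)) := by
  obtain ⟨c, C, hloc⟩ := h.locPos
  obtain ⟨Cd, hCd, hd⟩ := dens_le h hT hZ hα n
  have h1 : ∀ i, ∃ C' : ℝ, 0 ≤ C' ∧ ∀ ε ∈ Set.Ioo 0 ε₀, ∀ a : ℝ, 0 ≤ a →
      LBd n (s.lf α i) ε 2 a → ∃ g : E → ℝ, Continuous g ∧ (∀ x, 0 ≤ g x) ∧
      ∫ x in closedBall (0 : E) 1, g x ^ 2 ≤ (C' * Real.sqrt (1 + a)) ^ 2 ∧
      ∀ x ∈ closedBall (0 : E) 1,
        ‖kreg (K i) (s.lf T i) ε x‖ ≤ ε⁻¹ * g x ∧
        ‖pm (s.Jl i x) (kreg (K i) (s.lf T i) ε x)‖ ≤ g x ∧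
        -g x ^ 2 ≤ wedge (kreg (K i) (s.lf T i) ε x) (kreg (K i) (s.lf T i) ε x) := by
    intro i
    have hk := hM.ker i
    have hl := hloc T μ hT i
    have := hl.fin
    obtain ⟨C₁, hC₁, he⟩ := hk.kreg_est (s.good i) hl
    obtain ⟨C₂, hC₂, hE⟩ := En_le hk.Rpos
    have hm : 0 ≤ (s.lm μ i).real Set.univ := measureReal_nonneg
    refine ⟨C₁ * Real.sqrt (C₂ * Cd * (s.lm μ i).real Set.univ), by positivity,
      fun ε hε a ha hL => ⟨fun x => C₁ * (ε⁻¹ * lam (s.lm μ i) R ε x), ?_, ?_, ?_, ?_⟩⟩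
    · exact continuous_const.mul (continuous_const.mul (continuous_lam _ R ε))
    · intro x
      have := lam_nonneg (s.lm μ i) R ε x
      have := hε.1
      positivity
    · have hε1 : ε ∈ Set.Ioc (0 : ℝ) 1 := ⟨hε.1, by have := hk.eps_le_one; linarith [hε.2]⟩
      have h3 := hE (s.lm μ i) ε (Cd * (1 + a)) hε.1 (hk.R_mul_le hε) (hd ε hε1 a ha i hL)
      have hcont : Continuous fun x => (ε⁻¹ * lam (s.lm μ i) R ε x) ^ 2 :=
        (continuous_const.mul (continuous_lam _ R ε)).pow 2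
      have h4 : ∫ x in closedBall (0 : E) 1, (ε⁻¹ * lam (s.lm μ i) R ε x) ^ 2 ≤
          En (s.lm μ i) R ε := by
        refine setIntegral_mono_set
          (hcont.continuousOn.integrableOn_compact (isCompact_closedBall _ _))
          (Filter.Eventually.of_forall fun x => sq_nonneg _) ?_
        exact (closedBall_subset_closedBall (by norm_num)).eventuallyLE
      simp_rw [mul_pow C₁]
      rw [integral_const_mul, mul_pow, mul_pow, Real.sq_sqrt (by positivity),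
        Real.sq_sqrt (by linarith), mul_assoc]
      refine mul_le_mul_of_nonneg_left (h4.trans (h3.trans (le_of_eq ?_))) (sq_nonneg _)
      ring
    · intro x _
      exact he ε hε x
  choose C' hC' hb using h1
  refine ⟨∑ i, C' i, Finset.sum_nonneg fun i _ => hC' i, fun ε hε a ha hL => ⟨fun i => ?_⟩⟩
  obtain ⟨g, g1, g2, g3, g4⟩ := hb i ε hε a ha (hL i)
  refine ⟨g, g1, g2, g3.trans ?_, g4⟩
  have h5 : C' i ≤ ∑ j, C' j := Finset.single_le_sum (fun j _ => hC' j) (Finset.mem_univ i)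
  have h6 := hC' i
  have h7 := Real.sqrt_nonneg (1 + a)
  gcongr

end DomTAux

theorem p_domT :
    S_domT X := by
  intro s M K R N ε₀ a T α μ β hM h hT hZ hα n
  exact DomTAux.dom_T hM h hT hZ hα n

end Vale.Agent.P247
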