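import Vale.Agent.P247.Stm

open scoped ContDiff RealInnerProductSpace Topology Manifold
open MeasureTheory Metric

namespace Vale.Agent.P247

open Vale.Agent.P204 Vale.Agent.P204.Setup

universe u

namespace ElmAux

theorem int_cont {f : E → ℝ} (hf : Continuous f) (μ : Measure E) [IsFiniteMeasure μ] :
    Integrable f ((μ + volume).restrict (closedBall 0 1)) :=
  (hf.continuousOn.integrableOn_compact (μ := μ) (isCompact_closedBall _ _)).add_measure
    (hf.continuousOn.integrableOn_compact (μ := volume) (isCompact_closedBall _ _))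

theorem vol_en (hF : S_fqF) {J : E → E →L[ℝ] E} {F : E → W} {c₀ : ℝ} (hJ : GoodJ J)
    (cF : ContinuousOn F (ball 0 10)) (h0 : 0 < c₀)
    (hc : ∀ y ∈ closedBall (0 : E) 9, ∀ v, c₀ * ‖v‖ ^ 2 ≤ ev (F y) v (J y v)) {u : E → ℝ}
    (hu : ContDiff ℝ ∞ u) (k : ℝ) :
    ∫ y in closedBall (0 : E) 1, Real.exp (u y / k) * ‖fderiv ℝ u y‖ ^ 2 ≤ 64 / c₀ *
      ∫ y, wedge (LocAPIAux.fq J (fun y => bp 1 2 y ^ 2 * Real.exp (u y / k)) (fderiv ℝ u)
        (fderiv ℝ u) y) (F y) := by
  have tg := (ElMirEAux.ctest_g hu k).ctest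
  have cdu : Continuous (fderiv ℝ u) := hu.continuous_fderiv (by simp)
  generalize fderiv ℝ u = q at *
  have cw : Continuous fun y => w11 (q y) (-(q y ∘L J y)) :=
    (contDiff_w112 (n := 0)).continuous.comp (cdu.prodMk (cdu.clm_comp hJ.smooth.continuous).neg)
  have hw : ∀ y : E, ‖y‖ ≤ 9 → ‖q y‖ ^ 2 ≤
      64 / c₀ * wedge (w11 (q y) (-(q y ∘L J y))) (F y) := fun y hy => by
    rw [div_mul_eq_mul_div, le_div_iff₀' h0]
    exact hF _ _ _ _ (hJ.near y) h0.le (hc y (mem_closedBall_zero_iff.2 hy))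
  simp only [LocAPIAux.fq, wedge_smul_left]
  obtain ⟨a, ha⟩ : ∃ a : E → W, a = fun y => w11 (q y) (-(q y ∘L J y)) := ⟨_, rfl⟩
  have e : ∀ y, w11 (q y) (-(q y ∘L J y)) = a y := fun y => by rw [ha]
  simp only [e] at cw hw ⊢
  have c2 : ContinuousOn (fun y => wedge (a y) (F y)) (ball 0 10) :=
    (contDiff_wedge2 (n := 0)).continuous.comp_continuousOn' (f := fun y => (a y, F y))
      (cw.continuousOn.prodMk cF)
  have i1 : Integrable fun y => bp 1 2 y ^ 2 * Real.exp (u y / k) * wedge (a y) (F y) :=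
    (tg.smul_continuousOn (by norm_num) c2).integrable volume
  rw [← integral_const_mul, ← integral_indicator measurableSet_closedBall]
  refine integral_mono_of_nonneg (ae_of_all _ fun y =>
    Set.indicator_nonneg (fun _ _ => by positivity) y) (i1.const_mul _) (ae_of_all _ fun y => ?_)
  beta_reduce
  rw [mul_left_comm]
  by_cases hy : y ∈ closedBall (0 : E) 1
  · have k1 := mem_closedBall_zero_iff.1 hy
    rw [Set.indicator_of_mem hy, bp_eq_one zero_le_one one_lt_two k1, one_pow, one_mul]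
    exact mul_le_mul_of_nonneg_left (hw y (by linarith)) (Real.exp_pos _).le
  · rw [Set.indicator_of_notMem hy]
    rcases le_or_gt ‖y‖ 9 with k1 | k1
    · exact mul_nonneg (by positivity) ((sq_nonneg _).trans (hw y k1))
    · rw [bp_eq_zero zero_le_one one_lt_two (by linarith)]
      simp

end ElmAux

theorem p_elm (h_gamA : S_gamA) (h_gamT : S_gamT) (h_fqF : S_fqF) :
    S_elm := by
  intro J S T α μ ν c C D A c₀ F h hT hJ hS hD hν hK hα cF hc0 hc hle p hp η hη
  have := h.fin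
  have := EnergyAux.fin_res 1
  have : IsFiniteMeasure ((μ + volume).restrict (closedBall (0 : E) 1)) := by
    rw [Measure.restrict_add]
    infer_instance
  obtain ⟨c', hc', C', hC', hU⟩ := potU_bounds h hJ
  obtain ⟨Ca, hCa, hA⟩ := potA_add_le h hJ hS
  obtain ⟨Cd, hCd, hd⟩ := d1_potA_ge h hJ hS hD
  obtain ⟨C₂, -, h2⟩ := energy_le h hJ hS (Ca * (1 + c'⁻¹) + Cd)
  obtain ⟨C₃, hC₃, h3⟩ := h_gamT J T ν c C hT hJ p hp C₂
  obtain ⟨δ, hδ, h4⟩ := h_gamA α A hα p hp (64 / c₀ * C₂) (η / 2) (half_pos hη)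
  have hε : ∀ n : ℕ, 1 / (n + 1 : ℝ) ∈ Set.Ioc (0 : ℝ) 1 := fun n =>
    ⟨by positivity, div_le_one_of_le₀ (by linarith [n.cast_nonneg (α := ℝ)]) (by positivity)⟩
  have hu : ∀ n : ℕ, ContDiff ℝ ∞ (potU J S (1 / (n + 1 : ℝ))) := fun n =>
    contDiff_potU h hJ (hε n).1
  have h0 : ∀ (n : ℕ) x, potU J S (1 / (n + 1 : ℝ)) x ≤ 0 := fun n x =>
    (hU _ (hε n).1 x).2.trans (neg_nonpos.2 (mul_nonneg hc'.le (Ipot_nonneg μ _ x)))
  obtain ⟨k, hk, n, i1, i2⟩ := ElMirAux.small ((μ + volume).restrict (closedBall 0 1))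
    (measurableSet_Epol μ) (fun n => (hu n).continuous.measurable) h0
    (fun x hx => by
      obtain ⟨M, hM⟩ := Ipot_le_of_mem_Epol μ hx
      exact ⟨C' * M, fun n => (neg_le_neg (mul_le_mul_of_nonneg_left (hM _ (hε n).1) hC')).trans
        (hU _ (hε n).1 x).1⟩)
    (fun x hx => Filter.tendsto_atBot_mono (fun n => (hU _ (hε n).1 x).2)
      (Filter.tendsto_neg_atTop_atBot.comp
        ((tendsto_Ipot_of_not_mem_Epol μ hx).const_mul_atTop hc')))
    (δ := min (min η δ) ((η / 2) ^ 2 / (C₃ + 1))) (by positivity)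
  have hQ := h2 _ _ (hu n) (contDiff_potA h hJ (hε n).1)
    (fun x hx => ⟨h0 n x, (hA _ (hε n) x hx).trans (by
      have h4 : Ipot μ (1 / (n + 1 : ℝ)) x ≤ c'⁻¹ * |potU J S (1 / (n + 1 : ℝ)) x| := by
        rw [le_inv_mul_iff₀ hc', abs_of_nonpos (h0 n x)]
        linarith [(hU _ (hε n).1 x).2]
      have h5 := abs_nonneg (potU J S (1 / (n + 1 : ℝ)) x)
      have h6 := inv_pos.2 hc'
      nlinarith [mul_le_mul_of_nonneg_left h4 hCa, mul_nonneg hCa h5, mul_nonneg hCd h5,
        mul_nonneg hCa h6.le]), fun b => le_trans (by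
      have : 0 ≤ Ca * (1 + c'⁻¹) * ‖b‖ ^ 2 := by positivity
      linarith) (hd _ (hε n) x hx b)⟩) k hk
  have su := hu n
  have u0 := h0 n
  generalize potU J S (1 / (n + 1 : ℝ)) = u at *
  have cu := su.continuous
  have sg : ContDiff ℝ ∞ fun y => gam (u y / k) := by
    unfold gam
    fun_prop
  have cdu : Continuous (fderiv ℝ u) := su.continuous_fderiv (by simp)
  obtain ⟨q1, q2⟩ := hle _ (LocAPIAux.ct_fq hJ
    ((ElMirEAux.ctest_g su k).mono (show (2 : ℝ) ≤ 9 by norm_num)).ctest cdu cdu) fun y v => by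
      rw [LocAPIAux.ev_fq hJ]
      exact mul_nonneg (by positivity) (add_nonneg (mul_self_nonneg _) (mul_self_nonneg _))
  have j1 : ∀ m : Measure E, m ≤ μ + volume → ∫ y in closedBall (0 : E) 1,
      |gam (u y / k) - (Epol μ).indicator 1 y| ∂m ≤ min η δ := fun m hm =>
    (integral_mono_measure (Measure.restrict_mono_measure hm _) (ae_of_all _ fun _ => abs_nonneg _)
      ((ElmAux.int_cont sg.continuous μ).sub
        ((integrable_const 1).indicator (measurableSet_Epol μ))).abs).trans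
      (i1.trans (min_le_left _ _))
  have j2 : ∀ m : Measure E, m ≤ μ + volume → ∫ y in closedBall (0 : E) 1,
      Real.exp (u y / k) * (1 - Real.exp (u y / k)) ^ 2 ∂m ≤
        min (min η δ) ((η / 2) ^ 2 / (C₃ + 1)) := fun m hm =>
    (integral_mono_measure (Measure.restrict_mono_measure hm _)
      (ae_of_all _ fun _ => by positivity) (ElmAux.int_cont (by fun_prop) μ)).trans i2
  have m1 : μ ≤ μ + volume := Measure.le_add_right le_rfl
  have m2 : volume ≤ μ + volume := Measure.le_add_left le_rfl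
  have a1 := h4 u su u0 k hk ((ElmAux.vol_en h_fqF hJ cF hc0 hc su k).trans (by
      rw [mul_assoc]
      exact mul_le_mul_of_nonneg_left (q2.trans hQ) (by positivity)))
    (le_trans (le_of_eq (integral_congr_ae (by
      filter_upwards [ae_restrict_mem measurableSet_closedBall,
        ae_restrict_of_ae (compl_mem_ae_iff.2 (volume_diff_Epol μ))] with y y1 y2
      rw [Set.indicator_of_mem (by_contra fun k => y2
        ⟨closedBall_subset_closedBall one_le_two y1, k⟩), Pi.one_apply])))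
      ((j1 _ m2).trans (min_le_right _ _)))
    ((j2 _ m2).trans ((min_le_left _ _).trans (min_le_right _ _)))
  have a2 : |T (fun y => gam (u y / k) • d1 p y) - T (d1 fun y => gam (u y / k) • p y)| ≤ η / 2 := by
    refine abs_le_of_sq_le_sq ((h3 u su k hk (q1.trans hQ)).trans
      ((mul_le_mul_of_nonneg_left ((j2 _ (hν.trans m1)).trans (min_le_right _ _)) hC₃).trans ?_))
      (half_pos hη).le
    rw [← mul_div_assoc, div_le_iff₀ (by positivity)]
    nlinarith [sq_nonneg (η / 2)]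
  have a3 := hK _ ((hp.fun_smul sg).mono (show (1 : ℝ) ≤ 9 by norm_num))
  rw [LinearMap.add_apply] at a3
  refine ⟨_, sg.continuous, (j1 _ m1).trans (min_le_left _ _), ?_⟩
  rw [abs_le] at a1 a2 ⊢
  constructor <;> linarith [a1.1, a1.2, a2.1, a2.2]

end Vale.Agent.P247
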