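import Vale.Agent.P247.Stm

open scoped ContDiff RealInnerProductSpace Topology Manifold
open MeasureTheory Metric

namespace Vale.Agent.P247

open Vale.Agent.P204 Vale.Agent.P204.Setup

universe u

variable {X : Type u} [TopologicalSpace X] [T2Space X] [CompactSpace X]
  [SecondCountableTopology X] [MeasurableSpace X] [BorelSpace X]

namespace EnBdAux

omit [CompactSpace X] in
/-- The pairing of the regularisation with one fixed smooth form. -/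
theorem one (h_msub : S_msub X) {s : Setup X} {M : ℝ → Form X → Form X}
    {K : Fin s.m → ℝ × E × E → W →L[ℝ] W} {R N ε₀ : ℝ} (hM : s.Moll M K R N ε₀) {f : Form X}
    (hf : s.Smooth f) (n k : ℕ) : ∃ D : ℝ, ∀ (B A : GF X) (β : ℝ), 0 ≤ β →
      (∀ φ, s.Smooth φ → |B φ| ≤ β * s.sn k φ) → (A f = 0 ∨ B f + A f = 0) →
      ∀ ε ∈ Set.Ioo 0 ε₀, ∀ a : ℝ, 0 ≤ a → (∀ i, LBd n (s.lf A i) ε 2 a) →
      (B (M ε f) + A (M ε f)) ^ 2 ≤ D ^ 2 * (β + ε * a) ^ 2 := by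
  obtain ⟨C₁, hC₁, h₁⟩ := h_msub s M K R N ε₀ hM f hf k
  obtain ⟨C₂, hC₂, h₂⟩ := h_msub s M K R N ε₀ hM f hf n
  refine ⟨s.sn k f + C₁ * |ε₀| + C₂, fun B A β hβ hB hAf ε hε a ha hL => ?_⟩
  have hsn := s.sn_nonneg k f
  have e0 : |B f + A f| ≤ β * s.sn k f := by
    rcases hAf with h | h
    · rw [h, add_zero]
      exact hB f hf
    · rw [h, abs_zero]
      positivity
  have hle : ε ≤ |ε₀| := hε.2.le.trans (le_abs_self ε₀)
  have e1 : |B (f - M ε f)| ≤ β * (C₁ * |ε₀|) := by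
    refine (hB _ (hf.sub (hM.smooth ε hε f hf))).trans (mul_le_mul_of_nonneg_left ?_ hβ)
    exact (h₁ ε hε).1.trans (mul_le_mul_of_nonneg_left hle hC₁)
  have e2 : |A (f - M ε f)| ≤ C₂ * ε * a := (h₂ ε hε).2 A a ha hL
  have e3 : B (M ε f) + A (M ε f) = (B f + A f) - B (f - M ε f) - A (f - M ε f) := by
    rw [map_sub, map_sub]
    ring
  have hεa : 0 ≤ ε * a := mul_nonneg hε.1.le ha
  have hc : 0 ≤ C₁ * |ε₀| := by positivity
  have e4 : |B (M ε f) + A (M ε f)| ≤ (s.sn k f + C₁ * |ε₀| + C₂) * (β + ε * a) := by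
    rw [e3]
    have t1 := abs_sub (B f + A f - B (f - M ε f)) (A (f - M ε f))
    have t2 := abs_sub (B f + A f) (B (f - M ε f))
    have p1 : 0 ≤ s.sn k f * (ε * a) := mul_nonneg hsn hεa
    have p2 : 0 ≤ C₁ * |ε₀| * (ε * a) := mul_nonneg hc hεa
    have p3 : 0 ≤ C₂ * β := mul_nonneg hC₂ hβ
    nlinarith
  rw [← mul_pow, ← sq_abs (B (M ε f) + A (M ε f))]
  exact pow_le_pow_left₀ (abs_nonneg _) e4 2

theorem fin {x y z D₁ D₂ D₃ V₁ V₂ V₃ t w : ℝ} (h₁ : 0 < V₁) (h₂ : 0 < V₂) (h₃ : 0 < V₃)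
    (hx : x ^ 2 ≤ D₁ ^ 2 * t ^ 2) (hy : y ^ 2 ≤ D₂ ^ 2 * t ^ 2) (hz : z ^ 2 ≤ D₃ ^ 2 * t ^ 2)
    (hw : w ≤ x ^ 2 / V₁ + y ^ 2 / V₂ + z ^ 2 / V₃) :
    w ≤ (Real.sqrt (D₁ ^ 2 / V₁ + D₂ ^ 2 / V₂ + D₃ ^ 2 / V₃) * t) ^ 2 := by
  rw [mul_pow, Real.sq_sqrt (by positivity)]
  have a₁ := div_le_div_of_nonneg_right hx h₁.le
  have a₂ := div_le_div_of_nonneg_right hy h₂.le
  have a₃ := div_le_div_of_nonneg_right hz h₃.le
  have e : (D₁ ^ 2 / V₁ + D₂ ^ 2 / V₂ + D₃ ^ 2 / V₃) * t ^ 2 =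
      D₁ ^ 2 * t ^ 2 / V₁ + D₂ ^ 2 * t ^ 2 / V₂ + D₃ ^ 2 * t ^ 2 / V₃ := by ring
  linarith

end EnBdAux

open EnBdAux in
theorem p_enbd (h_msub : S_msub X) :
    S_enbd X := by
  intro s M K R N ε₀ σ b c hM hT n k
  obtain ⟨D₁, h₁⟩ := one h_msub hM hT.sa n k
  obtain ⟨D₂, h₂⟩ := one h_msub hM hT.hb.smooth n k
  obtain ⟨D₃, h₃⟩ := one h_msub hM hT.hc.smooth n k
  refine ⟨_, Real.sqrt_nonneg (D₁ ^ 2 / s.Int σ σ + D₂ ^ 2 / s.Int b b + D₃ ^ 2 / s.Int c c),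
    fun B A β hβ hB hAσ hK hb hc ε hε a ha hL G G' h h' => ?_⟩
  have hS := h.smooth.add h'.smooth
  have key : ∀ φ, s.Smooth φ → s.Int (G + G') φ = B (M ε φ) + A (M ε φ) := fun φ hφ => by
    rw [s.Int_add_left h.smooth.cont h'.smooth.cont hφ.cont, h.dual φ hφ, h'.dual φ hφ]
  have hC : s.Closed (G + G') := s.closed_of_weak hS fun i p hp => by
    rw [s.Int_comm, key _ (Mo.smooth_glob s i (hp.d1.mono (by norm_num)))]
    exact hK _ (hM.ex ε hε i p hp)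
  have hi := hT.hi (G + G') hS hC
  rw [key σ hT.sa, key b hT.hb.smooth, key c hT.hc.smooth,
    s.Int_add_left h.smooth.cont h'.smooth.cont hS.cont,
    s.Int_add_right h.smooth.cont h.smooth.cont h'.smooth.cont,
    s.Int_add_right h'.smooth.cont h.smooth.cont h'.smooth.cont, s.Int_comm G' G] at hi
  refine fin hT.va hT.vb hT.vc (h₁ B A β hβ hB (Or.inl hAσ) ε hε a ha hL)
    (h₂ B A β hβ hB (Or.inr hb) ε hε a ha hL) (h₃ B A β hβ hB (Or.inr hc) ε hε a ha hL) ?_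
  linarith

end Vale.Agent.P247
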