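import Vale.Agent.P247.Stm

open scoped ContDiff RealInnerProductSpace Topology Manifold
open MeasureTheory Metric

namespace Vale.Agent.P247

open Vale.Agent.P204 Vale.Agent.P204.Setup

universe u

namespace FinalAux

theorem swap {m : ℝ} {a b c : W} (h : Def3 m a b c) : Def3 m b a c := by
  intro x y z hne
  have h1 : x • b + y • a + z • c = y • a + x • b + z • c := by abel
  rw [h1]
  exact h y x z (by tauto)

theorem wd_comm (σ τ : R4 →L[ℝ] R4 →L[ℝ] ℝ) : wd σ τ = wd τ σ := by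
  unfold wd
  ring

variable {X : Type u} [TopologicalSpace X] [ChartedSpace E X] [MeasurableSpace X]

theorem intg_comm (μ : TopField X) (ν : Measure X) (σ τ : BilField E X) :
    intg μ ν σ τ = intg μ ν τ σ := by
  have h : ∀ x, quo μ σ τ x = quo μ τ σ x := fun x =>
    congrArg (fun r => r / μ x bv) (wd_comm (σ x) (τ x))
  simp only [intg, h]

end FinalAux

variable {X : Type u} [TopologicalSpace X] [T2Space X] [CompactSpace X] [ChartedSpace E X]
  [IsManifold 𝓘(ℝ, E) ∞ X] [MeasurableSpace X] [BorelSpace X]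

omit [T2Space X] [CompactSpace X] [IsManifold 𝓘(ℝ, E) ∞ X] [BorelSpace X] in
theorem p_final (h_stepM : S_stepM X) (h_path : S_path X) (h_toW : S_toW X) : S_final X := by
  intro μ ν om ε hμ hν hom hn hi hε
  obtain ⟨w1, -, w3, -⟩ := h_toW
  obtain ⟨q1, q2, q3⟩ := h_path
  obtain ⟨w, hw⟩ : ∃ w : Fin 3 → Form X, ∀ i, ofW (w i) = om i :=
    ⟨fun i => toW (om i), fun i => w1 _ (hom.form i)⟩
  obtain rfl : om = fun i => ofW (w i) := funext fun i => (hw i).symm
  have hc := hom.form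
  have hd : ∀ x, Def3 (μ x bv) (w 0 x) (w 1 x) (w 2 x) := fun x => (q3 μ w x).1 (hom.pos x)
  obtain ⟨t0, a1, a2, a3, a4, a5⟩ := h_stepM μ ν (w 0) (w 1) (w 2) ε hμ hν (hc 0) (hc 1) (hc 2) hd
    (by simpa using hn 0 1) (by simpa using hn 0 2) (by simpa using hn 1 2) (by simpa using hn 0 0)
    (by simpa using hn 1 1) (by simpa using hn 2 2)
    (fun φ h h0 h1 h2 => hi φ h fun i => by fin_cases i <;> assumption) hε
  have e0 : w 0 + (1 : ℝ) • (t0 - w 0) = t0 := by simp
  have c0 : Cohomologous μ ν (ofW t0) (ofW (w 0)) := by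
    have := a2 1
    rwa [e0] at this
  have hd0 : ∀ x, Def3 (μ x bv) (w 1 x) (t0 x) (w 2 x) := by
    intro x
    have := a4 1 ⟨zero_le_one, le_rfl⟩ x
    exact FinalAux.swap (by simpa using this)
  obtain ⟨t1, b1, b2, b3, b4, b5⟩ := h_stepM μ ν (w 1) t0 (w 2) ε hμ hν (hc 1) a1 (hc 2) hd0
    (by rw [FinalAux.intg_comm, c0 _ (hc 1)]; simpa using hn 0 1) (by simpa using hn 1 2)
    (by rw [c0 _ (hc 2)]; simpa using hn 0 2) (by simpa using hn 1 1)
    (by rw [c0 _ a1, FinalAux.intg_comm, c0 _ (hc 0)]; simpa using hn 0 0) (by simpa using hn 2 2)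
    (fun φ h h1 h0 h2 => hi φ h fun i => by
      rw [FinalAux.intg_comm, c0 _ h, FinalAux.intg_comm] at h0
      fin_cases i <;> assumption) hε
  obtain ⟨f, hf⟩ : ∃ f : ℝ → ℝ, f = fun t => Real.smoothTransition (2 * t) := ⟨_, rfl⟩
  obtain ⟨g, hg⟩ : ∃ g : ℝ → ℝ, g = fun t => Real.smoothTransition (2 * t - 1) := ⟨_, rfl⟩
  have fs : ContDiff ℝ ∞ f := by
    rw [hf]; exact Real.smoothTransition.contDiff.comp (by fun_prop)
  have gs : ContDiff ℝ ∞ g := by
    rw [hg]; exact Real.smoothTransition.contDiff.comp (by fun_prop)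
  have fI : ∀ t, f t ∈ Set.Icc (0 : ℝ) 1 := fun t => by
    rw [hf]; exact ⟨Real.smoothTransition.nonneg _, Real.smoothTransition.le_one _⟩
  have gI : ∀ t, g t ∈ Set.Icc (0 : ℝ) 1 := fun t => by
    rw [hg]; exact ⟨Real.smoothTransition.nonneg _, Real.smoothTransition.le_one _⟩
  have f0 : f 0 = 0 := by rw [hf]; exact Real.smoothTransition.zero_of_nonpos (by norm_num)
  have f1 : ∀ t, 1 / 2 ≤ t → f t = 1 := fun t ht => by
    rw [hf]; exact Real.smoothTransition.one_of_one_le (by linarith)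
  have g0 : ∀ t, t ≤ 1 / 2 → g t = 0 := fun t ht => by
    rw [hg]; exact Real.smoothTransition.zero_of_nonpos (by linarith)
  have g1 : g 1 = 1 := by rw [hg]; exact Real.smoothTransition.one_of_one_le (by norm_num)
  obtain ⟨P, hP⟩ : ∃ P : ℝ → Fin 3 → Form X, P = fun t =>
      ![w 0 + f t • (t0 - w 0), w 1 + g t • (t1 - w 1), w 2 + (0 : ℝ) • (w 2 - w 2)] := ⟨_, rfl⟩
  have P0 : ∀ t, P t 0 = w 0 + f t • (t0 - w 0) := fun t => by rw [hP]; rfl
  have P1 : ∀ t, P t 1 = w 1 + g t • (t1 - w 1) := fun t => by rw [hP]; rfl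
  have P2' : ∀ t, P t 2 = w 2 + (0 : ℝ) • (w 2 - w 2) := fun t => by rw [hP]; rfl
  have P2 : ∀ t, P t 2 = w 2 := fun t => by rw [P2']; simp
  have E0 : P 1 0 = t0 := by rw [P0, f1 1 (by norm_num)]; simp
  have E1 : P 1 1 = t1 := by rw [P1, g1]; simp
  refine ⟨fun t i => ofW (P t i), ⟨?_, ?_, ?_, ?_⟩, fun t => by simp only [P2], ?_, ?_⟩
  · intro i e he u v
    fin_cases i
    · simpa only [Fin.zero_eta, P0] using q2 _ _ f (hc 0) a1 fs e he u v
    · simpa only [Fin.mk_one, P1] using q2 _ _ g (hc 1) b1 gs e he u v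
    · simpa only [Fin.reduceFinMk, P2'] using
        q2 _ _ (fun _ => 0) (hc 2) (hc 2) contDiff_const e he u v
  · funext i
    fin_cases i
    · simp [P0, f0]
    · simp [P1, g0 0 (by norm_num)]
    · simp [P2]
  · intro t _
    refine ⟨fun i => ?_, fun x => (q3 μ (P t) x).2 ?_⟩
    · fin_cases i
      · simpa only [Fin.zero_eta, P0] using q1 _ _ _ (hc 0) a1
      · simpa only [Fin.mk_one, P1] using q1 _ _ _ (hc 1) b1
      · simpa only [Fin.reduceFinMk, P2] using hc 2
    · rw [P0, P1, P2]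
      rcases le_total t (1 / 2) with h | h
      · rw [g0 t h]
        simpa using a4 _ (fI t) x
      · rw [f1 t h]
        simpa using FinalAux.swap (b4 _ (gI t) x)
  · intro t _ i
    fin_cases i
    · simpa only [Fin.zero_eta, P0] using a2 _
    · simpa only [Fin.mk_one, P1] using b2 _
    · simp only [Fin.reduceFinMk, P2]
      exact fun _ _ => rfl
  · intro i j hij x
    have h1 := (a3 x).2
    obtain ⟨h2, h3⟩ := b3 x
    have h4 := (wedge_comm _ _).trans h1
    have h5 := (wedge_comm _ _).trans h2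
    have h6 := (wedge_comm _ _).trans h3
    simp only [quo, w3]
    fin_cases i <;> fin_cases j <;>
      simp [E0, E1, P2, h1, h2, h3, h4, h5, h6] at hij ⊢
  · intro i
    simp only [quo, w3]
    fin_cases i
    · simpa only [Fin.zero_eta, E0] using a5
    · simpa only [Fin.mk_one, E1] using b5
    · simp [P2]

end Vale.Agent.P247
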