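import Vale.Agent.P247.Br

open scoped ContDiff RealInnerProductSpace Topology Manifold
open MeasureTheory Metric

namespace Vale.Agent.P247

open Vale.Agent.P204 Vale.Agent.P204.Setup

universe u

variable {X : Type u} [TopologicalSpace X] [T2Space X] [CompactSpace X] [ChartedSpace E X]
  [IsManifold 𝓘(ℝ, E) ∞ X] [MeasurableSpace X] [BorelSpace X]

theorem quo_cont [SecondCountableTopology X] (h_br1 : S_br1 X) (h_rhoLoc : S_rhoLoc X)
    {μ : TopField X} {ν : Measure X} {s : Setup X} {J : EndField E X} {c : Form X}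
    (hμ : IsVolForm μ) (hν : IsVolMeasure μ ν) (hA : Mo.Adapted s J) (hc : Anti s c)
    (hpos : ∀ x, 0 < wedge (c x) (c x) / μ x bv) {φ φ' : Form X} (hφ : s.Cont φ)
    (hφ' : s.Cont φ') : Continuous fun x => wedge (φ x) (φ' x) / μ x bv := by
  have hw : ∀ (a b : Form X) j y, wedge (s.loc j a y) (s.loc j b y) =
      (s.P j ((s.ψ j).symm y)).det * wedge (a ((s.ψ j).symm y)) (b ((s.ψ j).symm y)) :=
    fun a b j y => wedge_pull _ _ _
  obtain ⟨D, hD⟩ : ∃ D : Fin s.m → E → ℝ, ∀ j y,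
      D j y = (s.P j ((s.ψ j).symm y)).det * μ ((s.ψ j).symm y) bv := ⟨_, fun _ _ => rfl⟩
  have hD0 : ∀ j, ∀ y ∈ ball (0 : E) 10, 0 < D j y := fun j y hy => by
    rw [hD]
    exact BrAux.pos_mul ((hw c c j y).symm ▸ ((h_rhoLoc s c hc).1 j y hy).1) (hpos _)
  have hDc : ∀ j, ContinuousOn (D j) (ball 0 10) := fun j => by
    rw [show D j = _ from funext (hD j)]
    exact (h_br1 μ ν s J hμ hν hA j).1
  obtain ⟨h, hh⟩ : ∃ h : Fin s.m → E → ℝ, ∀ j y,
      h j y = s.c j y * (wedge (s.loc j φ y) (s.loc j φ' y) / D j y) := ⟨_, fun _ _ => rfl⟩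
  have ht : ∀ j, CTest 9 (h j) := fun j => by
    rw [show h j = _ from funext (hh j)]
    exact ((s.c_test j).ctest.smul_continuousOn (by norm_num : (1 : ℝ) < 10)
      ((AtlasIntAux.contOn_wedge (hφ j) (hφ' j)).div (hDc j) fun y hy => (hD0 j y hy).ne')).mono
      (by norm_num)
  have e1 : (fun x => wedge (φ x) (φ' x) / μ x bv) = fun x => ∑ j, s.glob0 j (h j) x := by
    funext x
    rw [← one_mul (wedge (φ x) (φ' x) / μ x bv), ← s.sum_glob0_c x, Finset.sum_mul]
    refine Finset.sum_congr rfl fun j _ => ?_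
    unfold glob0
    split_ifs with k
    · have h1 := hD0 j _ (mem_ball_zero_iff.2 (s.norm_lt_of_mem j k))
      rw [hD] at h1
      rw [hh, hw, hD, BrAux.quo_eq h1, (s.ψ j).left_inv k]
    · exact zero_mul _
  rw [e1]
  exact continuous_finsetSum _ fun j _ => s.continuous_glob0 j (ht j)

end Vale.Agent.P247
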