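import Vale.Agent.P247.Stm

open scoped ContDiff RealInnerProductSpace Topology Manifold
open MeasureTheory Metric

namespace Vale.Agent.P247

open Vale.Agent.P204 Vale.Agent.P204.Setup

universe u

namespace StepMAux

theorem d1 {m : ℝ} {a b c : W} (h : Def3 m a b c) : 0 < wedge a a / m := by
  simpa using h 1 0 0 (Or.inl one_ne_zero)

theorem d2 {m : ℝ} {a b c : W} (h : Def3 m a b c) : 0 < wedge b b / m := by
  simpa using h 0 1 0 (Or.inr (Or.inl one_ne_zero))

theorem d3 {m : ℝ} {a b c : W} (h : Def3 m a b c) : 0 < wedge c c / m := by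
  simpa using h 0 0 1 (Or.inr (Or.inr one_ne_zero))

theorem nz {m : ℝ} {b : W} (h : 0 < wedge b b / m) : b ≠ 0 := by
  rintro rfl
  simp [wedge] at h

theorem pm_anti {J : E →L[ℝ] E} {b : W} (h : pull J b = -b) : pm J b = b := by
  simp only [pm, smul_apply, sub_apply,
    ContinuousLinearMap.id_apply, h]
  module

theorem pp_inv {J : E →L[ℝ] E} {b : W} (h : pull J b = b) : pp J b = b := by
  simp only [pp, smul_apply, add_apply,
    ContinuousLinearMap.id_apply, h]
  module

theorem ratio {m p q : ℝ} (hq : 0 < q / m) : |p / q - 1| * q / m = |p / m - q / m| := by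
  have hm : m ≠ 0 := by rintro rfl; simp at hq
  have hq0 : q ≠ 0 := by rintro rfl; simp at hq
  have h1 : p / m - q / m = (p / q - 1) * (q / m) := by field_simp
  rw [h1, abs_mul, abs_of_pos hq, mul_div_assoc]

theorem ratio_nn {m p q : ℝ} (hp : 0 < p / m) (hq : 0 < q / m) : 0 ≤ p / q := by
  have hm : m ≠ 0 := by rintro rfl; simp at hq
  have hq0 : q ≠ 0 := by rintro rfl; simp at hq
  have h1 : p / q = (p / m) / (q / m) := by field_simp
  rw [h1]
  positivity

end StepMAux

variable {X : Type u} [TopologicalSpace X] [T2Space X] [CompactSpace X] [ChartedSpace E X]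
  [IsManifold 𝓘(ℝ, E) ∞ X] [MeasurableSpace X] [BorelSpace X]

omit [BorelSpace X] in
theorem p_stepM [SecondCountableTopology X] (h_acs : S_acs X) (h_toW : S_toW X) (h_br : S_br X)
    (h_hi0 : S_hi0 X) (h_main : S_main X) (h_l1 : S_l1 X) (h_pd : S_pd)
    (h_rhoLoc : S_rhoLoc X) : S_stepM X := by
  intro μ ν a b c ε hμ hν ha hb hc hd iab iac ibc iaa ibb icc hi hε
  obtain ⟨J, hJ, hJS⟩ := h_acs (fun x => μ x bv) a b c ha hb hc hd
  obtain ⟨s, hs⟩ := Mo.exists_setup hJ
  obtain ⟨w1, w2, w3, w4⟩ := h_toW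
  replace w4 := w4 s J hs
  have hJs : ∀ x, JS (s.J x) (a x) (b x) (c x) := by
    intro x
    have : s.J x = J x := ContinuousLinearMap.ext (hs.J_eq x)
    rw [this]
    exact hJS x
  obtain ⟨sa, ca⟩ := (w4 a).1 ha
  obtain ⟨sb, cb⟩ := (w4 b).1 hb
  obtain ⟨sc, cc⟩ := (w4 c).1 hc
  have hta : s.Tame a := ⟨sa, ca, fun x => (hJs x).2.2.2⟩
  have hB : Anti s b := ⟨sb, cb, funext fun x => StepMAux.pm_anti (hJs x).2.1,
    fun x => StepMAux.nz (StepMAux.d2 (hd x))⟩
  have hC : Anti s c := ⟨sc, cc, funext fun x => StepMAux.pm_anti (hJs x).2.2.1,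
    fun x => StepMAux.nz (StepMAux.d3 (hd x))⟩
  have hbr := h_br μ ν s J c hμ hν hs hC fun x => StepMAux.d3 (hd x)
  have hI : ∀ φ φ', s.Cont φ → s.Cont φ' → intg μ ν (ofW φ) (ofW φ') = s.Int φ φ' := by
    intro φ φ' h h'
    rw [← (hbr φ φ' h h').2]
    simp only [intg, quo, w3]
  rw [hI _ _ sa.cont sb.cont] at iab
  rw [hI _ _ sa.cont sc.cont] at iac
  rw [hI _ _ sb.cont sc.cont] at ibc
  have hne : Nonempty X := by
    by_contra h
    rw [not_nonempty_iff] at h
    simp [intg, integral_of_isEmpty] at iaa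
  rw [hI _ _ sa.cont sa.cont] at iaa
  rw [hI _ _ sb.cont sb.cont] at ibb
  rw [hI _ _ sc.cont sc.cont] at icc
  have htri : Tri s a b c := by
    refine h_hi0 s a b c sa ca hB hC iab iac ibc (by linarith) (by linarith) (by linarith) ?_
    intro φ h1 h2 h3 h4 h5
    rw [← hI _ _ h1.cont h1.cont]
    refine hi _ ((w4 φ).2 ⟨h1, h2⟩) ?_ ?_ ?_
    · rwa [hI _ _ h1.cont sa.cont]
    · rwa [hI _ _ h1.cont sb.cont]
    · rwa [hI _ _ h1.cont sc.cont]
  obtain ⟨m, hm, hl⟩ := h_l1 s c hC (by linarith) ε hε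
  obtain ⟨t, ht, hn, hmt⟩ := h_main s a b c m hne hta htri (by linarith) hm
  have hta' : t = a + (t - a) := by abel
  have htt : s.Int t t = s.Int c c := by
    have h1 := hn.zero t ht.smooth ht.closed
    have h2 := hn.zero a sa ca
    rw [s.Int_sub_left ht.smooth.cont sa.cont ht.smooth.cont] at h1
    rw [s.Int_sub_left ht.smooth.cont sa.cont sa.cont, s.Int_comm] at h2
    linarith
  have hdef : ∀ r ∈ Set.Icc (0 : ℝ) 1, ∀ x,
      Def3 (μ x bv) (a x + r • (t x - a x)) (b x) (c x) := by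
    intro r hr x
    refine (h_pd _ (s.J x) _ _ _ _ (hd x) (hJs x) fun v hv => ?_).1
    rw [ev_add, ev_smul, ev_sub]
    have h1 := hta.pos x v hv
    have h2 := ht.pos x v hv
    rcases hr.1.eq_or_lt with h3 | h3
    · rw [← h3]; linarith
    · nlinarith [mul_pos h3 h2, mul_nonneg (sub_nonneg.2 hr.2) h1.le]
  refine ⟨t, (w4 t).2 ⟨ht.smooth, ht.closed⟩, ?_, ?_, hdef, ?_⟩
  · intro r φ hφ
    have h1 := w1 φ hφ
    obtain ⟨h2, h3⟩ := (w4 (toW φ)).1 (by rwa [h1])
    rw [← h1, hI _ _ (sa.cont.add (hn.smooth.cont.smul r)) h2.cont, hI _ _ sa.cont h2.cont,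
      s.Int_add_left sa.cont (hn.smooth.cont.smul r) h2.cont, s.Int_smul_left,
      hn.zero _ h2 h3, mul_zero, add_zero]
  · intro x
    exact (h_pd _ (s.J x) _ _ _ _ (hd x) (hJs x) (ht.pos x)).2 (ht.inv x)
  · have hdt : ∀ x, 0 < wedge (t x) (t x) / μ x bv := by
      intro x
      have := StepMAux.d1 (hdef 1 ⟨zero_le_one, le_rfl⟩ x)
      simpa using this
    have hg : Continuous fun x => |wedge (t x) (t x) / wedge (c x) (c x) - 1| := by
      have h1 := ((h_rhoLoc s c hC).2 t ht.smooth.cont).pow 2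
      have h2 : (fun x => wedge (t x) (t x) / wedge (c x) (c x)) = fun x => rho s c t x ^ 2 := by
        funext x
        have h3 : s.ppF t x = t x := StepMAux.pp_inv (ht.inv x)
        rw [rho, h3, Real.sq_sqrt (StepMAux.ratio_nn (hdt x) (StepMAux.d3 (hd x)))]
      have h4 : Continuous fun x => wedge (t x) (t x) / wedge (c x) (c x) := by
        rw [h2]; exact h1
      exact (h4.sub continuous_const).abs
    obtain ⟨h1, h2⟩ := hbr _ c (sc.cont.fun_smul hg) sc.cont
    have h3 : (fun x => wedge (|wedge (t x) (t x) / wedge (c x) (c x) - 1| • c x) (c x) / μ x bv) =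
        fun x => |wedge (t x) (t x) / μ x bv - wedge (c x) (c x) / μ x bv| := by
      funext x
      rw [wedge_smul_left, StepMAux.ratio (StepMAux.d3 (hd x))]
    rw [h3] at h1 h2
    rw [← ofReal_integral_eq_lintegral_ofReal h1 (Filter.Eventually.of_forall fun x => abs_nonneg _),
      h2]
    exact ENNReal.ofReal_le_ofReal (hl t ht htt hmt)

end Vale.Agent.P247
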