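import Vale.Agent.P247.Stm2
import Vale.Agent.P247.StepM
import Vale.Agent.P247.QuoC

open scoped ContDiff RealInnerProductSpace Topology Manifold
open MeasureTheory Metric

namespace Vale.Agent.P247

open Vale.Agent.P204 Vale.Agent.P204.Setup

universe u

variable {X : Type u} [TopologicalSpace X] [T2Space X] [CompactSpace X] [ChartedSpace E X]
  [IsManifold 𝓘(ℝ, E) ∞ X] [MeasurableSpace X] [BorelSpace X]

variable (X) in
def S_stepL : Prop := ∀ (μ : TopField X) (ν : Measure X) (a b c : Form X) (f : X → ℝ),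
  IsVolForm μ → IsVolMeasure μ ν → IsClosedForm (ofW a) → IsClosedForm (ofW b) →
  IsClosedForm (ofW c) → (∀ x, Def3 (μ x bv) (a x) (b x) (c x)) →
  intg μ ν (ofW a) (ofW b) = 0 → intg μ ν (ofW a) (ofW c) = 0 → intg μ ν (ofW b) (ofW c) = 0 →
  intg μ ν (ofW a) (ofW a) = 1 → intg μ ν (ofW b) (ofW b) = 1 → intg μ ν (ofW c) (ofW c) = 1 →
  (∀ φ, IsClosedForm φ → intg μ ν φ (ofW a) = 0 → intg μ ν φ (ofW b) = 0 →
    intg μ ν φ (ofW c) = 0 → intg μ ν φ φ ≤ 0) → Continuous f → (∀ x, 0 < f x) →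
  ∫ x, f x ∂ν < 1 →
  ∃ t : Form X, IsClosedForm (ofW t) ∧
    (∀ r : ℝ, Cohomologous μ ν (ofW (a + r • (t - a))) (ofW a)) ∧
    (∀ x, wedge (t x) (b x) = 0 ∧ wedge (t x) (c x) = 0) ∧
    (∀ r ∈ Set.Icc (0 : ℝ) 1, ∀ x, Def3 (μ x bv) (a x + r • (t x - a x)) (b x) (c x)) ∧
    ∀ x, f x ≤ wedge (t x) (t x) / μ x bv

theorem p_stepL [SecondCountableTopology X] (h_acs : S_acs X) (h_toW : S_toW X) (h_br : S_br X)
    (h_hi0 : S_hi0 X) (h_mainL : S_mainL X) (h_pd : S_pd) (h_br1 : S_br1 X)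
    (h_rhoLoc : S_rhoLoc X) : S_stepL X := by
  intro μ ν a b c f hμ hν ha hb hc hd iab iac ibc iaa ibb icc hi hf hf0 hf1
  obtain ⟨J, hJ, hJS⟩ := h_acs (fun x => μ x bv) a b c ha hb hc hd
  obtain ⟨s, hs⟩ := Mo.exists_setup hJ
  obtain ⟨w1, w2, w3, w4⟩ := h_toW
  replace w4 := w4 s J hs
  have hJs : ∀ x, JS (s.J x) (a x) (b x) (c x) := by
    intro x
    have : s.J x = J x := ContinuousLinearMap.ext (hs.J_eq x)
    rw [this]
    exact hJS x
  obtain ⟨sa, ca⟩ := (w4 a).1 ha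
  obtain ⟨sb, cb⟩ := (w4 b).1 hb
  obtain ⟨sc, cc⟩ := (w4 c).1 hc
  have hta : s.Tame a := ⟨sa, ca, fun x => (hJs x).2.2.2⟩
  have hB : Anti s b := ⟨sb, cb, funext fun x => StepMAux.pm_anti (hJs x).2.1,
    fun x => StepMAux.nz (StepMAux.d2 (hd x))⟩
  have hC : Anti s c := ⟨sc, cc, funext fun x => StepMAux.pm_anti (hJs x).2.2.1,
    fun x => StepMAux.nz (StepMAux.d3 (hd x))⟩
  have hbr := h_br μ ν s J c hμ hν hs hC fun x => StepMAux.d3 (hd x)
  have hI : ∀ φ φ', s.Cont φ → s.Cont φ' → intg μ ν (ofW φ) (ofW φ') = s.Int φ φ' := by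
    intro φ φ' h h'
    rw [← (hbr φ φ' h h').2]
    simp only [intg, quo, w3]
  rw [hI _ _ sa.cont sb.cont] at iab
  rw [hI _ _ sa.cont sc.cont] at iac
  rw [hI _ _ sb.cont sc.cont] at ibc
  have hne : Nonempty X := by
    by_contra h
    rw [not_nonempty_iff] at h
    simp [intg, integral_of_isEmpty] at iaa
  have hν0 : ν ≠ 0 := by
    rintro rfl
    simp [intg] at iaa
  rw [hI _ _ sa.cont sa.cont] at iaa
  rw [hI _ _ sb.cont sb.cont] at ibb
  rw [hI _ _ sc.cont sc.cont] at icc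
  have htri : Tri s a b c := by
    refine h_hi0 s a b c sa ca hB hC iab iac ibc (by linarith) (by linarith) (by linarith) ?_
    intro φ h1 h2 h3 h4 h5
    rw [← hI _ _ h1.cont h1.cont]
    refine hi _ ((w4 φ).2 ⟨h1, h2⟩) ?_ ?_ ?_
    · rwa [hI _ _ h1.cont sa.cont]
    · rwa [hI _ _ h1.cont sb.cont]
    · rwa [hI _ _ h1.cont sc.cont]
  have hq : ∀ x, 0 < wedge (c x) (c x) / μ x bv := fun x => StepMAux.d3 (hd x)
  have hqc := quo_cont h_br1 h_rhoLoc hμ hν hs hC hq sc.cont sc.cont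
  obtain ⟨h, hh⟩ : ∃ h : X → ℝ, h = fun x => Real.sqrt (f x / (wedge (c x) (c x) / μ x bv)) :=
    ⟨_, rfl⟩
  have hhc : Continuous h := by
    rw [hh]; exact (hf.div hqc fun x => (hq x).ne').sqrt
  have hh2 : ∀ x, h x ^ 2 * (wedge (c x) (c x) / μ x bv) = f x := fun x => by
    rw [hh, Real.sq_sqrt (div_pos (hf0 x) (hq x)).le, div_mul_cancel₀ _ (hq x).ne']
  obtain ⟨k1, k2⟩ := hbr _ c (sc.cont.fun_smul (f := fun x => h x ^ 2) (hhc.pow 2)) sc.cont
  have k3 : (fun x => wedge (h x ^ 2 • c x) (c x) / μ x bv) = f := by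
    funext x
    rw [wedge_smul_left, mul_div_assoc, hh2]
  rw [k3] at k1 k2
  have k4 : 0 < ∫ x, f x ∂ν := by
    rw [integral_pos_iff_support_of_nonneg (fun x => (hf0 x).le) k1,
      Function.support_eq_univ fun x => (hf0 x).ne']
    exact Measure.measure_univ_pos.2 hν0
  obtain ⟨t, ht, hn, hmt⟩ := h_mainL s a b c h hne hta htri hhc
    (fun x => by rw [hh]; exact Real.sqrt_nonneg _) (by rwa [← k2]) (by rw [← k2, iaa]; exact hf1)
  have hdef : ∀ r ∈ Set.Icc (0 : ℝ) 1, ∀ x,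
      Def3 (μ x bv) (a x + r • (t x - a x)) (b x) (c x) := by
    intro r hr x
    refine (h_pd _ (s.J x) _ _ _ _ (hd x) (hJs x) fun v hv => ?_).1
    rw [ev_add, ev_smul, ev_sub]
    have h1 := hta.pos x v hv
    have h2 := ht.pos x v hv
    rcases hr.1.eq_or_lt with h3 | h3
    · rw [← h3]; linarith
    · nlinarith [mul_pos h3 h2, mul_nonneg (sub_nonneg.2 hr.2) h1.le]
  refine ⟨t, (w4 t).2 ⟨ht.smooth, ht.closed⟩, ?_, ?_, hdef, ?_⟩
  · intro r φ hφ
    have h1 := w1 φ hφ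
    obtain ⟨h2, h3⟩ := (w4 (toW φ)).1 (by rwa [h1])
    rw [← h1, hI _ _ (sa.cont.add (hn.smooth.cont.smul r)) h2.cont, hI _ _ sa.cont h2.cont,
      s.Int_add_left sa.cont (hn.smooth.cont.smul r) h2.cont, s.Int_smul_left,
      hn.zero _ h2 h3, mul_zero, add_zero]
  · intro x
    exact (h_pd _ (s.J x) _ _ _ _ (hd x) (hJs x) (ht.pos x)).2 (ht.inv x)
  · intro x
    have hdt : 0 < wedge (t x) (t x) / μ x bv := by
      have := StepMAux.d1 (hdef 1 ⟨zero_le_one, le_rfl⟩ x)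
      simpa using this
    have h3 : s.ppF t x = t x := StepMAux.pp_inv (ht.inv x)
    have h4 := hmt x
    rw [rho, h3] at h4
    have h0 : 0 ≤ h x := by rw [hh]; exact Real.sqrt_nonneg _
    have h5 := pow_le_pow_left₀ h0 h4 2
    rw [Real.sq_sqrt (StepMAux.ratio_nn hdt (hq x))] at h5
    have h6 : wedge (c x) (c x) ≠ 0 := fun e => by simpa [e] using hq x
    have h7 : wedge (t x) (t x) / μ x bv =
        wedge (t x) (t x) / wedge (c x) (c x) * (wedge (c x) (c x) / μ x bv) := by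
      rw [div_mul_div_cancel₀ h6]
    rw [← hh2, h7]
    exact mul_le_mul_of_nonneg_right h5 (hq x).le

variable (X) in
def S_stepU : Prop := ∀ (m : X → ℝ) (a b c : Form X), IsClosedForm (ofW a) →
  IsClosedForm (ofW b) → IsClosedForm (ofW c) → (∀ x, Def3 (m x) (a x) (b x) (c x)) →
  ∃ t : Form X, IsClosedForm (ofW t) ∧ (∀ x, wedge (t x) (b x) = 0 ∧ wedge (t x) (c x) = 0) ∧
    ∀ r ∈ Set.Icc (0 : ℝ) 1, ∀ x, Def3 (m x) (a x + r • (t x - a x)) (b x) (c x)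

omit [MeasurableSpace X] [BorelSpace X] in
theorem p_stepU [SecondCountableTopology X] (h_acs : S_acs X) (h_toW : S_toW X) (h_pd : S_pd) :
    S_stepU X := by
  intro m a b c ha hb hc hd
  obtain ⟨J, hJ, hJS⟩ := h_acs m a b c ha hb hc hd
  obtain ⟨s, hs⟩ := Mo.exists_setup hJ
  have w4 := h_toW.2.2.2 s J hs
  have hJs : ∀ x, JS (s.J x) (a x) (b x) (c x) := by
    intro x
    have : s.J x = J x := ContinuousLinearMap.ext (hs.J_eq x)
    rw [this]
    exact hJS x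
  obtain ⟨sa, ca⟩ := (w4 a).1 ha
  have hta : s.Tame a := ⟨sa, ca, fun x => (hJs x).2.2.2⟩
  obtain ⟨t, ht⟩ := main_setup s a hta
  refine ⟨t, (w4 t).2 ⟨ht.smooth, ht.closed⟩,
    fun x => (h_pd _ (s.J x) _ _ _ _ (hd x) (hJs x) (ht.pos x)).2 (ht.inv x), fun r hr x => ?_⟩
  refine (h_pd _ (s.J x) _ _ _ _ (hd x) (hJs x) fun v hv => ?_).1
  rw [ev_add, ev_smul, ev_sub]
  have h1 := hta.pos x v hv
  have h2 := ht.pos x v hv
  rcases hr.1.eq_or_lt with h3 | h3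
  · rw [← h3]; linarith
  · nlinarith [mul_pos h3 h2, mul_nonneg (sub_nonneg.2 hr.2) h1.le]

end Vale.Agent.P247
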