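import Vale.Agent.P247.Defs2
import Vale.Agent.P247.StepL
import Vale.Agent.P247.Final

open scoped ContDiff RealInnerProductSpace Topology Manifold
open MeasureTheory Metric

namespace Vale.Agent.P247

open Vale.Agent.P204 Vale.Agent.P204.Setup

universe u

namespace FinalLAux

theorem rot {m : ℝ} {a b c : W} (h : Def3 m a b c) : Def3 m b c a := by
  intro x y z hne
  have h1 : x • b + y • c + z • a = z • a + x • b + y • c := by abel
  rw [h1]
  exact h z x y (by tauto)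

variable {X : Type u} [TopologicalSpace X] [ChartedSpace E X]

theorem path3 (h_path : S_path X) (μ : TopField X) (w t : Fin 3 → Form X)
    (hw : ∀ i, IsClosedForm (ofW (w i))) (ht : ∀ i, IsClosedForm (ofW (t i)))
    (d0 : ∀ r ∈ Set.Icc (0 : ℝ) 1, ∀ x, Def3 (μ x bv) (w 0 x + r • (t 0 x - w 0 x)) (w 1 x) (w 2 x))
    (d1 : ∀ r ∈ Set.Icc (0 : ℝ) 1, ∀ x, Def3 (μ x bv) (w 1 x + r • (t 1 x - w 1 x)) (t 0 x) (w 2 x))
    (d2 : ∀ r ∈ Set.Icc (0 : ℝ) 1, ∀ x,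
      Def3 (μ x bv) (w 2 x + r • (t 2 x - w 2 x)) (t 0 x) (t 1 x)) :
    ∃ f : Fin 3 → ℝ → ℝ, (∀ i, f i 1 = 1) ∧ IsPath μ (fun i => ofW (w i))
      fun r i => ofW (w i + f i r • (t i - w i)) := by
  obtain ⟨q1, q2, q3⟩ := h_path
  obtain ⟨f, hf⟩ : ∃ f : Fin 3 → ℝ → ℝ,
      f = fun (i : Fin 3) r => Real.smoothTransition (3 * r - ((i : ℕ) : ℝ)) := ⟨_, rfl⟩
  have fs : ∀ i, ContDiff ℝ ∞ (f i) := fun i => by
    rw [hf]; exact Real.smoothTransition.contDiff.comp (by fun_prop)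
  have fI : ∀ i r, f i r ∈ Set.Icc (0 : ℝ) 1 := fun i r => by
    rw [hf]; exact ⟨Real.smoothTransition.nonneg _, Real.smoothTransition.le_one _⟩
  have f0 : ∀ (i : Fin 3) r, 3 * r ≤ ((i : ℕ) : ℝ) → f i r = 0 := fun i r h => by
    rw [hf]; exact Real.smoothTransition.zero_of_nonpos (by linarith)
  have f1 : ∀ (i : Fin 3) r, ((i : ℕ) : ℝ) + 1 ≤ 3 * r → f i r = 1 := fun i r h => by
    rw [hf]; exact Real.smoothTransition.one_of_one_le (by linarith)
  refine ⟨f, fun i => f1 i 1 (by fin_cases i <;> norm_num), fun i e he u v =>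
    q2 _ _ (f i) (hw i) (ht i) (fs i) e he u v, ?_, fun r _ => ⟨fun i => q1 _ _ _ (hw i) (ht i),
      fun x => (q3 μ (fun i => w i + f i r • (t i - w i)) x).2 ?_⟩⟩
  · funext i
    simp [f0 i 0 (by simp)]
  · rcases le_total r (1 / 3) with h | h
    · rw [f0 1 r (by norm_num; linarith), f0 2 r (by norm_num; linarith)]
      simpa using d0 _ (fI 0 r) x
    · rw [f1 0 r (by norm_num; linarith)]
      rcases le_total r (2 / 3) with h' | h'
      · rw [f0 2 r (by norm_num; linarith)]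
        simpa using FinalAux.swap (d1 _ (fI 1 r) x)
      · rw [f1 1 r (by norm_num; linarith)]
        simpa using rot (d2 _ (fI 2 r) x)

theorem orth (h_toW : S_toW X) (μ : TopField X) (t : Fin 3 → Form X)
    (h1 : ∀ x, wedge (t 1 x) (t 0 x) = 0) (h2 : ∀ x, wedge (t 2 x) (t 0 x) = 0)
    (h3 : ∀ x, wedge (t 2 x) (t 1 x) = 0) : IsOrthogonal μ fun i => ofW (t i) := by
  intro i j hij x
  have h4 := (wedge_comm _ _).trans (h1 x)
  have h5 := (wedge_comm _ _).trans (h2 x)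
  have h6 := (wedge_comm _ _).trans (h3 x)
  simp only [quo, h_toW.2.2.1]
  fin_cases i <;> fin_cases j <;> simp [h1 x, h2 x, h3 x, h4, h5, h6] at hij ⊢

end FinalLAux

variable {X : Type u} [TopologicalSpace X] [ChartedSpace E X]

theorem p_finalU (h_stepU : S_stepU X) (h_path : S_path X) (h_toW : S_toW X) (μ : TopField X)
    (om : Fin 3 → BilField E X) (hom : IsHypersymplectic μ om) :
    ∃ Om : ℝ → Fin 3 → BilField E X, IsPath μ om Om ∧ IsOrthogonal μ (Om 1) := by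
  obtain ⟨w, hw⟩ : ∃ w : Fin 3 → Form X, ∀ i, ofW (w i) = om i :=
    ⟨fun i => toW (om i), fun i => h_toW.1 _ (hom.form i)⟩
  obtain rfl : om = fun i => ofW (w i) := funext fun i => (hw i).symm
  have hc := hom.form
  have hd : ∀ x, Def3 (μ x bv) (w 0 x) (w 1 x) (w 2 x) :=
    fun x => (h_path.2.2 μ w x).1 (hom.pos x)
  obtain ⟨t0, a1, a3, a4⟩ := h_stepU (fun x => μ x bv) (w 0) (w 1) (w 2) (hc 0) (hc 1) (hc 2) hd
  have hd0 : ∀ x, Def3 (μ x bv) (w 1 x) (t0 x) (w 2 x) := fun x =>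
    FinalAux.swap (by simpa using a4 1 ⟨zero_le_one, le_rfl⟩ x)
  obtain ⟨t1, b1, b3, b4⟩ := h_stepU (fun x => μ x bv) (w 1) t0 (w 2) (hc 1) a1 (hc 2) hd0
  obtain ⟨f, f1, hf⟩ := FinalLAux.path3 h_path μ w ![t0, t1, w 2] hc
    (fun i => by fin_cases i; exacts [a1, b1, hc 2]) a4 b4 fun r _ x => by
      have := FinalLAux.rot (FinalLAux.rot (FinalAux.swap (b4 1 ⟨zero_le_one, le_rfl⟩ x)))
      simpa using this
  refine ⟨_, hf, ?_⟩
  simp only [f1, one_smul, add_sub_cancel]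
  exact FinalLAux.orth h_toW μ _ (fun x => (b3 x).1) (fun x => (wedge_comm _ _).trans (a3 x).2)
    fun x => (wedge_comm _ _).trans (b3 x).2

theorem p_finalL [MeasurableSpace X] (h_stepL : S_stepL X) (h_path : S_path X) (h_toW : S_toW X)
    (μ : TopField X) (ν : Measure X) (om : Fin 3 → BilField E X) (f : X → ℝ)
    (hμ : IsVolForm μ) (hν : IsVolMeasure μ ν) (hom : IsHypersymplectic μ om)
    (hn : ∀ i j, intg μ ν (om i) (om j) = if i = j then 1 else 0)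
    (hi : ∀ φ, IsClosedForm φ → (∀ i, intg μ ν φ (om i) = 0) → intg μ ν φ φ ≤ 0)
    (hf : Continuous f) (hf0 : ∀ x, 0 < f x) (hf1 : ∫ x, f x ∂ν < 1) :
    ∃ Om : ℝ → Fin 3 → BilField E X, IsDeformation μ ν om Om ∧ IsOrthogonal μ (Om 1) ∧
      ∀ i x, f x ≤ quo μ (Om 1 i) (Om 1 i) x := by
  obtain ⟨w, hw⟩ : ∃ w : Fin 3 → Form X, ∀ i, ofW (w i) = om i :=
    ⟨fun i => toW (om i), fun i => h_toW.1 _ (hom.form i)⟩
  obtain rfl : om = fun i => ofW (w i) := funext fun i => (hw i).symm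
  have hc := hom.form
  have hd : ∀ x, Def3 (μ x bv) (w 0 x) (w 1 x) (w 2 x) :=
    fun x => (h_path.2.2 μ w x).1 (hom.pos x)
  have n00 : intg μ ν (ofW (w 0)) (ofW (w 0)) = 1 := by simpa using hn 0 0
  have n11 : intg μ ν (ofW (w 1)) (ofW (w 1)) = 1 := by simpa using hn 1 1
  have n22 : intg μ ν (ofW (w 2)) (ofW (w 2)) = 1 := by simpa using hn 2 2
  have n01 : intg μ ν (ofW (w 0)) (ofW (w 1)) = 0 := by simpa using hn 0 1
  have n02 : intg μ ν (ofW (w 0)) (ofW (w 2)) = 0 := by simpa using hn 0 2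
  have n12 : intg μ ν (ofW (w 1)) (ofW (w 2)) = 0 := by simpa using hn 1 2
  have cm := FinalAux.intg_comm μ ν
  obtain ⟨t0, a1, a2, a3, a4, a5⟩ := h_stepL μ ν (w 0) (w 1) (w 2) f hμ hν (hc 0) (hc 1) (hc 2) hd
    n01 n02 n12 n00 n11 n22
    (fun φ h h0 h1 h2 => hi φ h fun i => by fin_cases i <;> assumption) hf hf0 hf1
  have c0 : Cohomologous μ ν (ofW t0) (ofW (w 0)) := by simpa using a2 1
  have hd0 : ∀ x, Def3 (μ x bv) (w 1 x) (t0 x) (w 2 x) := fun x =>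
    FinalAux.swap (by simpa using a4 1 ⟨zero_le_one, le_rfl⟩ x)
  have m00 : intg μ ν (ofW t0) (ofW t0) = 1 := by rw [c0 _ a1, cm, c0 _ (hc 0), n00]
  obtain ⟨t1, b1, b2, b3, b4, b5⟩ := h_stepL μ ν (w 1) t0 (w 2) f hμ hν (hc 1) a1 (hc 2) hd0
    (by rw [cm, c0 _ (hc 1), n01]) n12 (by rw [c0 _ (hc 2), n02]) n11 m00 n22
    (fun φ h h1 h0 h2 => hi φ h fun i => by
      rw [cm, c0 _ h, cm] at h0
      fin_cases i <;> assumption) hf hf0 hf1
  have c1 : Cohomologous μ ν (ofW t1) (ofW (w 1)) := by simpa using b2 1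
  have hd1 : ∀ x, Def3 (μ x bv) (w 2 x) (t0 x) (t1 x) := fun x => by
    have := FinalLAux.rot (FinalLAux.rot (FinalAux.swap (b4 1 ⟨zero_le_one, le_rfl⟩ x)))
    simpa using this
  obtain ⟨t2, e1, e2, e3, e4, e5⟩ := h_stepL μ ν (w 2) t0 t1 f hμ hν (hc 2) a1 b1 hd1
    (by rw [cm, c0 _ (hc 2), n02]) (by rw [cm, c1 _ (hc 2), n12])
    (by rw [c0 _ b1, cm, c1 _ (hc 0), cm, n01]) n22 m00
    (by rw [c1 _ b1, cm, c1 _ (hc 1), n11])
    (fun φ h h2 h0 h1 => hi φ h fun i => by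
      rw [cm, c0 _ h, cm] at h0
      rw [cm, c1 _ h, cm] at h1
      fin_cases i <;> assumption) hf hf0 hf1
  obtain ⟨g, g1, hg⟩ := FinalLAux.path3 h_path μ w ![t0, t1, t2] hc
    (fun i => by fin_cases i; exacts [a1, b1, e1]) a4 b4 e4
  refine ⟨_, ⟨hg.smooth, hg.start, hg.hyp, fun r _ i => ?_⟩, ?_, fun i x => ?_⟩
  · fin_cases i
    exacts [a2 _, b2 _, e2 _]
  · simp only [g1, one_smul, add_sub_cancel]
    exact FinalLAux.orth h_toW μ _ (fun x => (b3 x).1) (fun x => (e3 x).1) fun x => (e3 x).2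
  · simp only [g1, one_smul, add_sub_cancel, quo, h_toW.2.2.1]
    fin_cases i
    exacts [a5 x, b5 x, e5 x]

end Vale.Agent.P247
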