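import Vale.Agent.P247.Stm

open scoped ContDiff RealInnerProductSpace Topology Manifold
open MeasureTheory Metric

namespace Vale.Agent.P247

open Vale.Agent.P204 Vale.Agent.P204.Setup

universe u

namespace GamAAux

theorem comb {h f₁ f₂ f₃ : E → ℝ} (hc : Continuous h) (c₁ : Continuous f₁) (c₂ : Continuous f₂)
    (c₃ : Continuous f₃) (h0 : ∀ y, 1 < ‖y‖ → h y = 0) {a b c d₁ d₂ d₃ : ℝ} (ha : 0 ≤ a)
    (hb : 0 ≤ b) (hc' : 0 ≤ c) (hle : ∀ y, h y ≤ a * f₁ y + b * f₂ y + c * f₃ y)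
    (h₁ : ∫ y in closedBall (0 : E) 1, f₁ y ≤ d₁) (h₂ : ∫ y in closedBall (0 : E) 1, f₂ y ≤ d₂)
    (h₃ : ∫ y in closedBall (0 : E) 1, f₃ y ≤ d₃) : ∫ y, h y ≤ a * d₁ + b * d₂ + c * d₃ := by
  have I : ∀ {f : E → ℝ}, Continuous f → IntegrableOn f (closedBall (0 : E) 1) := fun hf =>
    hf.continuousOn.integrableOn_compact (isCompact_closedBall _ _)
  have i₁ : IntegrableOn (fun y => a * f₁ y) (closedBall (0 : E) 1) := (I c₁).const_mul a
  have i₂ : IntegrableOn (fun y => b * f₂ y) (closedBall (0 : E) 1) := (I c₂).const_mul b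
  have i₃ : IntegrableOn (fun y => c * f₃ y) (closedBall (0 : E) 1) := (I c₃).const_mul c
  have i₄ : IntegrableOn (fun y => a * f₁ y + b * f₂ y) (closedBall (0 : E) 1) := i₁.add i₂
  rw [← setIntegral_eq_integral_of_forall_compl_eq_zero (s := closedBall (0 : E) 1) fun y hy =>
    h0 y (not_le.1 (mt mem_closedBall_zero_iff.2 hy))]
  refine (integral_mono (I hc) (i₄.add i₃) hle).trans ?_
  rw [integral_add' i₄ i₃, integral_add i₁ i₂, integral_const_mul, integral_const_mul,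
    integral_const_mul]
  exact add_le_add (add_le_add (mul_le_mul_of_nonneg_left h₁ ha)
    (mul_le_mul_of_nonneg_left h₂ hb)) (mul_le_mul_of_nonneg_left h₃ hc')

theorem alg {N M e x s : ℝ} (hN : 0 ≤ N) (hM : 0 ≤ M) (e0 : 0 < e) (e1 : e ≤ 1) (hx : 0 ≤ x)
    (hs : 0 < s) (h : N ≤ M * (1 - e) ^ 2 + 12 * M * (e * (1 - e) * x)) :
    N ≤ M * (1 - e) ^ 2 + 6 * M * s * (e * x ^ 2) + 6 * M / s * (e * (1 - e) ^ 2) ∧
      N ^ 2 ≤ 2 * M ^ 2 * (1 - e) ^ 2 + 288 * M ^ 2 * (e * x ^ 2) := by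
  have e2 : 0 ≤ 1 - e := sub_nonneg.2 e1
  constructor
  · have h1 : 0 ≤ 6 * M / s * e * (s * x - (1 - e)) ^ 2 := by positivity
    have h2 : 6 * M / s * e * (s * x - (1 - e)) ^ 2 = 6 * M * s * (e * x ^ 2) +
        6 * M / s * (e * (1 - e) ^ 2) - 12 * M * (e * (1 - e) * x) := by
      field_simp
      ring
    linarith
  · have h1 := pow_le_pow_left₀ hN h 2
    have h2 : (1 - e) ^ 2 ≤ 1 := pow_le_one₀ e2 (by linarith)
    have h3 : ((1 - e) ^ 2) ^ 2 ≤ (1 - e) ^ 2 := by nlinarith [sq_nonneg (1 - e)]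
    have h4 : e * (1 - e) ^ 2 ≤ 1 := mul_le_one₀ e1 (sq_nonneg _) h2
    have h5 : (e * (1 - e) * x) ^ 2 ≤ e * x ^ 2 := by
      have := mul_le_mul_of_nonneg_right h4 (show 0 ≤ e * x ^ 2 by positivity)
      nlinarith
    have h6 := mul_le_mul_of_nonneg_left h3 (sq_nonneg M)
    have h7 := mul_le_mul_of_nonneg_left h5 (sq_nonneg M)
    nlinarith [sq_nonneg (M * (1 - e) ^ 2 - 12 * M * (e * (1 - e) * x))]

theorem gam_eq (t : ℝ) : gam t = 2 * Real.exp t - Real.exp t ^ 2 := by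
  rw [gam, two_mul t, Real.exp_add, sq]

theorem gam_abs (t : ℝ) : |gam t - 1| = (1 - Real.exp t) ^ 2 := by
  rw [gam_eq, abs_sub_comm, ← abs_of_nonneg (sq_nonneg (1 - Real.exp t))]
  exact congrArg _ (by ring)

theorem gam_smooth {u : E → ℝ} (hu : ContDiff ℝ ∞ u) (k : ℝ) :
    ContDiff ℝ ∞ fun y => gam (u y / k) := by
  simp only [gam_eq]
  fun_prop

theorem pt {p : E → E →L[ℝ] ℝ} (hp : ContDiff ℝ ∞ p) {M : ℝ} (h1 : ∀ y, ‖p y‖ ≤ M)
    (h2 : ∀ y, ‖d1 p y‖ ≤ M) {u : E → ℝ} (hu : ContDiff ℝ ∞ u) {k : ℝ} (hk : 0 < k) (y : E)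
    (he : Real.exp (u y / k) ≤ 1) :
    ‖d1 p y - d1 (fun y => gam (u y / k) • p y) y‖ ≤ M * (1 - Real.exp (u y / k)) ^ 2 +
      12 * M * (Real.exp (u y / k) * (1 - Real.exp (u y / k)) * (k⁻¹ * ‖fderiv ℝ u y‖)) := by
  have d2 := ((ElMirEAux.exp_fd hu k y).const_mul 2).sub ((ElMirEAux.exp_fd hu k y).pow 2)
  have d3 : fderiv ℝ (fun y => gam (u y / k)) y =
      (2 * (Real.exp (u y / k) * (1 - Real.exp (u y / k)) * k⁻¹)) • fderiv ℝ u y := by
    simp only [gam_eq]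
    refine Eq.trans d2.fderiv ?_
    ext v
    simp only [ContinuousLinearMap.sub_apply, ContinuousLinearMap.smul_apply, smul_eq_mul,
      nsmul_eq_mul, Nat.cast_ofNat, Nat.add_one_sub_one, pow_one]
    ring
  have e2 : 0 ≤ 1 - Real.exp (u y / k) := sub_nonneg.2 he
  rw [d1_fun_smul ((gam_smooth hu k).differentiable (by simp) y) (hp.differentiable (by simp) y),
    d3]
  have e3 : ∀ (a w : W) (g : ℝ), a - (w + g • a) = -((g - 1) • a) - w := fun a w g => by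
    module
  rw [e3]
  refine (norm_sub_le _ _).trans (add_le_add ?_ ((norm_w11_le _ _).trans ?_))
  · rw [norm_neg, norm_smul, Real.norm_eq_abs, gam_abs, mul_comm]
    exact mul_le_mul_of_nonneg_right (h2 y) (sq_nonneg _)
  · rw [norm_smul, Real.norm_of_nonneg (by positivity)]
    refine (mul_le_mul_of_nonneg_left (h1 y) (by positivity)).trans_eq (by ring)

end GamAAux

open GamAAux in
theorem p_gamA (h_weak : S_weak) :
    S_gamA := by
  intro L A hL p hp C₂ η hη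
  obtain ⟨M₁, M1, hM1⟩ := hp.ctest.bounded
  obtain ⟨M₂, M2, hM2⟩ := hp.d1.ctest.bounded
  obtain ⟨M, M0, b1, b2⟩ : ∃ M : ℝ, 0 ≤ M ∧ (∀ y, ‖p y‖ ≤ M) ∧ ∀ y, ‖d1 p y‖ ≤ M :=
    ⟨M₁ + M₂, by positivity, fun y => (hM1 y).trans (by linarith),
      fun y => (hM2 y).trans (by linarith)⟩
  obtain ⟨K, K0, hK⟩ : ∃ K : ℝ, 0 < K ∧ 2 * M ^ 2 + 288 * M ^ 2 * |C₂| ≤ K ^ 2 :=
    ⟨2 * M ^ 2 + 288 * M ^ 2 * |C₂| + 1, by positivity, by
      nlinarith [show 0 ≤ 2 * M ^ 2 + 288 * M ^ 2 * |C₂| by positivity]⟩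
  obtain ⟨C, C0, hC⟩ := h_weak L A hL (η / 2 / K) (by positivity)
  obtain ⟨s, s0, s1, hs⟩ : ∃ s : ℝ, 0 < s ∧ s ≤ 1 ∧ C * (M * (7 + 6 * |C₂|)) * s ≤ η / 2 := by
    have q0 : 0 ≤ C * (M * (7 + 6 * |C₂|)) := by positivity
    refine ⟨min 1 (η / 2 / (C * (M * (7 + 6 * |C₂|)) + 1)), by positivity, min_le_left _ _,
      (mul_le_mul_of_nonneg_left (min_le_right _ _) q0).trans ?_⟩
    rw [← mul_div_assoc, div_le_iff₀ (by positivity)]
    nlinarith
  refine ⟨s ^ 2, by positivity, fun u hu u0 k hk i₂ i₁ i₃ => ?_⟩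
  have k0 : 0 < k := by linarith
  have tθ : Test 1 (d1 p - d1 fun y => gam (u y / k) • p y) :=
    hp.d1.sub (hp.fun_smul (gam_smooth hu k)).d1
  have ce : Continuous fun y => Real.exp (u y / k) := by
    have := hu.continuous
    fun_prop
  have cdu : Continuous (fderiv ℝ u) := hu.continuous_fderiv (by simp)
  have c₁ : Continuous fun y => |gam (u y / k) - 1| :=
    ((gam_smooth hu k).continuous.sub continuous_const).abs
  have c₂ : Continuous fun y => Real.exp (u y / k) * ‖fderiv ℝ u y‖ ^ 2 := by fun_prop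
  have c₃ : Continuous fun y => Real.exp (u y / k) * (1 - Real.exp (u y / k)) ^ 2 := by fun_prop
  have he : ∀ y, Real.exp (u y / k) ≤ 1 := fun y =>
    Real.exp_le_one_iff.2 (div_nonpos_of_nonpos_of_nonneg (u0 y) k0.le)
  have P := fun y => alg (norm_nonneg _) M0 (Real.exp_pos _) (he y) (by positivity) s0
    (pt hp.1 b1 b2 hu k0 y (he y))
  have j₂ := i₂.trans (mul_le_mul_of_nonneg_right (le_abs_self C₂) (sq_nonneg k))
  have q1 := comb (h := fun y => ‖(d1 p - d1 fun y => gam (u y / k) • p y) y‖)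
    tθ.1.continuous.norm c₁ c₂ c₃ (fun y hy => by rw [tθ.2 y hy, norm_zero]) (a := M)
    (b := 6 * M * s * k⁻¹ ^ 2) (c := 6 * M / s) M0 (by positivity) (by positivity)
    (fun y => (P y).1.trans_eq (by rw [gam_abs]; ring)) i₁ j₂ i₃
  have q2 := comb (h := fun y => ‖(d1 p - d1 fun y => gam (u y / k) • p y) y‖ ^ 2)
    (tθ.1.continuous.norm.pow 2) c₁ c₂ c₃ (fun y hy => by rw [tθ.2 y hy]; simp) (a := 2 * M ^ 2)
    (b := 288 * M ^ 2 * k⁻¹ ^ 2) (c := 0) (by positivity) (by positivity) le_rfl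
    (fun y => (P y).2.trans_eq (by rw [gam_abs]; ring)) i₁ j₂ i₃
  have r1 : 6 * M * s * k⁻¹ ^ 2 * (|C₂| * k ^ 2) = 6 * M * s * |C₂| := by field_simp
  have r2 : 288 * M ^ 2 * k⁻¹ ^ 2 * (|C₂| * k ^ 2) = 288 * M ^ 2 * |C₂| := by field_simp
  have r3 : 6 * M / s * s ^ 2 = 6 * M * s := by field_simp
  have s2 : s ^ 2 ≤ s := by nlinarith
  rw [r1, r3] at q1
  rw [r2, ← nL2_sq] at q2
  have q3 : nL2 (d1 p - d1 fun y => gam (u y / k) • p y) ≤ K :=
    abs_le_of_sq_le_sq' (by nlinarith [mul_le_mul_of_nonneg_left (s2.trans s1) (sq_nonneg M)])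
      K0.le |>.2
  have q4 : ∫ y, ‖(d1 p - d1 fun y => gam (u y / k) • p y) y‖ ≤ M * (7 + 6 * |C₂|) * s :=
    q1.trans (by nlinarith [mul_le_mul_of_nonneg_left s2 M0])
  rw [← map_sub]
  refine (hC _ (tθ.mono one_le_two)).trans ?_
  have q5 := mul_le_mul_of_nonneg_left q3 (show 0 ≤ η / 2 / K by positivity)
  have q6 := mul_le_mul_of_nonneg_left q4 C0
  rw [div_mul_cancel₀ _ K0.ne'] at q5
  rw [← mul_assoc] at q6
  linarith

end Vale.Agent.P247
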