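import Vale.Agent.P247.Stm

open scoped ContDiff RealInnerProductSpace Topology Manifold
open MeasureTheory Metric

namespace Vale.Agent.P247

open Vale.Agent.P204 Vale.Agent.P204.Setup

universe u

open ElMirEAux in
theorem p_gamT :
    S_gamT := by
  intro J S μ c C h hJ p hp C₂
  have := h.fin
  have hC := h.Cpos
  obtain ⟨M, M0, hM⟩ := hp.ctest.bounded
  refine ⟨|C₂| * (3 * C * (8 * M ^ 2)), by positivity, fun u hu k hk hQ => ?_⟩
  have hk0 : 0 < k := by linarith
  have tg := ((ctest_g hu k).mono (show (2 : ℝ) ≤ 9 by norm_num)).ctest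
  have g0 : ∀ y, 0 ≤ bp 1 2 y ^ 2 * Real.exp (u y / k) := fun y => by positivity
  have cdu : Continuous (fderiv ℝ u) := hu.continuous_fderiv (by simp)
  have ce : Continuous fun y => Real.exp (u y / k) := by
    have := hu.continuous
    fun_prop
  have cq : Continuous fun y => ((2 * (1 - Real.exp (u y / k))) • p y) ∘L J y :=
    ((continuous_const.mul (continuous_const.sub ce)).smul hp.1.continuous).clm_comp
      hJ.smooth.continuous
  have eg : (fun y => gam (u y / k)) = fun y =>
      2 * Real.exp (u y / k) - Real.exp (u y / k) ^ 2 := funext fun y => by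
    rw [gam, two_mul (u y / k), Real.exp_add, sq]
  have sg : ContDiff ℝ ∞ fun y => gam (u y / k) := by
    rw [eg]
    fun_prop
  have e1 : S (fun y => gam (u y / k) • d1 p y) + k⁻¹ * S (fun y =>
      (bp 1 2 y ^ 2 * Real.exp (u y / k)) •
        w11 (fderiv ℝ u y) ((2 * (1 - Real.exp (u y / k))) • p y)) =
      S (d1 fun y => gam (u y / k) • p y) := by
    rw [← smul_eq_mul (a := k⁻¹), ← map_smul, ← map_add]
    congr 1
    funext y
    have d2 := ((exp_fd hu k y).const_mul 2).sub ((exp_fd hu k y).pow 2)
    rw [d1_fun_smul (sg.differentiable (by simp) y) (hp.1.differentiable (by simp) y), eg,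
      show fderiv ℝ (fun y => 2 * Real.exp (u y / k) - Real.exp (u y / k) ^ 2) y = _ from d2.fderiv]
    refine ext_ev fun v w => ?_
    simp only [Pi.add_apply, Pi.smul_apply, ev_add, ev_smul, ev_w11, sub_apply, smul_apply,
      smul_eq_mul, nsmul_eq_mul, Nat.cast_ofNat, Nat.add_one_sub_one, pow_one]
    rcases le_or_gt ‖y‖ 1 with hy | hy
    · rw [bp_eq_one zero_le_one one_lt_two hy]
      ring
    · rw [hp.2 y hy]
      simp
  rw [LocPos.w11_eq_Bq hJ] at e1
  have b1 := h.Bq_sq_le hJ tg g0 cdu cq
  have b2 := h.Bq_nonneg hJ tg g0 cq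
  have b3 := h.Bq_le hJ tg g0 cq
  have i1 : Integrable ((closedBall (0 : E) 1).indicator fun y =>
      8 * M ^ 2 * (Real.exp (u y / k) * (1 - Real.exp (u y / k)) ^ 2)) μ :=
    (ContinuousOn.integrableOn_compact (isCompact_closedBall _ _)
      (by fun_prop)).integrable_indicator measurableSet_closedBall
  have b4 := integral_mono_of_nonneg (f := fun y => bp 1 2 y ^ 2 * Real.exp (u y / k) *
    ‖((2 * (1 - Real.exp (u y / k))) • p y) ∘L J y‖ ^ 2) (ae_of_all _ fun y => by positivity) i1
    (ae_of_all _ fun y => by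
      dsimp only
      by_cases hy : y ∈ closedBall (0 : E) 1
      · rw [Set.indicator_of_mem hy, bp_eq_one zero_le_one one_lt_two
          (mem_closedBall_zero_iff.1 hy), one_pow, one_mul]
        have a1 := norm_J hJ ((2 * (1 - Real.exp (u y / k))) • p y) y
        rw [norm_smul, mul_pow, Real.norm_eq_abs, sq_abs] at a1
        have a2 := mul_le_mul_of_nonneg_left (pow_le_pow_left₀ (norm_nonneg _) (hM y) 2)
          (sq_nonneg (2 * (1 - Real.exp (u y / k))))
        have a3 := mul_le_mul_of_nonneg_left (a1.trans (mul_le_mul_of_nonneg_left a2 zero_le_two))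
          (Real.exp_pos (u y / k)).le
        linarith
      · rw [Set.indicator_of_notMem hy, hp.2 y (not_le.1 (mt mem_closedBall_zero_iff.2 hy))]
        simp)
  rw [integral_indicator measurableSet_closedBall, integral_const_mul] at b4
  have b5 := b3.trans (mul_le_mul_of_nonneg_left b4 (by positivity))
  have b6 := b1.trans (mul_le_mul (hQ.trans (mul_le_mul_of_nonneg_right (le_abs_self C₂)
    (sq_nonneg k))) b5 b2 (by positivity))
  rw [← e1, sub_add_cancel_left, neg_sq, mul_pow, inv_pow, inv_mul_le_iff₀ (by positivity)]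
  exact b6.trans_eq (by ring)

end Vale.Agent.P247
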