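import Vale.Agent.P247.Stm

open scoped ContDiff RealInnerProductSpace Topology Manifold
open MeasureTheory Metric

namespace Vale.Agent.P247

open Vale.Agent.P204 Vale.Agent.P204.Setup

universe u

variable {X : Type u} [TopologicalSpace X] [T2Space X] [CompactSpace X]
  [SecondCountableTopology X] [MeasurableSpace X] [BorelSpace X]

namespace HiAux

omit [CompactSpace X] [SecondCountableTopology X] [MeasurableSpace X] [BorelSpace X]

theorem l1 {s : Setup X} {φ a d : Form X} (h : s.Smooth φ) (ha : s.Smooth a) (hd : s.Smooth d)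
    (x : ℝ) : s.Int (φ + x • a) d = s.Int φ d + x * s.Int a d := by
  rw [s.Int_add_left h.cont (ha.cont.smul x) hd.cont, Int_smul_left]

theorem orth {s : Setup X} {σ b : Form X} (h : s.Compat σ) (hb : Anti s b) : s.Int σ b = 0 := by
  have e1 : s.pmF σ = 0 := funext fun x => pm_of_inv (h.inv x)
  have e2 : s.ppF b = 0 := funext fun x => by
    have k := pp_add_pm (s.J x) (b x)
    rw [show pm (s.J x) (b x) = b x from congrFun hb.anti x] at k
    exact add_eq_right.1 k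
  rw [s.Int_split h.smooth.cont hb.smooth.cont, e1, e2, Int_zero_left, Int_comm, Int_zero_left,
    add_zero]

theorem lim {L R p q r t x : ℝ} (h : ∀ δ : ℝ, 0 < δ → L - (δ + 2 * |t| * δ) ≤
    R + (2 * |x| * δ + δ ^ 2) / p + δ ^ 2 / q + δ ^ 2 / r) : L ≤ R := by
  have c1 : Continuous fun δ : ℝ => L - (δ + 2 * |t| * δ) := by fun_prop
  have c2 : Continuous fun δ : ℝ => R + (2 * |x| * δ + δ ^ 2) / p + δ ^ 2 / q + δ ^ 2 / r := by
    fun_prop
  have k := le_of_tendsto_of_tendsto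
    ((c1.tendsto 0).mono_left (nhdsWithin_le_nhds (s := Set.Ioi 0)))
    ((c2.tendsto 0).mono_left nhdsWithin_le_nhds) (eventually_mem_nhdsWithin.mono h)
  simpa using k

end HiAux

theorem p_hi0 :
    S_hi0 X := by
  intro s a b c sa ca hb hc ab ac bc va vb vc h
  refine ⟨sa, ca, hb, hc, ab, ac, bc, va, vb, vc, fun φ h1 h2 => ?_⟩
  have sb := hb.smooth
  have sc := hc.smooth
  obtain ⟨x, hx⟩ : ∃ x, x = -(s.Int φ a / s.Int a a) := ⟨_, rfl⟩
  obtain ⟨y, hy⟩ : ∃ y, y = -(s.Int φ b / s.Int b b) := ⟨_, rfl⟩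
  obtain ⟨z, hz⟩ : ∃ z, z = -(s.Int φ c / s.Int c c) := ⟨_, rfl⟩
  have s1 := h1.add (sa.smul x)
  have s2 := s1.add (sb.smul y)
  have s3 := s2.add (sc.smul z)
  have c3 := (((h2.add (ca.smul x) h1 (sa.smul x)).add (hb.closed.smul y) s1 (sb.smul y)).add
    (hc.closed.smul z) s2 (sc.smul z))
  have l : ∀ d, s.Smooth d → s.Int (φ + x • a + y • b + z • c) d =
      s.Int φ d + x * s.Int a d + y * s.Int b d + z * s.Int c d := fun d hd => by
    rw [HiAux.l1 s2 sc hd, HiAux.l1 s1 sb hd, HiAux.l1 h1 sa hd]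
  have e1 : s.Int (φ + x • a + y • b + z • c) a = 0 := by
    rw [l a sa, s.Int_comm b a, s.Int_comm c a, ab, ac, hx]; field_simp; ring
  have e2 : s.Int (φ + x • a + y • b + z • c) b = 0 := by
    rw [l b sb, s.Int_comm c b, ab, bc, hy]; field_simp; ring
  have e3 : s.Int (φ + x • a + y • b + z • c) c = 0 := by
    rw [l c sc, ac, bc, hz]; field_simp; ring
  have k := h _ s3 c3 e1 e2 e3
  rw [l _ s3, s.Int_comm a, s.Int_comm b, s.Int_comm c, e1, e2, e3, s.Int_comm φ, l φ h1,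
    s.Int_comm a, s.Int_comm b, s.Int_comm c, hx, hy, hz] at k
  simp only [sq, mul_div_right_comm]
  linarith

theorem p_hi1 (h_hi0 : S_hi0 X) :
    S_hi1 X := by
  intro s a b c σ ne T h
  have e1 := HiAux.orth h T.hb
  have e2 := HiAux.orth h T.hc
  have e3 : 0 < s.Int σ σ := by
    have k := h.toTame.Int_F_pos
    rwa [show s.ppF σ = σ from funext fun x => pp_of_inv (h.inv x)] at k
  refine h_hi0 s σ b c h.smooth h.closed T.hb T.hc e1 e2 T.bc e3 T.vb T.vc fun φ h1 h2 a1 a2 a3 => ?_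
  have p0 : s.Int σ a ≠ 0 := fun p => by
    have k := T.hi σ h.smooth h.closed
    rw [p, e1, e2] at k
    simp only [ne_eq, OfNat.ofNat_ne_zero, not_false_eq_true, zero_pow, zero_div, add_zero] at k
    linarith
  obtain ⟨t, ht⟩ : ∃ t, t = -(s.Int φ a / s.Int σ a) := ⟨_, rfl⟩
  have k := T.hi _ (h1.add (h.smooth.smul t)) (h2.add (h.closed.smul t) h1 (h.smooth.smul t))
  have z : s.Int φ a + t * s.Int σ a = 0 := by rw [ht]; field_simp; ring
  rw [ExSAux.expand h1.cont h.smooth.cont, HiAux.l1 h1 h.smooth T.sa,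
    HiAux.l1 h1 h.smooth T.hb.smooth, HiAux.l1 h1 h.smooth T.hc.smooth, z, a1, a2, a3, e1, e2] at k
  simp only [mul_zero, add_zero, ne_eq, OfNat.ofNat_ne_zero, not_false_eq_true, zero_pow,
    zero_div] at k
  nlinarith [mul_nonneg (sq_nonneg t) e3.le]

theorem p_quad :
    S_quad X := by
  intro s a b c σ Λ x y T S h t
  refine HiAux.lim (p := s.Int a a) (q := s.Int b b) (r := s.Int c c) (t := t)
    (x := x + t * s.Int σ a) fun δ hδ => ?_
  obtain ⟨H, h1, h2, h3, h4, h5, h6, h7⟩ := h δ hδ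
  have k := T.hi _ (h1.add (S.sa.smul t)) (h2.add (S.ca.smul t) h1 (S.sa.smul t))
  rw [ExSAux.expand h1.cont S.sa.cont, HiAux.l1 h1 S.sa T.sa, HiAux.l1 h1 S.sa T.hb.smooth,
    HiAux.l1 h1 S.sa T.hc.smooth, S.ab, S.ac, mul_zero, add_zero, add_zero] at k
  have b1 : s.Int H b ^ 2 / s.Int b b ≤ δ ^ 2 / s.Int b b :=
    div_le_div_of_nonneg_right (sq_le_sq' (abs_le.1 h5).1 (abs_le.1 h5).2) T.vb.le
  have b2 : s.Int H c ^ 2 / s.Int c c ≤ δ ^ 2 / s.Int c c :=
    div_le_div_of_nonneg_right (sq_le_sq' (abs_le.1 h6).1 (abs_le.1 h6).2) T.vc.le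
  have m : ∀ u e : ℝ, |e| ≤ δ → |u * e| ≤ |u| * δ := fun u e he =>
    (abs_mul u e).trans_le (mul_le_mul_of_nonneg_left he (abs_nonneg u))
  have b3 : (s.Int H a + t * s.Int σ a) ^ 2 / s.Int a a ≤ (x + t * s.Int σ a) ^ 2 / s.Int a a +
      (2 * |x + t * s.Int σ a| * δ + δ ^ 2) / s.Int a a := by
    rw [← add_div]
    refine div_le_div_of_nonneg_right ?_ T.va.le
    have := (abs_le.1 (m (x + t * s.Int σ a) _ h4)).2
    have := sq_le_sq' (abs_le.1 h4).1 (abs_le.1 h4).2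
    nlinarith
  have := (abs_le.1 (m t _ h7)).1
  nlinarith

end Vale.Agent.P247
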