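import Vale.Agent.P247.Stm

open scoped ContDiff RealInnerProductSpace Topology Manifold
open MeasureTheory Metric

namespace Vale.Agent.P247

open Vale.Agent.P204 Vale.Agent.P204.Setup

universe u

namespace JtAux

variable {Y : Type} [NormedAddCommGroup Y] [NormedSpace ℝ Y] {f g : Y → W} {y : Y}

theorem cw (hf : ContDiffAt ℝ ∞ f y) (hg : ContDiffAt ℝ ∞ g y) :
    ContDiffAt ℝ ∞ (fun x => wedge (f x) (g x)) y :=
  contDiff_wedge2.contDiffAt.comp y (hf.prodMk hg)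

theorem ce {p q : Y → E} (hf : ContDiffAt ℝ ∞ f y) (hp : ContDiffAt ℝ ∞ p y)
    (hq : ContDiffAt ℝ ∞ q y) : ContDiffAt ℝ ∞ (fun x => ev (f x) (p x) (q x)) y :=
  contDiff_ev3.contDiffAt.comp y (hf.prodMk (hp.prodMk hq))

theorem cA (hf : ContDiffAt ℝ ∞ f y) (hg : ContDiffAt ℝ ∞ g y) (h : wedge (f y) (f y) ≠ 0) :
    ContDiffAt ℝ ∞ (fun x => Ab (f x) (g x)) y :=
  ContDiffAt.sum fun _ _ => ContDiffAt.sum fun _ _ => ContDiffAt.sum fun _ _ =>
    (((contDiffAt_const.div (cw hf hf) h).mul (ce (hstar.contDiff.contDiffAt.comp y hf)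
      contDiffAt_const contDiffAt_const)).mul (ce hg contDiffAt_const contDiffAt_const)).smul
      contDiffAt_const

theorem cJ (hf : ContDiffAt ℝ ∞ f y) (hg : ContDiffAt ℝ ∞ g y) (h : wedge (f y) (f y) ≠ 0)
    (h' : 0 < wedge (g y) (g y) / wedge (f y) (f y) -
      (wedge (f y) (g y) / wedge (f y) (f y)) ^ 2) :
    ContDiffAt ℝ ∞ (fun x => Jb (f x) (g x)) y :=
  ((((((cw hg hg).div (cw hf hf) h).sub (((cw hf hg).div (cw hf hf) h).pow 2)).sqrt h'.ne')).inv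
    (Real.sqrt_pos.2 h').ne').smul
    ((cA hf hg h).sub (((cw hf hg).div (cw hf hf) h).smul contDiffAt_const))

theorem pull_sg {t : ℝ} (h : t * t = 1) (J : E →L[ℝ] E) (a : W) : pull (t • J) a = pull J a :=
  ext_ev fun u v => by
    rw [ev_pull, ev_pull, smul_apply, smul_apply,
      ev_smul_left, ev_smul_right, ← mul_assoc, h, one_mul]

end JtAux

open JtAux in
theorem p_jt (h_jb : S_jb) (h_sign : S_sign) :
    S_jt := by
  intro m a b c h
  obtain ⟨h1, h2, h3, h4, h5⟩ := h_jb m a b c h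
  have e0 : eb 0 ≠ 0 := norm_ne_zero_iff.1 (by rw [norm_eb]; exact one_ne_zero)
  have hs := h_sign m _ a b c h h3 h4 h5
  have h6 : 0 < ev a (eb 0) (Jb b c (eb 0)) ^ 2 := by
    rw [sq]; exact hs _ _ e0 e0
  have h7 := Real.sqrt_pos.2 h6
  have h8 : ev a (eb 0) (Jb b c (eb 0)) / Real.sqrt (ev a (eb 0) (Jb b c (eb 0)) ^ 2) *
      (ev a (eb 0) (Jb b c (eb 0)) / Real.sqrt (ev a (eb 0) (Jb b c (eb 0)) ^ 2)) = 1 := by
    rw [div_mul_div_comm, Real.mul_self_sqrt h6.le, ← sq, div_self h6.ne']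
  refine ⟨⟨fun v => ?_, (pull_sg h8 _ _).trans h4, (pull_sg h8 _ _).trans h5, fun v hv => ?_⟩, ?_⟩
  · rw [Jt, smul_apply, smul_apply, map_smul, smul_smul,
      h8, one_smul, h3]
  · rw [Jt, smul_apply, ev_smul_right, div_mul_eq_mul_div]
    exact div_pos (hs _ _ e0 hv) h7
  · have j : ContDiffAt ℝ ∞ (fun p : W × W × W => Jb p.2.1 p.2.2) (a, b, c) :=
      cJ contDiffAt_snd.fst contDiffAt_snd.snd h1 h2
    have t : ContDiffAt ℝ ∞ (fun p : W × W × W => ev p.1 (eb 0) (Jb p.2.1 p.2.2 (eb 0)))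
        (a, b, c) := ce contDiffAt_fst contDiffAt_const (j.clm_apply contDiffAt_const)
    exact (t.div ((t.pow 2).sqrt h6.ne') h7.ne').smul j

end Vale.Agent.P247
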