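import Vale.Agent.P247.Stm

open scoped ContDiff RealInnerProductSpace Topology Manifold
open MeasureTheory Metric

namespace Vale.Agent.P247

open Vale.Agent.P204 Vale.Agent.P204.Setup

universe u

namespace KCurAux

variable {X : Type u} [TopologicalSpace X] [T2Space X] {s : Setup X}

theorem nl2 {f : Form X} (hf : s.Smooth f) (j : Fin s.m) :
    nL2 (fun y => s.c j y • s.loc j (s.pmF f) y) ≤ √(2 * s.Int (s.pmF f) (s.pmF f)) := by
  refine Real.sqrt_le_sqrt (le_trans ?_ (s.setIntegral_pm_le hf.cont j))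
  have ht := AtlasSnAux.test_c hf.pmF j
  rw [← setIntegral_eq_integral_of_forall_compl_eq_zero (s := closedBall (0 : E) 3)
    fun y hy => by
      have h1 : 3 < ‖y‖ := by simpa using hy
      have h2 : s.c j y • s.loc j (s.pmF f) y = 0 := ht.2 y (by linarith)
      simp only [h2, norm_zero, zero_pow two_ne_zero]]
  have hc : ContinuousOn (fun y => ‖s.loc j (s.pmF f) y‖ ^ 2) (closedBall (0 : E) 3) :=
    (((hf.pmF.cont j).mono (closedBall_subset_ball (by norm_num))).norm).pow 2
  have hi : IntegrableOn (fun y => ‖pm (s.Jl j y) (s.loc j f y)‖ ^ 2) (closedBall (0 : E) 3) :=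
    (hc.integrableOn_compact (isCompact_closedBall 0 3)).congr_fun (fun y hy => by
      have hy' := mem_closedBall_zero_iff.1 hy
      simp only
      rw [s.loc_pmF j f (by linarith)]) measurableSet_closedBall
  refine integral_mono_of_nonneg (Filter.Eventually.of_forall fun y => by positivity) hi ?_
  filter_upwards [ae_restrict_mem measurableSet_closedBall] with y hy
  have hy' := mem_closedBall_zero_iff.1 hy
  rw [s.loc_pmF j f (by linarith), norm_smul, Real.norm_of_nonneg (s.c_nonneg j y)]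
  exact pow_le_pow_left₀ (mul_nonneg (s.c_nonneg j y) (norm_nonneg _))
    (mul_le_of_le_one_left (norm_nonneg _) (s.c_le_one j y)) 2

theorem abd {α : GF X} {β A₀ : ℝ} (hα : PmBd s α 5 β) (hA : 0 ≤ A₀) (hL : LocL2 s α A₀)
    {f : Form X} (hf : s.Smooth f) :
    |α f| ≤ s.m * A₀ * √(2 * s.Int (s.pmF f) (s.pmF f)) := by
  have h1 : α f = ∑ j, s.lf α j fun y => s.c j y • s.loc j (s.pmF f) y := by
    rw [AtlasSnAux.eq_pmF s hα hf]
    have h2 : α (s.pmF f) = α (∑ j, s.glob j fun y => s.c j y • s.loc j (s.pmF f) y) := by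
      rw [← s.partition]
    rw [h2, map_sum]
    rfl
  rw [h1]
  refine (Finset.abs_sum_le_sum_abs _ _).trans ?_
  refine (Finset.sum_le_card_nsmul _ _ (A₀ * √(2 * s.Int (s.pmF f) (s.pmF f))) fun j _ => ?_).trans
    (le_of_eq ?_)
  · exact (hL j _ ((AtlasSnAux.test_c hf.pmF j).mono one_le_two)).trans
      (mul_le_mul_of_nonneg_left (nl2 hf j) hA)
  · rw [Finset.card_univ, Fintype.card_fin, nsmul_eq_mul, mul_assoc]

end KCurAux

open KCurAux ExSAux

variable {X : Type u} [TopologicalSpace X] [T2Space X] [CompactSpace X]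
  [SecondCountableTopology X] [MeasurableSpace X] [BorelSpace X]

theorem p_kbd :
    S_kbd X := by
  intro s a T α β A₀ hX h hK hα hA hL
  have ho := h.smooth.cont
  have hB := s.Int_pm_nonneg a
  have hV : 0 < s.Int a a := by
    rw [s.Int_split ho ho]
    have := h.Int_F_pos
    linarith
  refine ⟨(T a + α a + s.m * A₀ * √(2 * s.Int a a)) / s.Int a a, fun e he t hp => ?_⟩
  have ht := t_nonneg h he hp
  obtain ⟨hs, hc⟩ := s.ex_smooth_closed he
  have hsm : s.Smooth (e + t • a) := hs.add (h.smooth.smul t)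
  have hφ : s.Cont (e + t • a) := hsm.cont
  have a1 : s.Int (e + t • a) a = t * s.Int a a := by
    rw [s.Int_add_left hs.cont (ho.smul t) ho, s.stokes he h.smooth h.closed, s.Int_smul_left,
      zero_add]
  have a2 : s.Int (e + t • a) (e + t • a) = t ^ 2 * s.Int a a := by
    rw [expand hs.cont ho, s.stokes he hs hc, s.stokes he h.smooth h.closed]
    ring
  have a3 := s.Int_split hφ hφ
  have a4 := s.Int_pp_nonneg hp hp
  have a5 : √(2 * s.Int (s.pmF (e + t • a)) (s.pmF (e + t • a))) ≤ t * √(2 * s.Int a a) := by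
    rw [← Real.sqrt_sq ht, ← Real.sqrt_mul (sq_nonneg t), Real.sqrt_sq ht]
    exact Real.sqrt_le_sqrt (by linarith)
  have a6 := (abs_le.1 ((abd hα hA hL hsm).trans
    (mul_le_mul_of_nonneg_left a5 (by positivity)))).1
  have a7 := hK e he
  have a8 : (T a + α a + s.m * A₀ * √(2 * s.Int a a)) / s.Int a a * (t * s.Int a a) =
      t * T a + t * α a + s.m * A₀ * (t * √(2 * s.Int a a)) := by
    field_simp
  rw [map_add, map_smul, smul_eq_mul] at a6 ⊢
  rw [a1, a8]
  linarith

theorem p_kcur :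
    S_kcur X := by
  intro s a T c₁ hX h hT
  have ho := h.smooth.cont
  obtain ⟨c, hc⟩ := bound h
  obtain ⟨C, -, hC⟩ := h.pos_add
  let D : Submodule ℝ s.contSub := (s.Ex ⊔ Submodule.span ℝ {a}).comap s.contSub.subtype
  let G : s.contSub →ₗ[ℝ] ℝ := (c + c₁) • IL ho - IL ho.ppF - T ∘ₗ s.contSub.subtype
  obtain ⟨g, hg, hg'⟩ := riesz_extension (cone s) (G.toPMap D)
    (fun x hx => by
      obtain ⟨e, he, z, hz, hx2⟩ := Submodule.mem_sup.1 x.2
      obtain ⟨t, rfl⟩ := Submodule.mem_span_singleton.1 hz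
      have hx3 : ((x : s.contSub) : Form X) = e + t • a := hx2.symm
      have hp : s.Pos ((x : s.contSub) : Form X) := hx
      change 0 ≤ (c + c₁) * s.Int ((x : s.contSub) : Form X) a -
        s.Int ((x : s.contSub) : Form X) (s.ppF a) - T ((x : s.contSub) : Form X)
      rw [hx3] at hp ⊢
      have h1 := hc e he t hp
      have h2 := hT e he t hp
      linarith)
    (fun y => ⟨⟨⟨(C * s.sn 0 y) • a, ho.smul _⟩, Submodule.mem_sup_right
      (Submodule.smul_mem _ _ (Submodule.mem_span_singleton_self a))⟩, fun x v => by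
        have h1 := (hC y y.2).1 x v
        change 0 ≤ ev ((C * s.sn 0 y) • pp (s.J x) (a x) + (y : Form X) x) v (s.J x v) at h1
        change 0 ≤ ev ((C * s.sn 0 y) • a x + (y : Form X) x) v (s.J x v)
        rw [ev_add, ev_smul] at h1 ⊢
        rwa [ev_pp_J (s.J_sq x)] at h1⟩)
  obtain ⟨S, hS⟩ := LinearMap.exists_extend (g + IL ho.ppF + T ∘ₗ s.contSub.subtype)
  have hS' : ∀ φ : s.contSub, S φ = g φ + s.Int φ (s.ppF a) + T φ := fun φ =>
    LinearMap.congr_fun hS φ
  refine ⟨S, fun φ hφ hp => ?_, fun e he => ?_⟩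
  · have h1 := hS' ⟨φ, hφ⟩
    have h2 := hg' ⟨φ, hφ⟩ hp
    simp only at h1
    linarith
  · have hec := (s.ex_smooth_closed he).1.cont
    have h1 := hS' ⟨e, hec⟩
    have h2 : g ⟨e, hec⟩ = (c + c₁) * s.Int e a - s.Int e (s.ppF a) - T e :=
      hg ⟨⟨e, hec⟩, Submodule.mem_sup_left he⟩
    simp only at h1
    rw [h1, h2, s.stokes he h.smooth h.closed]
    ring

end Vale.Agent.P247
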