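import Vale.Agent.P247.Stm

open scoped ContDiff RealInnerProductSpace Topology Manifold
open MeasureTheory Metric

namespace Vale.Agent.P247

open Vale.Agent.P204 Vale.Agent.P204.Setup

universe u

namespace KerLorAux

/-- the functionals to which positivity of the kernel is applied -/
noncomputable def fn (ψ ζ : W) (t : ℝ) : (W →L[ℝ] W) →ₗ[ℝ] ℝ where
  toFun M := wedge (M ψ) ζ + t * ev (M om0) (eb 0) (eb 1)
  map_add' M M' := by
    simp only [add_apply, ev_add, wedge_add_left]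
    ring
  map_smul' t M := by
    simp only [smul_apply, ev_smul, wedge_smul_left, RingHom.id_apply, smul_eq_mul]
    ring

theorem np {K : ℝ × E × E → W →L[ℝ] W} {R N ε₀ ε : ℝ} (hK : IsKer K R N ε₀)
    (hε : ε ∈ Set.Ioo 0 ε₀) {y : E} (hy : y ∈ closedBall (0 : E) 6) (z : E) (ψ ζ : W) (t : ℝ)
    (h : ∀ L : E →L[ℝ] E, ‖L - ContinuousLinearMap.id ℝ E‖ ≤ N * ε →
      0 ≤ wedge (pull L ψ) ζ + t * ev (pull L om0) (eb 0) (eb 1)) :
    0 ≤ wedge (K (ε, y, z) ψ) ζ + t * ev (K (ε, y, z) om0) (eb 0) (eb 1) :=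
  hK.np ε hε y hy z (LinearMap.toContinuousLinearMap (fn ψ ζ t)) h

theorem wedge_inv {J : E →L[ℝ] E} (hJ : Near J) (a : W) {ζ : W} (h : pull J ζ = ζ) :
    wedge (pp J a) ζ = wedge a ζ := by
  rw [← AEstAux.wedge_pp hJ, pp_of_inv h]

end KerLorAux

open KerLorAux in
theorem p_kerLor (h_lor2 : S_lor2) (h_cone : S_cone) (h_pullLor : S_pullLor) :
    S_kerLor := by
  intro K R N ε₀ J hK hJ η η0 η1
  obtain ⟨P, hP0, hP⟩ := hJ.lipschitz
  obtain ⟨θ, θ0, hθ⟩ := h_pullLor η η0 η1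
  have N0 := hK.Npos
  have PR := mul_nonneg hP0 hK.Rpos
  have Q0 : 0 < N + P * R + 1 := by positivity
  refine ⟨θ / (N + P * R + 1), by positivity, fun ε hε h1 y hy z ψ hψ hψ1 h2 => ?_⟩
  rcases lt_or_ge R ‖z‖ with hz | hz
  · simp only [hK.supp ε y z hz, zero_apply, ev_zero, map_zero, mul_zero, Real.sqrt_nonneg, le_refl,
      implies_true, and_self]
  rw [le_div_iff₀ Q0] at h1 h2
  have e0 := hε.1
  have h3 : ‖J (y + ε • z) - J y‖ ≤ ε * (N + P * R + 1) := by
    refine (hP _ _).trans ?_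
    rw [add_sub_cancel_left, norm_smul, Real.norm_of_nonneg e0.le]
    nlinarith [mul_le_mul_of_nonneg_left (mul_le_mul_of_nonneg_left hz e0.le) hP0,
      mul_nonneg e0.le N0]
  have k0 : 0 ≤ ev (K (ε, y, z) om0) (eb 0) (eb 1) := by
    have := np hK hε hy z ψ 0 1 fun L hL => by
      have := KerCAux.om_ge (hL.trans ((mul_le_mul_of_nonneg_left hε.2.le N0).trans hK.eN))
      rw [wedge_zero_right]
      linarith
    rwa [wedge_zero_right, zero_add, one_mul] at this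
  have k := h_cone (J y) (pp (J y) (K (ε, y, z) ψ))
    ((1 - η) * ev (K (ε, y, z) om0) (eb 0) (eb 1)) (hJ.near y) (pull_pp (hJ.near y).1 _)
    (mul_nonneg (by linarith) k0) fun ζ hζ hζ1 => by
      have := np hK hε hy z ψ ζ (-(1 - η)) fun L hL => by
        obtain ⟨a1, a2⟩ := hθ (J (y + ε • z)) (J y) L ψ (ε * (N + P * R + 1)) (hJ.near _)
          (hJ.near y) (hL.trans (by nlinarith [mul_nonneg e0.le PR])) h3 h1 hψ hψ1 (by linarith)
        have a3 := h_lor2 (J y) _ ζ (hJ.near y) a1.1 hζ.1 (by linarith)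
        have a4 := (hJ.near y).wedge_pos_pos a1.1 hζ.1 a1.2 hζ.2
        rw [hζ1, mul_one] at a3
        have a5 := a2.trans (Real.sqrt_le_iff.2 ⟨a4, a3⟩)
        rw [wedge_inv (hJ.near y) _ hζ.1] at a5
        linarith
      rw [wedge_inv (hJ.near y) _ hζ.1]
      linarith
  exact ⟨fun v => ev_pp_J (hJ.near y).1 _ v ▸ k.1 v, k0, k.2⟩

end Vale.Agent.P247
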