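import Vale.Agent.P247.Stm

open scoped ContDiff RealInnerProductSpace Topology Manifold
open MeasureTheory Metric

namespace Vale.Agent.P247

open Vale.Agent.P204 Vale.Agent.P204.Setup

universe u

variable {X : Type u} [TopologicalSpace X] [T2Space X] [CompactSpace X]
  [SecondCountableTopology X] [MeasurableSpace X] [BorelSpace X]

open PolarAux in
theorem p_kill :
    S_kill X := by
  intro s T T' α μ ν A i c C C₁ p _ hν hA hE hL hp hC₁ hel hS
  have := s.isFiniteMeasure_lm μ i
  have hθ : CTest 1 (d1 p) := hp.d1.ctest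
  obtain ⟨M, hM0, hM⟩ := hθ.bounded
  refine eq_zero_of_le (K := C₁ + 2 * C * (M * 2) + 1) fun η hη => ?_
  obtain ⟨g, hg, g0, g1, hgη⟩ := exists_approx μ hA hη
  obtain ⟨g', hg', hg'η, hS'⟩ := hel η hη
  set B : Set E := closedBall (0 : E) 1 with hB
  have hBm : MeasurableSet B := measurableSet_closedBall
  set Ep : Set E := Epol (s.lm μ i) with hEp
  have hEm : MeasurableSet Ep := measurableSet_Epol _
  have hh : CTest 2 fun y => bp 1 2 y • g ((s.ψ i).symm y) :=
    (test_bp (a := 1) (b := 2) zero_le_one one_lt_two).ctest.smul_continuousOn (r' := 10)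
      (by norm_num) (hg.comp_continuousOn (contOn_symm s i))
  set k : E → ℝ := fun y => bp 1 2 y • g ((s.ψ i).symm y) with hk
  have hk1 : ∀ y, ‖y‖ ≤ 1 → k y = g ((s.ψ i).symm y) := fun y hy => by
    simp only [hk, bp_eq_one zero_le_one one_lt_two hy, one_smul]
  have e1 : (T fun x => g x • s.glob i (d1 p) x) = s.lf T i fun y => k y • d1 p y := by
    rw [fun_smul_glob]
    change _ = T (s.glob i _)
    congr 2
    funext y
    rcases le_or_gt ‖y‖ 1 with hy | hy
    · rw [hk1 y hy]
    · rw [hθ.2 y hy, smul_zero, smul_zero]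
  have ik : ∀ f : E → ℝ, Continuous f →
      IntegrableOn (fun y => |f y - Ep.indicator 1 y|) B (s.lm μ i) := fun f hf =>
    ((hf.continuousOn.integrableOn_compact (isCompact_closedBall 0 1)).sub
      ((integrable_const (1 : ℝ)).indicator hEm)).abs
  have e2 : ∫ y in B, |k y - Ep.indicator 1 y| ∂s.lm μ i ≤ η := by
    refine le_trans ?_ hgη
    have hm : Measurable (B.indicator fun y => |k y - Ep.indicator 1 y|) :=
      (hh.1.measurable.sub (measurable_const.indicator hEm)).abs.indicator hBm
    rw [← integral_indicator hBm, s.integral_lm μ i hm]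
    refine integral_mono_of_nonneg (ae_of_all _ fun x => ?_) (int_err μ hA hg g0 g1)
      (ae_of_all _ fun x => ?_)
    · simp only [glob0]
      split_ifs
      · exact Set.indicator_nonneg (fun _ _ => abs_nonneg _) _
      · exact le_rfl
    · simp only [glob0]
      split_ifs with hx
      · by_cases hy : s.ψ i x ∈ B
        · have hy1 : ‖s.ψ i x‖ ≤ 1 := mem_closedBall_zero_iff.1 hy
          rw [Set.indicator_of_mem hy, hk1 _ hy1, (s.ψ i).left_inv hx]
          by_cases hxA : x ∈ A
          · rw [Set.indicator_of_mem hxA, Set.indicator_of_mem ((hE x hx (by linarith)).1 hxA)]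
            exact le_rfl
          · rw [Set.indicator_of_notMem hxA,
              Set.indicator_of_notMem fun h => hxA ((hE x hx (by linarith)).2 h)]
        · rw [Set.indicator_of_notMem hy]
          exact abs_nonneg _
      · exact abs_nonneg _
  have hle := s.lm_mono hν i
  have mo : ∀ f : E → ℝ, Continuous f → ∫ y in B, |f y - Ep.indicator 1 y| ∂s.lm ν i ≤
      ∫ y in B, |f y - Ep.indicator 1 y| ∂s.lm μ i := fun f hf =>
    integral_mono_measure (Measure.restrict_mono_measure hle B)
      (ae_of_all _ fun _ => abs_nonneg _) (ik f hf)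
  have ik' := fun f hf => (ik f hf).mono_measure hle
  have e3 : |(s.lf T i fun y => k y • d1 p y) - s.lf T i fun y => g' y • d1 p y| ≤
      2 * C * (M * 2 * η) := by
    rw [← map_sub]
    have hi : Integrable (B.indicator fun y =>
        M * (|k y - Ep.indicator 1 y| + |g' y - Ep.indicator 1 y|)) (s.lm ν i) :=
      (integrable_indicator_iff hBm).2 (((ik' k hh.1).add (ik' g' hg')).const_mul M)
    refine (hL.abs_le_of_norm (s.good i) (((hθ.fun_smul hh.1).sub (hθ.fun_smul hg')).mono
      (by norm_num)) hi fun y => ?_).trans (mul_le_mul_of_nonneg_left ?_ (by linarith [hL.Cpos]))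
    · by_cases hy : y ∈ B
      · rw [Set.indicator_of_mem hy, Pi.sub_apply, ← sub_smul, norm_smul, mul_comm,
          Real.norm_eq_abs]
        refine mul_le_mul (hM y) ?_ (abs_nonneg _) hM0
        rw [abs_sub_comm (g' y)]
        exact abs_sub_le _ _ _
      · rw [Set.indicator_of_notMem hy, Pi.sub_apply,
          hθ.2 y (not_le.1 fun h => hy (mem_closedBall_zero_iff.2 h))]
        simp
    · rw [integral_indicator hBm, integral_const_mul, integral_add (ik' k hh.1) (ik' g' hg'),
        mul_assoc]
      exact mul_le_mul_of_nonneg_left (by linarith [mo k hh.1, mo g' hg']) hM0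
  have e4 := (hS g hg).trans (mul_le_mul_of_nonneg_left ((integral_mono_measure hν
    (ae_of_all _ fun _ => abs_nonneg _) (int_err μ hA hg g0 g1)).trans hgη) hC₁)
  change |_ + α (s.glob i (d1 p))| ≤ η at hS'
  rw [e1] at e4
  rw [abs_le] at e3 e4 hS' ⊢
  constructor <;> nlinarith [e3.1, e3.2, e4.1, e4.2, hS'.1, hS'.2]

end Vale.Agent.P247
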