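import Vale.Agent.P247.Stm

open scoped ContDiff RealInnerProductSpace Topology Manifold
open MeasureTheory Metric

namespace Vale.Agent.P247

open Vale.Agent.P204 Vale.Agent.P204.Setup

universe u

namespace KregSqAux

theorem qbd {q : E → ℝ} (hq : ContinuousOn q (ball 0 10)) (hp : ∀ y ∈ ball (0 : E) 10, 0 < q y) :
    ∃ q0 q1 : ℝ, 0 < q0 ∧ 0 ≤ q1 ∧ ∀ x ∈ closedBall (0 : E) 1, q0 ≤ q x ∧ q x ≤ q1 := by
  have hsub : closedBall (0 : E) 1 ⊆ ball 0 10 := closedBall_subset_ball (by norm_num)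
  have hne : (closedBall (0 : E) 1).Nonempty := ⟨0, mem_closedBall_self (by norm_num)⟩
  obtain ⟨a, ha, hmin⟩ := (isCompact_closedBall (0 : E) 1).exists_isMinOn hne (hq.mono hsub)
  obtain ⟨b, hb, hmax⟩ := (isCompact_closedBall (0 : E) 1).exists_isMaxOn hne (hq.mono hsub)
  exact ⟨q a, q b, hp a (hsub ha), (hp b (hsub hb)).le, fun x hx => ⟨hmin hx, hmax hx⟩⟩

theorem small {C th δ h ε n : ℝ} (hC : 0 ≤ C) (hth : 0 < th) (hδ : 0 < δ) (hε : 0 < ε)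
    (hh : h ≤ th * δ / (2 * C + 1)) (he : ε ≤ th / (2 * C + 1))
    (hn : n ≤ C * (ε⁻¹ * h + δ) / δ) : ε * n ≤ th := by
  have hD : 0 < 2 * C + 1 := by positivity
  have h1 : ε * n ≤ ε * (C * (ε⁻¹ * h + δ) / δ) := mul_le_mul_of_nonneg_left hn hε.le
  have h2 : ε * (C * (ε⁻¹ * h + δ) / δ) = C * (h / δ) + C * ε := by
    field_simp
  have h3 : h / δ ≤ th / (2 * C + 1) := by
    rw [div_le_iff₀ hδ]
    calc h ≤ th * δ / (2 * C + 1) := hh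
      _ = th / (2 * C + 1) * δ := by ring
  have h4 : C * (h / δ) ≤ C * (th / (2 * C + 1)) := mul_le_mul_of_nonneg_left h3 hC
  have h5 : C * ε ≤ C * (th / (2 * C + 1)) := mul_le_mul_of_nonneg_left he hC
  have h6 : (2 * C + 1) * (th / (2 * C + 1)) = th := by field_simp
  have h7 : 0 ≤ th / (2 * C + 1) := by positivity
  nlinarith

theorem big {κ η qx q1 t C' l w : ℝ} (hη : 0 < η) (hη1 : η < 1) (hqx : 0 ≤ qx) (hq : qx ≤ q1)
    (ht : 0 < t) (hl : t < C' * l) (hw : -(C' * l) ^ 2 ≤ w) :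
    (κ * (1 - η)) ^ 2 * qx - C' ^ 2 * (1 + κ ^ 2 * q1 / t ^ 2) * l ^ 2 ≤ w := by
  have hq1 : 0 ≤ q1 := hqx.trans hq
  have h1 : (κ * (1 - η)) ^ 2 * qx ≤ κ ^ 2 * q1 := by
    have h2 : (1 - η) ^ 2 ≤ 1 := by nlinarith
    have h3 : (1 - η) ^ 2 * qx ≤ q1 := by nlinarith
    calc (κ * (1 - η)) ^ 2 * qx = κ ^ 2 * ((1 - η) ^ 2 * qx) := by ring
      _ ≤ κ ^ 2 * q1 := mul_le_mul_of_nonneg_left h3 (sq_nonneg κ)
  have h4 : t ^ 2 ≤ (C' * l) ^ 2 := by nlinarith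
  have h5 : 0 ≤ κ ^ 2 * q1 / t ^ 2 := by positivity
  have h6 : κ ^ 2 * q1 / t ^ 2 * t ^ 2 = κ ^ 2 * q1 := by field_simp
  have h7 : κ ^ 2 * q1 / t ^ 2 * t ^ 2 ≤ κ ^ 2 * q1 / t ^ 2 * (C' * l) ^ 2 :=
    mul_le_mul_of_nonneg_left h4 h5
  have h8 : C' ^ 2 * (1 + κ ^ 2 * q1 / t ^ 2) * l ^ 2 =
      (C' * l) ^ 2 + κ ^ 2 * q1 / t ^ 2 * (C' * l) ^ 2 := by ring
  linarith

end KregSqAux

open KregSqAux in
theorem p_kregSq (h_kregLor : S_kregLor) (h_lorPt : S_lorPt) :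
    S_kregSq := by
  intro K R N ε₀ J L μ c C q κ hK hJ hL hq hqp hκ hlow η hη hη1
  obtain ⟨C', hC', hest⟩ := hK.kreg_est hJ hL
  rcases hκ.eq_or_lt with hκ0 | hκ0
  · refine ⟨C' ^ 2, by positivity, 1, one_pos, fun ε hε _ x _ => ?_⟩
    have h1 := (hest ε hε x).2.2
    rw [← hκ0]
    have h2 : (0 * (1 - η)) ^ 2 * q x - C' ^ 2 * (ε⁻¹ * lam μ R ε x) ^ 2 =
        -(C' * (ε⁻¹ * lam μ R ε x)) ^ 2 := by ring
    rw [h2]
    exact h1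
  obtain ⟨q0, q1, hq0, hq1, hqb⟩ := qbd hq hqp
  obtain ⟨D, hD, hpt⟩ := h_lorPt
  obtain ⟨th, hth, hlor⟩ := h_kregLor K R N ε₀ J L q κ hK hJ hq hqp hκ hlow η hη hη1
  have hk1 : 0 < κ * (1 - η) := mul_pos hκ0 (by linarith)
  have hs0 : 0 < Real.sqrt q0 := Real.sqrt_pos.2 hq0
  set δ : ℝ := κ * (1 - η) * Real.sqrt q0 / 2 with hδdef
  have hδ : 0 < δ := by positivity
  have hD1 : 0 < 2 * D + 1 := by positivity
  set t : ℝ := th * δ / (2 * D + 1) with htdef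
  have ht : 0 < t := by positivity
  refine ⟨C' ^ 2 * (1 + κ ^ 2 * q1 / t ^ 2), by positivity, min th (th / (2 * D + 1)),
    lt_min hth (by positivity), fun ε hε hεθ x hx => ?_⟩
  obtain ⟨hn, -, hw⟩ := hest ε hε x
  have hqx := hqb x hx
  rcases le_or_gt (C' * (ε⁻¹ * lam μ R ε x)) t with hle | hlt
  · have hsx : Real.sqrt q0 ≤ Real.sqrt (q x) := Real.sqrt_le_sqrt hqx.1
    have hr : δ < κ * (1 - η) * Real.sqrt (q x) := by
      have h1 : κ * (1 - η) * Real.sqrt q0 ≤ κ * (1 - η) * Real.sqrt (q x) :=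
        mul_le_mul_of_nonneg_left hsx hk1.le
      have h2 : 0 < κ * (1 - η) * Real.sqrt q0 := mul_pos hk1 hs0
      rw [hδdef]
      linarith
    have key := hpt (J x) (kreg K L ε x) (κ * (1 - η) * Real.sqrt (q x)) δ _ (hJ.near x) hδ hr hn
      (fun ψ hψ hψ1 hψn => hlor ε hε (hεθ.trans (min_le_left _ _)) x hx ψ hψ hψ1
        (small hD hth hδ hε.1 hle (hεθ.trans (min_le_right _ _)) hψn))
    have h3 : (κ * (1 - η) * Real.sqrt (q x)) ^ 2 = (κ * (1 - η)) ^ 2 * q x := by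
      rw [mul_pow, Real.sq_sqrt (hq0.le.trans hqx.1)]
    have h4 : 0 ≤ C' ^ 2 * (1 + κ ^ 2 * q1 / t ^ 2) * (ε⁻¹ * lam μ R ε x) ^ 2 := by positivity
    linarith
  · exact big hη hη1 (hq0.le.trans hqx.1) hqx.2 ht hlt hw

end Vale.Agent.P247
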