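import Vale.Agent.P247.Stm

open scoped ContDiff RealInnerProductSpace Topology Manifold
open MeasureTheory Metric

namespace Vale.Agent.P247

open Vale.Agent.P204 Vale.Agent.P204.Setup

universe u

namespace L1Aux

theorem pt (r : ℝ) {d : ℝ} (hd : 0 < d) :
    |r ^ 2 - 1| ≤ (d⁻¹ + d / 2) * r ^ 2 + (-(2 * d⁻¹) * r + (d⁻¹ + d / 2) * 1) := by
  have h : ∀ a b : ℝ, a * b ≤ d⁻¹ * a ^ 2 + d / 4 * b ^ 2 := fun a b => by
    have k := mul_nonneg (inv_pos.2 hd).le (sq_nonneg (a - d / 2 * b))
    have e : d⁻¹ * (a - d / 2 * b) ^ 2 = d⁻¹ * a ^ 2 + d / 4 * b ^ 2 - a * b := by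
      field_simp
      ring
    linarith
  have h1 := h (r - 1) (r + 1)
  have h2 := h (1 - r) (r + 1)
  have h3 := mul_nonneg hd.le (sq_nonneg (r - 1))
  rw [abs_le]
  constructor <;> linarith

variable {X : Type u} [TopologicalSpace X] {s : Setup X} {c t : Form X} {f g : X → ℝ}

/-- integration of functions against the square of `c` -/
noncomputable def I (s : Setup X) (c : Form X) (f : X → ℝ) : ℝ := s.Int (fun x => f x • c x) c

theorem I_add (hc : s.Cont c) (hf : Continuous f) (hg : Continuous g) :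
    I s c (fun x => f x + g x) = I s c f + I s c g := by
  unfold I
  rw [← s.Int_add_left (hc.fun_smul hf) (hc.fun_smul hg) hc]
  exact congrArg (s.Int · c) (funext fun x => add_smul _ _ _)

theorem I_mul (a : ℝ) (f : X → ℝ) : I s c (fun x => a * f x) = a * I s c f := by
  unfold I
  rw [← s.Int_smul_left]
  exact congrArg (s.Int · c) (funext fun x => mul_smul _ _ _)

theorem I_mono (hc : s.Cont c)
    (hq : ∀ i, ∀ y ∈ ball (0 : E) 10, 0 < wedge (s.loc i c y) (s.loc i c y)) (hf : Continuous f)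
    (hg : Continuous g) (h : ∀ x, f x ≤ g x) : I s c f ≤ I s c g := by
  have k : 0 ≤ I s c fun x => g x + -1 * f x := AtlasInt2Aux.Int_nn s fun j y hy => by
    rw [s.loc_fun_smul, wedge_smul_left]
    exact mul_nonneg (by linarith [h ((s.ψ j).symm y)]) (hq j y (mem_ball_zero_iff.2 hy)).le
  rw [I_add hc hg (by fun_prop), I_mul] at k
  linarith

theorem qt {j : Fin s.m} {y : E} (hq : 0 < wedge (s.loc j c y) (s.loc j c y)) (t : Form X) :
    wedge (s.loc j t y) (s.loc j t y) = wedge (t ((s.ψ j).symm y)) (t ((s.ψ j).symm y)) /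
      wedge (c ((s.ψ j).symm y)) (c ((s.ψ j).symm y)) * wedge (s.loc j c y) (s.loc j c y) := by
  have e : ∀ φ : Form X, wedge (s.loc j φ y) (s.loc j φ y) = (s.P j ((s.ψ j).symm y)).det *
      wedge (φ ((s.ψ j).symm y)) (φ ((s.ψ j).symm y)) := fun φ => wedge_pull _ _ _
  rw [e] at hq
  rw [e, e, mul_left_comm, div_mul_cancel₀ _ (right_ne_zero_of_mul hq.ne')]

end L1Aux

open L1Aux

variable {X : Type u} [TopologicalSpace X] [T2Space X] [CompactSpace X]
  [SecondCountableTopology X] [MeasurableSpace X] [BorelSpace X]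

theorem p_l1 (h_rhoLoc : S_rhoLoc X) :
    S_l1 X := by
  intro s c hc hV ε hε
  obtain ⟨h1, h2⟩ := h_rhoLoc s c hc
  have hq := fun i y hy => (h1 i y hy).1
  have cc := hc.smooth.cont
  set d := ε / (2 * s.Int c c) with hd
  have d0 : 0 < d := by positivity
  refine ⟨s.Int c c - ε * d / 4, sub_lt_self _ (by positivity), fun t ht hT hm => ?_⟩
  have e1 : s.ppF t = t := funext fun x => pp_of_inv (ht.inv x)
  have hp : s.Pos t := (s.pos_ppF_iff t).1 ht.toTame.pos_F
  have e2 : ∀ x, rho s c t x ^ 2 = wedge (t x) (t x) / wedge (c x) (c x) := fun x => by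
    obtain ⟨i, k1, k2, -⟩ := s.cover_lt x
    have k3 : ‖s.ψ i x‖ < 10 := by linarith
    have k4 := hq i _ (mem_ball_zero_iff.2 k3)
    have k5 := AtlasInt2Aux.pp_nn s hp hp i _ k3
    rw [e1, qt k4, (s.ψ i).left_inv k1] at k5
    rw [rho, e1, Real.sq_sqrt (nonneg_of_mul_nonneg_left k5 k4)]
  have r1 := h2 t ht.smooth.cont
  have e3 : I s c (fun x => rho s c t x ^ 2) = s.Int c c := by
    rw [← hT]
    unfold I Setup.Int
    refine Finset.sum_congr rfl fun j _ => congrArg _ (funext fun y => ?_)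
    refine AtlasInt2Aux.c_eq s j y fun hy => ?_
    rw [s.loc_fun_smul, wedge_smul_left, e2, qt (hq j y (mem_ball_zero_iff.2 hy)) t]
  have e4 : I s c (fun _ => 1) = s.Int c c :=
    congrArg (s.Int · c) (funext fun x => one_smul _ _)
  have e5 : I s c (rho s c t) = Phi s c t := rfl
  have k := I_mono cc hq (f := fun x => |rho s c t x ^ 2 - 1|) (by fun_prop)
    (by fun_prop) fun x => pt (rho s c t x) d0
  rw [I_add cc (by fun_prop) (by fun_prop), I_add cc (by fun_prop) (by fun_prop), I_mul, I_mul,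
    I_mul, e3, e4, e5] at k
  simp only [e2] at k
  refine le_trans k ?_
  have e6 : d * s.Int c c = ε / 2 := by
    rw [hd]
    field_simp
  have e7 : d⁻¹ * (ε * d / 4) = ε / 4 := by field_simp
  have k2 := mul_le_mul_of_nonneg_left hm (inv_pos.2 d0).le
  linarith

end Vale.Agent.P247
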