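import Vale.Agent.P247.Stm

open scoped ContDiff RealInnerProductSpace Topology Manifold
open MeasureTheory Metric

namespace Vale.Agent.P247

open Vale.Agent.P204 Vale.Agent.P204.Setup

universe u

namespace LorAux

open Alg3Aux

theorem key {a0 a5 a1 a2 b0 b5 b1 b2 : ℝ} (a3 : 0 ≤ a0) (a4 : 0 ≤ a5)
    (ha : a1 ^ 2 + a2 ^ 2 ≤ a0 * a5) (b3 : 0 ≤ b0) (b4 : 0 ≤ b5)
    (hb : b1 ^ 2 + b2 ^ 2 ≤ b0 * b5) : 2 * (a1 * b1 + a2 * b2) ≤ a0 * b5 + a5 * b0 := by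
  refine (abs_le_of_sq_le_sq' ?_ (by positivity)).2
  calc (2 * (a1 * b1 + a2 * b2)) ^ 2 ≤ 4 * ((a1 ^ 2 + a2 ^ 2) * (b1 ^ 2 + b2 ^ 2)) := by
        nlinarith [sq_nonneg (a1 * b2 - a2 * b1)]
    _ ≤ 4 * (a0 * a5 * (b0 * b5)) := by gcongr
    _ ≤ _ := by nlinarith [sq_nonneg (a0 * b5 - a5 * b0)]

theorem sign {a0 a5 a1 a2 b0 b5 b1 b2 : ℝ} (ha : a1 ^ 2 + a2 ^ 2 < a0 * a5) (b3 : 0 ≤ b0)
    (b4 : 0 ≤ b5) (hb : b1 ^ 2 + b2 ^ 2 ≤ b0 * b5)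
    (h : 2 * (a1 * b1 + a2 * b2) < a0 * b5 + a5 * b0) : 0 < a0 := by
  have h1 : 0 < a0 * a5 := lt_of_le_of_lt (by positivity) ha
  rcases mul_pos_iff.1 h1 with h2 | h2
  · exact h2.1
  · have h3 := key (a0 := -a0) (a5 := -a5) (a1 := -a1) (a2 := -a2) (neg_nonneg.2 h2.1.le)
      (neg_nonneg.2 h2.2.le) (by linarith) b3 b4 hb
    linarith

theorem form {a0 a5 a1 a2 x y z w : ℝ} (ha : a1 ^ 2 + a2 ^ 2 < a0 * a5) (h0 : 0 < a0)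
    (h : 0 < x ^ 2 + y ^ 2 + z ^ 2 + w ^ 2) : 0 < a0 * (x ^ 2 + y ^ 2) + a5 * (z ^ 2 + w ^ 2) +
      2 * a1 * (y * z - x * w) + 2 * a2 * (x * z + y * w) := by
  rcases (by positivity : 0 ≤ z ^ 2 + w ^ 2).eq_or_lt with h1 | h1
  · have hz : z = 0 := pow_eq_zero_iff two_ne_zero |>.1 (by nlinarith [sq_nonneg z, sq_nonneg w])
    have hw : w = 0 := pow_eq_zero_iff two_ne_zero |>.1 (by nlinarith [sq_nonneg z, sq_nonneg w])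
    have h2 : 0 < x ^ 2 + y ^ 2 := by linarith
    have h3 := mul_pos h0 h2
    rw [hz, hw]
    linarith
  · refine (mul_pos_iff_of_pos_left h0).1 ?_
    have h2 := mul_pos (sub_pos.2 ha) h1
    have h3 : a0 * (a0 * (x ^ 2 + y ^ 2) + a5 * (z ^ 2 + w ^ 2) +
        2 * a1 * (y * z - x * w) + 2 * a2 * (x * z + y * w)) =
        (a0 * x - a1 * w + a2 * z) ^ 2 + (a0 * y + a1 * z + a2 * w) ^ 2 +
          (a0 * a5 - (a1 ^ 2 + a2 ^ 2)) * (z ^ 2 + w ^ 2) := by ring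
    rw [h3]
    positivity

theorem rev {a0 a5 a1 a2 b0 b5 b1 b2 : ℝ} (hb : 0 ≤ b0 * b5 - b1 ^ 2 - b2 ^ 2) :
    2 * (a0 * a5 - a1 ^ 2 - a2 ^ 2) * (2 * (b0 * b5 - b1 ^ 2 - b2 ^ 2)) ≤
      (a0 * b5 + a5 * b0 - 2 * (a1 * b1) - 2 * (a2 * b2)) ^ 2 := by
  rcases hb.eq_or_lt with h | h
  · rw [← h, mul_zero, mul_zero]
    exact sq_nonneg _
  · have h0 : b0 ≠ 0 := by
      rintro rfl
      nlinarith [sq_nonneg b1, sq_nonneg b2]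
    have h1 : 0 < b0 ^ 2 := by positivity
    refine le_of_mul_le_mul_left (sub_nonneg.1 ?_) h1
    have h2 : b0 ^ 2 * (a0 * b5 + a5 * b0 - 2 * (a1 * b1) - 2 * (a2 * b2)) ^ 2 -
        b0 ^ 2 * (2 * (a0 * a5 - a1 ^ 2 - a2 ^ 2) * (2 * (b0 * b5 - b1 ^ 2 - b2 ^ 2))) =
        (b0 * (a0 * b5 + a5 * b0 - 2 * (a1 * b1) - 2 * (a2 * b2)) -
          a0 * (2 * (b0 * b5 - b1 ^ 2 - b2 ^ 2))) ^ 2 +
        4 * (b0 * b5 - b1 ^ 2 - b2 ^ 2) * ((b0 * a1 - a0 * b1) ^ 2 + (b0 * a2 - a0 * b2) ^ 2) := by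
      ring
    rw [h2]
    positivity

theorem wedge_eq {a b : W} (ha : pull J0 a = a) (hb : pull J0 b = b) :
    wedge a b = a 0 * b 5 + a 5 * b 0 - 2 * (a 1 * b 1) - 2 * (a 2 * b 2) := by
  obtain ⟨a1, a2⟩ := inv_coef ha
  obtain ⟨b1, b2⟩ := inv_coef hb
  rw [wedge, a1, a2, b1, b2]
  ring

theorem ev_eq {a : W} (h : pull J0 a = a) (v : E) :
    ev a v (J0 v) = a 0 * (v 0 ^ 2 + v 1 ^ 2) + a 5 * (v 2 ^ 2 + v 3 ^ 2) +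
      2 * a 1 * (v 1 * v 2 - v 0 * v 3) + 2 * a 2 * (v 0 * v 2 + v 1 * v 3) := by
  obtain ⟨h1, h2⟩ := inv_coef h
  simp only [ev, J0_0, J0_1, J0_2, J0_3, h1, h2]
  ring

theorem lor1 {a f : W} (ha : pull J0 a = a) (hf : pull J0 f = f) (pf : ∀ v, 0 ≤ ev f v (J0 v))
    (h1 : 0 < wedge a a) (h2 : 0 < wedge a f) (v : E) (hv : v ≠ 0) : 0 < ev a v (J0 v) := by
  obtain ⟨b3, b4, b5⟩ := pos_coef hf pf
  rw [wedge_eq ha ha] at h1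
  rw [wedge_eq ha hf] at h2
  have h3 : a 1 ^ 2 + a 2 ^ 2 < a 0 * a 5 := by linarith
  rw [ev_eq ha]
  refine form h3 (sign h3 b3 b4 b5 (by linarith)) ?_
  rw [← nsq]
  exact pow_pos (norm_pos_iff.2 hv) 2

theorem lor2 {a b : W} (ha : pull J0 a = a) (hb : pull J0 b = b) (h : 0 ≤ wedge b b) :
    wedge a a * wedge b b ≤ wedge a b ^ 2 := by
  rw [wedge_eq hb hb] at h
  rw [wedge_eq ha ha, wedge_eq hb hb, wedge_eq ha hb]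
  have h1 := rev (a0 := a 0) (a5 := a 5) (a1 := a 1) (a2 := a 2) (b0 := b 0) (b5 := b 5)
    (b1 := b 1) (b2 := b 2) (by linarith)
  linarith

end LorAux

theorem p_lor1 :
    S_lor1 := by
  intro J a f hJ ha hf h1 h2 v hv
  obtain ⟨B, h0, k1, k2, k3⟩ := Alg3Aux.red hJ
  have hs : Function.Surjective B :=
    (LinearMap.injective_iff_surjective (f := (B : E →ₗ[ℝ] E))).1 h0
  obtain ⟨w, rfl⟩ := hs v
  rw [k3] at h1 h2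
  rw [← k2]
  exact LorAux.lor1 (k1 a ha) (k1 f hf.1) (fun v => by rw [k2]; exact hf.2 _)
    ((mul_pos_iff_of_pos_left hJ.det_Aop_pos).1 h1)
    ((mul_pos_iff_of_pos_left hJ.det_Aop_pos).1 h2) w fun h => hv (by rw [h, map_zero])

theorem p_lor2 :
    S_lor2 := by
  intro J a b hJ ha hb h
  obtain ⟨B, -, k1, -, k3⟩ := Alg3Aux.red hJ
  rw [k3] at h
  have h1 := LorAux.lor2 (k1 a ha) (k1 b hb) ((mul_nonneg_iff_of_pos_left hJ.det_Aop_pos).1 h)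
  rw [k3 a a, k3 b b, k3 a b, mul_pow, mul_mul_mul_comm, ← sq]
  exact mul_le_mul_of_nonneg_left h1 (sq_nonneg _)

end Vale.Agent.P247
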