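import Vale.Agent.P247.Stm

open scoped ContDiff RealInnerProductSpace Topology Manifold
open MeasureTheory Metric

namespace Vale.Agent.P247

open Vale.Agent.P204 Vale.Agent.P204.Setup

universe u

variable {X : Type u} [TopologicalSpace X] [T2Space X] [CompactSpace X]
  [SecondCountableTopology X] [MeasurableSpace X] [BorelSpace X]

namespace MSubAux

omit [CompactSpace X] [SecondCountableTopology X] [MeasurableSpace X] [BorelSpace X] in
theorem chart {s : Setup X} {M : ℝ → Form X → Form X}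
    {K : Fin s.m → ℝ × E × E → W →L[ℝ] W} {R N ε₀ : ℝ} (hM : s.Moll M K R N ε₀) {φ : Form X}
    (hφ : s.Smooth φ) (l : ℕ) (j : Fin s.m) : ∃ C : ℝ, 0 ≤ C ∧ ∀ ε ∈ Set.Ioo 0 ε₀,
      Hn l (fun y => s.c j y • s.loc j (φ - M ε φ) y) ≤ C * ε := by
  have ht := hφ.test_smul j (test_bp (a := 4) (b := 5) (by norm_num) (by norm_num)) (by norm_num)
  obtain ⟨C1, h1, H1⟩ := (hM.ker j).Hn_sub_le l
  have hA : ContDiff ℝ ∞ fun y => s.c j y • ContinuousLinearMap.id ℝ W :=
    (s.c_test j).1.smul contDiff_const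
  obtain ⟨C2, h2, H2⟩ := Hn_clm_le hA 6 l
  refine ⟨C2 * (C1 * Hn (l + 1) fun y => bp 4 5 y • s.loc j φ y),
    mul_nonneg h2 (mul_nonneg h1 (Hn_nonneg _ _)), fun ε hε => ?_⟩
  have hR := RegAux.R_le (hM.ker j) hε
  have h6 : Test 6 ((fun y => bp 4 5 y • s.loc j φ y) -
      Kop (K j) ε fun y => bp 4 5 y • s.loc j φ y) :=
    (ht.mono (by norm_num)).sub (((hM.ker j).toSKer.kop_test hε.1.le ht).mono (by linarith))
  have e : (fun y => s.c j y • s.loc j (φ - M ε φ) y) = fun y =>
      (s.c j y • ContinuousLinearMap.id ℝ W) (((fun y => bp 4 5 y • s.loc j φ y) -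
        Kop (K j) ε fun y => bp 4 5 y • s.loc j φ y) y) := by
    funext y
    rw [ContinuousLinearMap.smul_apply, ContinuousLinearMap.id_apply]
    rcases le_or_gt ‖y‖ 1 with hy | hy
    · rw [map_sub, Pi.sub_apply, Pi.sub_apply,
        hM.rep ε hε φ hφ j y (mem_closedBall_zero_iff.2 (by linarith)),
        bp_eq_one (a := 4) (b := 5) (by norm_num) (by norm_num) (by linarith), one_smul]
      refine congrArg (fun w => s.c j y • (s.loc j φ y - w)) ?_
      refine (hM.ker j).toSKer.kop_congr hε.1.le fun z hz => ?_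
      rw [bp_eq_one (by norm_num) (by norm_num) (by linarith [RegAux.norm_le hz]), one_smul]
    · rw [(s.c_test j).2 y hy, zero_smul, zero_smul]
  rw [e]
  refine (H2 _ h6).trans ((mul_le_mul_of_nonneg_left (H1 ε hε _ ht) h2).trans (le_of_eq ?_))
  ring

end MSubAux

theorem p_msub :
    S_msub X := by
  intro s M K R N ε₀ hM φ hφ n
  choose C hC H using MSubAux.chart hM hφ (n + 5)
  obtain ⟨D, hD, HD⟩ := Ck_le_Hn n
  have hS : 0 ≤ ∑ j, C j := Finset.sum_nonneg fun j _ => hC j
  have hn : (0 : ℝ) ≤ n + 1 := by positivity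
  refine ⟨(D + (n + 1)) * ∑ j, C j, by positivity, fun ε hε => ?_⟩
  have hψ : s.Smooth (φ - M ε φ) := hφ.sub (hM.smooth ε hε φ hφ)
  have ht := AtlasSnAux.test_c hψ
  have h0 := hε.1.le
  constructor
  · calc s.sn n (φ - M ε φ) ≤ ∑ j, D * (C j * ε) := Finset.sum_le_sum fun j _ =>
          (HD _ ((ht j).mono (by norm_num))).trans (mul_le_mul_of_nonneg_left (H j ε hε) hD)
      _ = D * (∑ j, C j) * ε := by rw [← Finset.mul_sum, ← Finset.sum_mul, mul_assoc]
      _ ≤ _ := by gcongr; linarith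
  · intro A a ha hA
    have key : ∀ j, |s.lf A j fun y => s.c j y • s.loc j (φ - M ε φ) y| ≤
        a * ((n + 1) * (C j * ε)) := fun j => by
      refine (hA j _ ((ht j).mono (by norm_num))).trans (mul_le_mul_of_nonneg_left ?_ ha)
      refine nrm_le fun l hl => ?_
      have h1 : ε ≤ 1 := by linarith [(hM.ker j).eps_le_one, hε.2]
      refine (mul_le_of_le_one_left (Hn_nonneg _ _) (pow_le_one₀ h0 h1)).trans ?_
      exact (Hn_mono (by omega) _).trans (H j ε hε)
    calc |A (φ - M ε φ)| = |∑ j, s.lf A j fun y => s.c j y • s.loc j (φ - M ε φ) y| := by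
          conv_lhs => rw [s.partition (φ - M ε φ), map_sum]
          rfl
      _ ≤ ∑ j, a * ((n + 1) * (C j * ε)) :=
          (Finset.abs_sum_le_sum_abs _ _).trans (Finset.sum_le_sum fun j _ => key j)
      _ = (n + 1) * (∑ j, C j) * ε * a := by
          rw [← Finset.mul_sum, ← Finset.mul_sum, ← Finset.sum_mul]
          ring
      _ ≤ _ := mul_le_mul_of_nonneg_right (mul_le_mul_of_nonneg_right
          (mul_le_mul_of_nonneg_right (le_add_of_nonneg_left hD) hS) h0) ha

end Vale.Agent.P247
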