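import Vale.Agent.P247.Stm

open scoped ContDiff RealInnerProductSpace Topology Manifold
open MeasureTheory Metric

namespace Vale.Agent.P247

open Vale.Agent.P204 Vale.Agent.P204.Setup

universe u

variable {X : Type u} [TopologicalSpace X] [T2Space X] [CompactSpace X]
  [SecondCountableTopology X] [MeasurableSpace X] [BorelSpace X]

namespace NormAux

omit [CompactSpace X] [SecondCountableTopology X] [MeasurableSpace X] [BorelSpace X] in
theorem ex_int {s : Setup X} {b : Form X} (hb : Anti s b) (k : ℕ) :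
    ∃ (I : GF X) (β : ℝ), PmBd s I k β ∧ ∀ φ, s.Cont φ → I φ = s.Int φ b := by
  have hc := hb.smooth.cont
  obtain ⟨I, hI⟩ := LinearMap.exists_extend (ExSAux.IL hc)
  have e : ∀ φ, s.Cont φ → I φ = s.Int φ b := fun φ h => LinearMap.congr_fun hI ⟨φ, h⟩
  obtain ⟨C, h0, hC⟩ := s.abs_Int_le_sn
  have h1 : 0 ≤ ∑ j, ⨆ y : closedBall (0 : E) 1, ‖s.loc j b y‖ :=
    Finset.sum_nonneg fun j _ => Real.iSup_nonneg fun _ => norm_nonneg _
  have h2 : s.ppF b = 0 := by
    have := s.ppF_add_pmF b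
    rwa [hb.anti, add_eq_right] at this
  refine ⟨I, C * ∑ j, ⨆ y : closedBall (0 : E) 1, ‖s.loc j b y‖, fun φ h => ?_, e⟩
  rw [e φ h.cont, s.Int_split h.cont hc, h2, s.Int_comm _ 0, s.Int_zero_left, zero_add, hb.anti,
    mul_right_comm]
  exact (hC _ _ h.cont.pmF hc).trans (mul_le_mul_of_nonneg_right
    (mul_le_mul_of_nonneg_left (s.sn_mono (Nat.zero_le k) _) h0) h1)

end NormAux

theorem p_norm :
    S_norm X := by
  intro s a b c A k β x y h hA
  obtain ⟨I, β1, i1, i2⟩ := NormAux.ex_int h.hb k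
  obtain ⟨J, β2, j1, j2⟩ := NormAux.ex_int h.hc k
  have cb := h.hb.smooth.cont
  have cc := h.hc.smooth.cont
  refine ⟨A + ((x - A b) / s.Int b b) • I + ((y - A c) / s.Int c c) • J,
    β + |(x - A b) / s.Int b b| * β1 + |(y - A c) / s.Int c c| * β2, fun φ hφ => ?_, ?_, ?_,
    fun φ hφ h1 h2 => ?_⟩
  all_goals simp only [LinearMap.add_apply, LinearMap.smul_apply, smul_eq_mul]
  · refine (abs_add_three _ _ _).trans ?_
    rw [abs_mul, abs_mul, add_mul, add_mul, mul_assoc, mul_assoc]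
    exact add_le_add (add_le_add (hA φ hφ) (mul_le_mul_of_nonneg_left (i1 φ hφ) (abs_nonneg _)))
      (mul_le_mul_of_nonneg_left (j1 φ hφ) (abs_nonneg _))
  · rw [i2 b cb, j2 b cb, h.bc, div_mul_cancel₀ _ h.vb.ne']
    ring
  · rw [i2 c cc, j2 c cc, s.Int_comm c b, h.bc, div_mul_cancel₀ _ h.vc.ne']
    ring
  · rw [i2 φ hφ, j2 φ hφ, h1, h2]
    ring

end Vale.Agent.P247
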