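import Vale.Agent.P247.Stm

open scoped ContDiff RealInnerProductSpace Topology Manifold
open MeasureTheory Metric

namespace Vale.Agent.P247

open Vale.Agent.P204 Vale.Agent.P204.Setup

universe u

namespace PullLorAux

theorem pm_le {J J' : E →L[ℝ] E} (hJ : Near J) (hJ' : Near J') {x ψ : W} {δ θ : ℝ}
    (hJJ : ‖J - J'‖ ≤ δ) (hψ : pull J ψ = ψ) (hx : ‖x - ψ‖ ≤ 7 * δ * ‖ψ‖) (hθ : δ * ‖ψ‖ ≤ θ) :
    ‖pm J' x‖ ≤ 25 * θ := by
  have e : pm J' x = pm J' (x - ψ) - (pm J - pm J') ψ := by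
    rw [ContinuousLinearMap.sub_apply, pm_of_inv hψ, map_sub]
    abel
  have h1 : ‖pm J' (x - ψ)‖ ≤ 3 * ‖x - ψ‖ := (pm J').le_of_opNorm_le hJ'.norm_pm_le _
  have h2 : ‖(pm J - pm J') ψ‖ ≤ 4 * δ * ‖ψ‖ :=
    (pm J - pm J').le_of_opNorm_le ((hJ.norm_pm_sub_le hJ').trans (by linarith)) _
  rw [e]
  refine (norm_sub_le _ _).trans ?_
  linarith

theorem f_le {J J' : E →L[ℝ] E} (hJ : Near J) (hJ' : Near J') {δ : ℝ} (hJJ : ‖J - J'‖ ≤ δ) :
    ‖pull (Aop J) om0 - pull (Aop J') om0‖ ≤ 13 * δ := by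
  have h0 : 0 ≤ δ := (norm_nonneg _).trans hJJ
  have h1 : ‖pull (Aop J) - pull (Aop J')‖ ≤ 3 * (101 / 100 + 101 / 100) * δ := by
    refine (norm_pull_sub_le _ _).trans ?_
    have := hJ.norm_Aop_le
    have := hJ'.norm_Aop_le
    have := (norm_Aop_sub_Aop J J').trans hJJ
    gcongr
  have h2 := (pull (Aop J) - pull (Aop J')).le_of_opNorm_le h1 om0
  rw [ContinuousLinearMap.sub_apply] at h2
  refine h2.trans ?_
  nlinarith [norm_om0_le]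

theorem pos {x ψ f f' : W} {δ : ℝ} (hδ : δ ≤ 1 / 1000) (hψ : wedge ψ ψ = 1)
    (hx : ‖x - ψ‖ ≤ 7 * δ * ‖ψ‖) (hf : ‖f - f'‖ ≤ 13 * δ) (hf' : ‖f'‖ ≤ 8)
    (ht : ‖ψ‖ ≤ 8 * wedge ψ f) : 0 < wedge x f' := by
  have h0 : 0 < ‖ψ‖ := norm_pos_iff.2 fun h => by
    rw [h, wedge_zero_left] at hψ
    exact zero_ne_one hψ
  have e : wedge x f' = wedge (x - ψ) f' - wedge ψ (f - f') + wedge ψ f := by
    rw [wedge_sub_left, wedge_sub_right]
    ring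
  have h1 : |wedge (x - ψ) f'| ≤ 7 * δ * ‖ψ‖ * 8 :=
    (abs_wedge_le _ _).trans (mul_le_mul hx hf' (norm_nonneg _) ((norm_nonneg _).trans hx))
  have h2 : |wedge ψ (f - f')| ≤ ‖ψ‖ * (13 * δ) :=
    (abs_wedge_le _ _).trans (mul_le_mul_of_nonneg_left hf h0.le)
  have h3 := mul_le_mul_of_nonneg_right hδ h0.le
  rw [e]
  linarith [(abs_le.1 h1).1, (abs_le.1 h2).2]

end PullLorAux

theorem p_pullLor (h_lor1 : S_lor1) (h_trace : S_trace) (h_det : S_det) :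
    S_pullLor := by
  intro η h0 h1
  refine ⟨η / 1000, by positivity, fun J J' L ψ δ hJ hJ' hL hJJ hδ hψ hw hθ => ?_⟩
  obtain ⟨d1, d2, d3⟩ := h_det L δ hL (by linarith)
  obtain ⟨-, -, -, t4⟩ := h_trace J hJ
  obtain ⟨t1, -, t3, -⟩ := h_trace J' hJ'
  have hx := d3 ψ
  have hm := PullLorAux.pm_le hJ hJ' hJJ hψ.1 hx hθ
  have hs := hJ'.wedge_split (pull L ψ) (pull L ψ)
  rw [wedge_pull, hw, mul_one] at hs
  have h2 : wedge (pm J' (pull L ψ)) (pm J' (pull L ψ)) ≤ 25 * (η / 1000) * (25 * (η / 1000)) :=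
    (le_abs_self _).trans ((abs_wedge_le _ _).trans
      (mul_le_mul hm hm (norm_nonneg _) (by positivity)))
  have h3 : 1 - η / 10 ≤ wedge (pp J' (pull L ψ)) (pp J' (pull L ψ)) := by
    nlinarith [(abs_le.1 d1).1]
  have h4 := PullLorAux.pos (by linarith) hw hx (PullLorAux.f_le hJ hJ' hJJ) t3 (t4 ψ hψ)
  rw [hJ'.wedge_split, pm_of_inv t1.1, pp_of_inv t1.1, wedge_zero_right, add_zero] at h4
  refine ⟨⟨pull_pp hJ'.1 _, fun v => ?_⟩, ?_⟩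
  · rcases eq_or_ne v 0 with rfl | hv
    · rw [map_zero, ev_self]
    · exact (h_lor1 J' _ _ hJ' (pull_pp hJ'.1 _) t1 (by linarith) h4 v hv).le
  · have h5 : (1 - η) * ev (pull L om0) (eb 0) (eb 1) ≤ (1 - η) * (1 + η / 50) :=
      mul_le_mul_of_nonneg_left (by linarith [(abs_le.1 d2).2]) (by linarith)
    have h6 : (1 - η) * (1 + η / 50) ≤ 1 - η / 10 := by nlinarith
    refine (h5.trans h6).trans (Real.le_sqrt_of_sq_le ?_)
    nlinarith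

end Vale.Agent.P247
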