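import Vale.Agent.P247.Stm

open scoped ContDiff RealInnerProductSpace Topology Manifold
open MeasureTheory Metric

namespace Vale.Agent.P247

open Vale.Agent.P204 Vale.Agent.P204.Setup

universe u

namespace RegLAux

theorem dom_mono {X : Type u} [TopologicalSpace X] {s : Setup X}
    {K : Fin s.m → ℝ × E × E → W →L[ℝ] W} {B : GF X} {ε β β' : ℝ} (h : s.Dom K B ε β)
    (h0 : 0 ≤ β) (h1 : β ≤ β') : s.Dom K B ε β' := ⟨fun i => by
  obtain ⟨g, g1, g2, g3, g4⟩ := h.dom i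
  exact ⟨g, g1, g2, g3.trans (pow_le_pow_left₀ h0 h1 2), g4⟩⟩

theorem arith {Cs Ce Cb V b a κ ε Y : ℝ} (hCs : 0 ≤ Cs) (hCe : 0 ≤ Ce) (hb : 0 ≤ b) (ha : 0 ≤ a)
    (hκ : 0 < κ) (hε : 0 ≤ ε) (h1 : ε ≤ κ) (h2 : ε ≤ κ ^ 2 / (Ce + 1)) (hY : 1 ≤ Y) :
    Cs * ((Cb * b * Y * V + Ce * (b + ε * a)) / κ + (κ + ε + κ) * a) ≤
      Cs * ((Cb * V + Ce) / κ) * b * Y + 4 * Cs * κ * a := by
  rw [le_div_iff₀ (by positivity)] at h2
  have e1 : Ce * b ≤ Ce * b * Y := le_mul_of_one_le_right (by positivity) hY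
  have e2 : Ce * ε * a ≤ κ ^ 2 * a := mul_le_mul_of_nonneg_right (by nlinarith) ha
  have e3 : (Cb * b * Y * V + Ce * (b + ε * a)) / κ ≤ (Cb * V + Ce) / κ * b * Y + κ * a := by
    rw [div_le_iff₀ hκ]
    have : ((Cb * V + Ce) / κ * b * Y + κ * a) * κ = (Cb * V + Ce) * b * Y + κ ^ 2 * a := by
      field_simp
    rw [this]
    nlinarith
  have e4 : ε * a ≤ κ * a := mul_le_mul_of_nonneg_right h1 ha
  calc _ ≤ Cs * ((Cb * V + Ce) / κ * b * Y + 4 * κ * a) :=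
        mul_le_mul_of_nonneg_left (by nlinarith) hCs
    _ = _ := by ring

end RegLAux

variable {X : Type u} [TopologicalSpace X] [T2Space X] [CompactSpace X]
  [SecondCountableTopology X] [MeasurableSpace X] [BorelSpace X]

theorem p_reg (h_step : S_step X) (h_enbd : S_enbd X) :
    S_reg X := by
  intro s σ bb cc hσ hT k k'
  obtain ⟨Cf, hCf, hfin⟩ := s.abs_le_sn_of_Hn (k + 5)
  rcases isEmpty_or_nonempty (Fin s.m) with hm | ⟨⟨i₀⟩⟩
  · refine ⟨0, le_rfl, fun B A b b' _ _ hA _ _ _ φ hφ => ?_⟩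
    simpa using hfin k' A b' 0 le_rfl hA (fun i => (IsEmpty.false i).elim) φ hφ
  obtain ⟨M, K, R, N, ε₀, hM⟩ := Mo.exists_moll s
  have hk := hM.ker i₀
  have hR := hk.Rpos
  have hε₀ := hk.epos
  set k₀ : ℕ := max k k' with hk₀
  have hkk : k ≤ k₀ := le_max_left _ _
  have hkk' : k' ≤ k₀ := le_max_right _ _
  obtain ⟨Cs, hCs, ε₁, hε₁, hstep⟩ := h_step s M K R N ε₀ hM (k₀ + 6)
  obtain ⟨Ce, hCe, hen⟩ := h_enbd s M K R N ε₀ σ bb cc hM hT (k₀ + 6) k
  obtain ⟨Cl, hCl, hlf⟩ := s.lf_le_of_sn k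
  choose Ck' hCk' hkr using fun i => (hM.ker i).toSKer.norm_kreg_le k
  set V : ℝ := Real.sqrt (volume.real (closedBall (0 : E) 1)) with hV
  have hV0 : 0 ≤ V := Real.sqrt_nonneg _
  set Cb : ℝ := 3 * (∑ i, Ck' i) * Cl with hCb
  have hsum : 0 ≤ ∑ i, Ck' i := Finset.sum_nonneg fun i _ => hCk' i
  have hCb0 : 0 ≤ Cb := by positivity
  set lam' : ℝ := 8 * Cs + 2 with hlam
  have hl2 : 2 ≤ lam' := by linarith
  have hl0 : 0 < lam' := by linarith
  set κ : ℝ := (lam' ^ (k₀ + 6))⁻¹ with hκ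
  have hκ0 : 0 < κ := by positivity
  have hl11 : 1 ≤ lam' ^ (k₀ + 6) := one_le_pow₀ (by linarith)
  have hκ1 : κ ≤ 1 := inv_le_one_of_one_le₀ hl11
  set c : ℝ := ((k₀ + 6 : ℕ) : ℝ) * R with hc
  have hc0 : 0 ≤ c := by positivity
  set t₀ : ℝ := min (min (ε₁ / 2) (ε₀ / 2)) (min (min κ (κ ^ 2 / (Ce + 1))) (1 / (c + 1))) with ht₀
  have ht₀0 : 0 < t₀ := by positivity
  have t1 : t₀ ≤ ε₁ / 2 := (min_le_left _ _).trans (min_le_left _ _)
  have t2 : t₀ ≤ ε₀ / 2 := (min_le_left _ _).trans (min_le_right _ _)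
  have t3 : t₀ ≤ κ := (min_le_right _ _).trans ((min_le_left _ _).trans (min_le_left _ _))
  have t5 : t₀ ≤ κ ^ 2 / (Ce + 1) :=
    (min_le_right _ _).trans ((min_le_left _ _).trans (min_le_right _ _))
  have t4 : t₀ ≤ 1 / (c + 1) := (min_le_right _ _).trans (min_le_right _ _)
  have hq : 4 * Cs * κ * lam' ^ (k₀ + 5) ≤ 1 / 2 := by
    have e : κ * lam' ^ (k₀ + 5) = lam'⁻¹ := by
      rw [hκ]; field_simp; ring
    rw [mul_assoc, e, ← div_eq_mul_inv, div_le_iff₀ hl0]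
    linarith
  have hq0 : 4 * Cs * κ * lam' ^ (k + 4) ≤ 1 / 2 := by
    refine le_trans ?_ hq
    have : lam' ^ (k + 4) ≤ lam' ^ (k₀ + 5) := pow_le_pow_right₀ (by linarith) (by omega)
    gcongr
  choose Co hCo hlow using fun i =>
    (hM.ker i).lower_order (n := k₀ + 6) (p := k + 4) (by omega) ht₀0
  have hsumo : 0 ≤ ∑ i, Co i := Finset.sum_nonneg fun i _ => hCo i
  set C₁ : ℝ := 2 * (Cs * ((Cb * V + Ce) / κ)) * lam' ^ (k + 4) with hC₁
  have hC₁0 : 0 ≤ C₁ := by positivity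
  refine ⟨Cf * ((∑ i, Co i) * C₁), by positivity, fun B A b b' hb hB hA hZ hZb hZc φ hφ => ?_⟩
  have hAσ : A σ = 0 := by
    have h1 := hA σ hT.sa
    rw [hσ, s.sn_zero, mul_zero] at h1
    exact abs_nonpos_iff.1 h1
  have hBl := hlf B b hb hB
  have hDB : ∀ i, DistBd k₀ (s.lf B i) := fun i =>
    DistBd.mono ⟨Cl * b, fun θ hθ => hBl i θ hθ⟩ hkk
  have hDA : ∀ i, DistBd k₀ (s.lf A i) := fun i => (s.distBd_of_sn_pm hA i).mono hkk'
  have hAn : ∀ i, AntiF (s.Jl i) (s.lf A i) := fun i => s.antiF_of_sn_pm hA i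
  choose C₀ hC₀ h0 using fun i => (hDA i).lBd (n := k₀ + 6) (by omega)
  have hdom : ∀ ε ∈ Set.Ioc (0 : ℝ) 1, s.Dom K B ε (Cb * b * (ε ^ (k + 4))⁻¹ * V) := by
    intro ε hε
    have hε0 := hε.1
    refine ⟨fun i => ⟨fun _ => Cb * b * (ε ^ (k + 4))⁻¹, continuous_const,
      fun _ => by positivity, ?_, fun x _ => ?_⟩⟩
    · rw [setIntegral_const, mul_pow _ V, hV, Real.sq_sqrt measureReal_nonneg, smul_eq_mul,
        mul_comm]
    · have h1 := hkr i (s.lf B i) (Cl * b) (by positivity) (hBl i) ε hε x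
      have h5 : Ck' i ≤ ∑ j, Ck' j := Finset.single_le_sum (fun j _ => hCk' j) (Finset.mem_univ i)
      have h2 : 3 * ‖kreg (K i) (s.lf B i) ε x‖ ≤ Cb * b * (ε ^ (k + 4))⁻¹ := by
        calc 3 * ‖kreg (K i) (s.lf B i) ε x‖ ≤ 3 * ((∑ j, Ck' j) * (Cl * b) * (ε ^ (k + 4))⁻¹) := by
              refine mul_le_mul_of_nonneg_left (h1.trans ?_) (by norm_num)
              gcongr
          _ = _ := by rw [hCb]; ring
      have hn := norm_nonneg (kreg (K i) (s.lf B i) ε x)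
      have h3 : ‖kreg (K i) (s.lf B i) ε x‖ ≤ Cb * b * (ε ^ (k + 4))⁻¹ := by linarith
      refine ⟨h3.trans ?_, ?_, ?_⟩
      · exact le_mul_of_one_le_left (by positivity) (one_le_inv₀ hε0 |>.2 hε.2)
      · refine ((pm (s.Jl i x)).le_opNorm _).trans (le_trans ?_ h2)
        exact mul_le_mul_of_nonneg_right ((s.good i).near x).norm_pm_le hn
      · have h4 := abs_wedge_le (kreg (K i) (s.lf B i) ε x) (kreg (K i) (s.lf B i) ε x)
        have h6 := neg_abs_le (wedge (kreg (K i) (s.lf B i) ε x) (kreg (K i) (s.lf B i) ε x))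
        have h7 := mul_self_le_mul_self hn h3
        simp only [sq]
        linarith
  have key := boot (fun t r a => ∀ i, LBd (k₀ + 6) (s.lf A i) t r a) (k₀ + 5) (k + 4) (t₀ := t₀)
    (c := c) (C₀ := ∑ i, C₀ i) (C₁ := Cs * ((Cb * V + Ce) / κ) * b) (q := 4 * Cs * κ) (lam := lam')
    ht₀0 hc0
    (by
      rw [le_div_iff₀ (by positivity)] at t4
      nlinarith)
    hl2 (by positivity) (Finset.sum_nonneg fun i _ => hC₀ i) (by positivity) hq hq0
    (fun t r r' a hr H i => (H i).mono_r hr)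
    (fun t r a a' ht ha H i => (H i).mono_a ht.le ha)
    (fun t r a H i => LBd.of_forall fun η hη => H η hη i)
    (fun t ht i => by
      have ht1 : t ∈ Set.Ioc (0 : ℝ) 1 := ⟨ht.1, ht.2.trans (t3.trans hκ1)⟩
      refine (h0 i t ht1).mono_a ht.1.le ?_
      have := ht.1
      have h5 : C₀ i ≤ ∑ j, C₀ j := Finset.single_le_sum (fun j _ => hC₀ j) (Finset.mem_univ i)
      gcongr)
    (fun ε hε r a hr hr3 ha H i => by
      have hε0 := hε.1
      have hε1 : ε ∈ Set.Ioc (0 : ℝ) 1 := ⟨hε.1, hε.2.trans (t3.trans hκ1)⟩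
      have hεε : ε < ε₀ := by linarith [hε.2]
      have hX : 1 ≤ (ε ^ (k + 4))⁻¹ := (one_le_inv₀ (by positivity)).2 (pow_le_one₀ hε0.le hε1.2)
      have hb1 : 0 ≤ Cb * b * (ε ^ (k + 4))⁻¹ * V := by positivity
      have hb2 : 0 ≤ Ce * (b + ε * a) := by positivity
      have hcε : 0 ≤ c * ε := by positivity
      have hs := hstep k₀ B A hDB hDA hAn ε ⟨hε.1, by linarith [hε.2]⟩ hεε
        (Cb * b * (ε ^ (k + 4))⁻¹ * V + Ce * (b + ε * a)) a lam' κ r (by positivity) ha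
        (by linarith) hκ0 hκ1 hr hr3 (RegLAux.dom_mono (hdom ε hε1) hb1 (by linarith))
        (fun G G' hG hG' => (hen B A b hb hB hAσ hZ hZb hZc ε ⟨hε0, hεε⟩ a ha
          (fun j => (H j).mono_r (by linarith)) G G' hG hG').trans
          (pow_le_pow_left₀ hb2 (by linarith) 2)) H i
      refine hs.mono_a (by positivity) ?_
      rw [← hκ]
      exact RegLAux.arith hCs hCe hb ha hκ0 hε0.le (hε.2.trans t3) (hε.2.trans t5) hX)
  have hH : ∀ i θ, Test 1 θ → |s.lf A i θ| ≤ (∑ j, Co j) * C₁ * b * Hn (k + 5) θ := by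
    intro i θ hθ
    have h1 := hlow i (s.lf A i) (C₁ * b) (by positivity) (fun t ht => by
      refine (key t ht i).mono_a ht.1.le (le_of_eq ?_)
      rw [hC₁]; ring) θ hθ
    have h5 : Co i ≤ ∑ j, Co j := Finset.single_le_sum (fun j _ => hCo j) (Finset.mem_univ i)
    have h6 := Hn_nonneg (k + 5) θ
    calc |s.lf A i θ| ≤ Co i * (C₁ * b) * Hn (k + 5) θ := h1
      _ ≤ (∑ j, Co j) * (C₁ * b) * Hn (k + 5) θ := by gcongr
      _ = _ := by ring
  refine (hfin k' A b' _ (by positivity) hA hH φ hφ).trans (le_of_eq ?_)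
  ring

end Vale.Agent.P247
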