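import Vale.Agent.P247.Stm

open scoped ContDiff RealInnerProductSpace Topology Manifold
open MeasureTheory Metric

namespace Vale.Agent.P247

open Vale.Agent.P204 Vale.Agent.P204.Setup

universe u

variable {X : Type u} [TopologicalSpace X] [T2Space X] [CompactSpace X]
  [SecondCountableTopology X] [MeasurableSpace X] [BorelSpace X]

theorem p_restr (h_phi : S_phi X) (h_rhoLoc : S_rhoLoc X) :
    S_restr X := by
  intro s a c T T' μ ν A κ _ hc hμ hT hA hE hap hκ hlow φ hφ hp
  have := hT.fin
  obtain ⟨C₁, hC₁, h1⟩ := hap φ hφ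
  have hρ : Continuous (rho s c φ) := (h_rhoLoc s c hc).2 φ hφ
  have h3' := (h_phi s c hc).2.2.1
  constructor
  · obtain ⟨K, hK⟩ := PolarAux.Int_err (μ := μ) hA hE (hc.smooth.cont.fun_smul hρ) hc.smooth.cont
    refine le_of_forall_pos_le_add fun ε hε => ?_
    have hη : 0 < ε / (C₁ + κ * |K| + 1) := by positivity
    obtain ⟨g, hg, g0, g1, hgη⟩ := exists_approx (ν + ∑ j, PolarAux.nu s j) hA hη
    have hm : ∀ ν' : Measure X, ν' ≤ ν + ∑ j, PolarAux.nu s j →
        ∫ x, |g x - A.indicator 1 x| ∂ν' ≤ ε / (C₁ + κ * |K| + 1) := fun ν' hν =>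
      (integral_mono_measure hν (ae_of_all _ fun _ => abs_nonneg _)
        (PolarAux.int_err _ hA hg g0 g1)).trans hgη
    have h2 := (h1 g hg).trans (mul_le_mul_of_nonneg_left
      (hm ν (Measure.le_add_right le_rfl)) hC₁)
    have h3 := hK g hg g0 g1 _ fun j => hm _ (Measure.le_add_left
      (Finset.single_le_sum (f := fun j => PolarAux.nu s j) (fun _ _ => bot_le)
        (Finset.mem_univ j)))
    have h4 := hlow _ (hφ.fun_smul hg) fun x b => by
      rw [ev_smul]
      exact mul_nonneg (g0 x) (hp x b)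
    have e : Phi s c (fun x => g x • φ x) = s.Int (fun x => g x • rho s c φ x • c x) c := by
      unfold Phi
      refine congrArg (fun ψ => s.Int ψ c) (funext fun x => ?_)
      rw [h3' g φ x (g0 x), mul_smul]
    rw [e] at h4
    have h5 : (C₁ + κ * |K| + 1) * (ε / (C₁ + κ * |K| + 1)) = ε :=
      mul_div_cancel₀ _ (by positivity)
    have h6 := mul_le_mul_of_nonneg_left
      (h3.trans (mul_le_mul_of_nonneg_right (le_abs_self K) hη.le)) hκ
    have h7 := (abs_le.1 h2).1
    unfold Phi
    generalize ε / (C₁ + κ * |K| + 1) = η at h5 h6 h7 hη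
    linarith
  · refine le_of_forall_pos_le_add fun ε hε => ?_
    have hη : 0 < ε / (C₁ + 1) := by positivity
    obtain ⟨g, hg, _, g1, hgη⟩ := exists_approx ν hA hη
    have h2 := (h1 g hg).trans (mul_le_mul_of_nonneg_left hgη hC₁)
    have h4 := hT.pos _ (hφ.fun_smul (f := fun x => 1 - g x) (continuous_const.sub hg))
      fun x b => by
        rw [ev_smul]
        exact mul_nonneg (sub_nonneg.2 (g1 x)) (hp x b)
    have e : (fun x => (1 - g x) • φ x) = φ - fun x => g x • φ x := by
      funext x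
      rw [sub_smul, one_smul]
      rfl
    rw [e, map_sub] at h4
    have h5 : (C₁ + 1) * (ε / (C₁ + 1)) = ε := mul_div_cancel₀ _ (by positivity)
    have h7 := (abs_le.1 h2).2
    generalize ε / (C₁ + 1) = η at h5 h7 hη
    linarith

end Vale.Agent.P247
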