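import Vale.Agent.P247.Stm

open scoped ContDiff RealInnerProductSpace Topology Manifold
open MeasureTheory Metric

namespace Vale.Agent.P247

open Vale.Agent.P204 Vale.Agent.P204.Setup

universe u

variable {X : Type u} [TopologicalSpace X] [T2Space X] [CompactSpace X]
  [SecondCountableTopology X] [MeasurableSpace X] [BorelSpace X]

theorem p_rhoLoc :
    S_rhoLoc X := by
  intro s c hc
  have pos : ∀ i, ∀ y ∈ ball (0 : E) 10, 0 < wedge (s.loc i c y) (s.loc i c y) := by
    intro i y hy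
    rw [mem_ball_zero_iff] at hy
    have h1 := s.loc_pmF i c hy
    rw [hc.anti] at h1
    have h2 := pull_pm ((s.good i).near y).1 (s.loc i c y)
    rw [← h1] at h2
    refine lt_of_lt_of_le (half_pos (pow_pos (norm_pos_iff.2 fun h0 => ?_) 2))
      (((s.good i).near y).wedge_anti h2)
    have h3 := Mo.pull_loc s i c (s.symm_mem_source i hy)
    rw [s.apply_symm i hy, h0, map_zero] at h3
    exact hc.nz _ h3.symm
  have frm : ∀ i, ∀ y ∈ ball (0 : E) 10, ∀ φ, rho s c φ ((s.ψ i).symm y) =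
      Real.sqrt (wedge (s.loc i (s.ppF φ) y) (s.loc i (s.ppF φ) y) /
        wedge (s.loc i c y) (s.loc i c y)) := by
    intro i y hy φ
    have h1 := (pos i y hy).ne'
    have e : ∀ f : Form X, wedge (s.loc i f y) (s.loc i f y) = (s.P i ((s.ψ i).symm y)).det *
        wedge (f ((s.ψ i).symm y)) (f ((s.ψ i).symm y)) := fun f => wedge_pull _ _ _
    rw [e] at h1
    rw [e, e, mul_div_mul_left _ _ (left_ne_zero_of_mul h1), rho]
  refine ⟨fun i y hy => ⟨pos i y hy, fun φ => ?_⟩, fun φ hφ => ?_⟩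
  · rw [frm i y hy, s.loc_ppF i φ (mem_ball_zero_iff.1 hy)]
  · refine continuous_iff_continuousAt.2 fun x => ?_
    obtain ⟨i, hx, -⟩ := s.cover_lt x
    have h1 := ((AtlasIntAux.contOn_wedge (hφ.ppF i) (hφ.ppF i)).div
      (AtlasIntAux.contOn_wedge (hc.smooth.cont i) (hc.smooth.cont i))
      fun y hy => (pos i y hy).ne').sqrt
    have h2 := (h1.continuousAt (isOpen_ball.mem_nhds
      (mem_ball_zero_iff.2 (s.norm_lt_of_mem i hx)))).comp ((s.ψ i).continuousAt hx)
    refine h2.congr ?_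
    filter_upwards [(s.ψ i).open_source.mem_nhds hx] with z hz
    have h3 := frm i _ (mem_ball_zero_iff.2 (s.norm_lt_of_mem i hz)) φ
    rw [(s.ψ i).left_inv hz] at h3
    exact h3.symm

theorem p_phiGlob (h_rhoLoc : S_rhoLoc X) :
    S_phiGlob X := by
  intro s c hc i θ hθ
  have h1 := (h_rhoLoc s c hc).1 i
  have hw : CTest 9 fun y => Real.sqrt (wedge (pp (s.Jl i y) (θ y)) (pp (s.Jl i y) (θ y))) := by
    have h2 := hθ.clm_apply (A := fun y => pp (s.Jl i y))
      ((contDiff_pp (n := 0)).continuous.comp (s.good i).smooth.continuous)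
    exact ⟨((contDiff_wedge2 (n := 0)).continuous.comp (h2.1.prodMk h2.1)).sqrt, fun y hy => by
      simp only [hθ.2 y hy, map_zero, wedge_zero_left, Real.sqrt_zero]⟩
  have hh := hw.smul_continuousOn (r' := 10)
    (θ := fun y => (Real.sqrt (wedge (s.loc i c y) (s.loc i c y)))⁻¹) (by norm_num)
    ((AtlasIntAux.contOn_wedge (hc.smooth.cont i) (hc.smooth.cont i)).sqrt.inv₀
      fun y hy => (Real.sqrt_pos.2 (h1 y hy).1).ne')
  have e : rho s c (s.glob i θ) = s.glob0 i fun y =>
      Real.sqrt (wedge (pp (s.Jl i y) (θ y)) (pp (s.Jl i y) (θ y))) •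
        (Real.sqrt (wedge (s.loc i c y) (s.loc i c y)))⁻¹ := by
    funext x
    by_cases hx : x ∈ (s.ψ i).source
    · have hy := s.norm_lt_of_mem i hx
      obtain ⟨k1, k2⟩ := h1 _ (mem_ball_zero_iff.2 hy)
      have k3 := k2 (s.glob i θ)
      rw [(s.ψ i).left_inv hx, Mo.loc_glob s i θ hy, Real.sqrt_div' _ k1.le] at k3
      rw [k3, glob0, if_pos hx, smul_eq_mul, div_eq_mul_inv]
    · have : s.glob i θ x = 0 := if_neg hx
      rw [glob0, if_neg hx, rho, ppF, this, map_zero, wedge_zero_left, zero_div, Real.sqrt_zero]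
  rw [Phi, e, s.glob0_smul, s.Int_glob i (hc.smooth.cont.ctest_smul i hh (by norm_num))
    hc.smooth.cont]
  refine integral_congr_ae (Filter.Eventually.of_forall fun y => ?_)
  by_cases hy : ‖y‖ < 10
  · have k1 := (h1 y (mem_ball_zero_iff.2 hy)).1
    have k2 := Real.sqrt_pos.2 k1
    simp only [wedge_smul_left, smul_eq_mul]
    rw [Real.sqrt_mul k1.le, mul_assoc, mul_comm, inv_mul_eq_div, Real.div_sqrt]
  · simp only [hθ.2 y (by linarith), map_zero, wedge_zero_left, Real.sqrt_zero, mul_zero,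
      zero_smul]

end Vale.Agent.P247
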