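import Vale.Agent.P204.Defs

/-! Hypersymplectic structures on a manifold `X` modelled on `E`; `b` is a basis of `E`. -/

open scoped Manifold ContDiff
open MeasureTheory

namespace Vale.Agent.P247.HS

open Vale.Agent.P204

/-- The value `(σ ∧ τ)(b₀, b₁, b₂, b₃)` of the wedge product of two alternating bilinear forms. -/
def wedgeVal {V : Type*} (σ τ : V → V → ℝ) (b : Fin 4 → V) : ℝ :=
  σ (b 0) (b 1) * τ (b 2) (b 3) - σ (b 0) (b 2) * τ (b 1) (b 3) +
    σ (b 0) (b 3) * τ (b 1) (b 2) + σ (b 1) (b 2) * τ (b 0) (b 3) -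
    σ (b 1) (b 3) * τ (b 0) (b 2) + σ (b 2) (b 3) * τ (b 0) (b 1)

/-- The standard basis of `ℝ⁴`. -/
noncomputable def stdBasis (i : Fin 4) : EuclideanSpace ℝ (Fin 4) := EuclideanSpace.single i 1

variable {E : Type*} [NormedAddCommGroup E] [NormedSpace ℝ E]
  {X : Type*} [TopologicalSpace X] [ChartedSpace E X]

variable (E X) in
/-- Fields of alternating four-forms on the tangent spaces. -/
abbrev TopForm : Type _ := ∀ x : X, TangentSpace 𝓘(ℝ, E) x [⋀^Fin 4]→L[ℝ] ℝ

/-- The coefficient of the four-form `μ` in the chart `e`, at the point `z` of the target. -/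
noncomputable def volCoef (b : Fin 4 → E) (μ : TopForm E X) (e : OpenPartialHomeomorph X E)
    (z : E) : ℝ :=
  μ (e.symm z) fun i => mfderiv 𝓘(ℝ, E) 𝓘(ℝ, E) e.symm z (b i)

/-- `μ` is a volume form: a smooth four-form without zeros. It orients `X`. -/
structure IsVolumeForm (b : Fin 4 → E) (μ : TopForm E X) : Prop where
  ne : ∀ x, μ x ≠ 0
  smooth : ∀ e ∈ atlas E X, ContDiffOn ℝ ∞ (volCoef b μ e) e.target

/-- `ν` is the measure of the volume form `μ`. -/
def IsVolumeMeasure [MeasureSpace E] [MeasurableSpace X] (b : Fin 4 → E) (μ : TopForm E X)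
    (ν : Measure X) : Prop :=
  ∀ e ∈ atlas E X, ∀ A : Set E, MeasurableSet A → A ⊆ e.target →
    ν (e.symm '' A) = ∫⁻ z in A, ENNReal.ofReal |volCoef b μ e z|

/-- `σ` is a smooth closed two-form. -/
structure IsClosedTwoForm (σ : BilField E X) : Prop where
  alt : ∀ x v, σ x v v = 0
  smooth : ∀ e ∈ atlas E X, ∀ u v, ContDiffOn ℝ ∞ (coef σ e u v) e.target
  closed : ∀ e ∈ atlas E X, ∀ z ∈ e.target, ∀ u v w,
    fderiv ℝ (coef σ e v w) z u + fderiv ℝ (coef σ e w u) z v + fderiv ℝ (coef σ e u v) z w = 0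

/-- The function `f` with `σ ∧ τ = f μ`. -/
noncomputable def ratio (b : Fin 4 → E) (μ : TopForm E X) (σ τ : BilField E X) (x : X) : ℝ :=
  wedgeVal (fun u v => σ x u v) (fun u v => τ x u v) b / μ x b

/-- The integral of `σ ∧ τ` over `X`. -/
noncomputable def pairing [MeasurableSpace X] (b : Fin 4 → E) (μ : TopForm E X) (ν : Measure X)
    (σ τ : BilField E X) : ℝ :=
  ∫ x, ratio b μ σ τ x ∂ν

/-- `om` is a hypersymplectic structure: three closed two-forms whose matrix of wedge products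
is positive definite at every point. -/
structure IsHyper (b : Fin 4 → E) (μ : TopForm E X) (om : Fin 3 → BilField E X) : Prop where
  form : ∀ i, IsClosedTwoForm (om i)
  pos : ∀ x, ∀ r : Fin 3 → ℝ, r ≠ 0 → 0 < ∑ i, ∑ j, r i * r j * ratio b μ (om i) (om j) x

/-- `Om` is a smooth family of hypersymplectic structures that starts at `om`. -/
structure IsFamily (b : Fin 4 → E) (μ : TopForm E X) (om : Fin 3 → BilField E X)
    (Om : ℝ → Fin 3 → BilField E X) : Prop where
  smooth : ∀ i, ∀ e ∈ atlas E X, ∀ u v,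
    ContDiffOn ℝ ∞ (fun p : ℝ × E => coef (Om p.1 i) e u v p.2) (Set.univ ×ˢ e.target)
  start : Om 0 = om
  hyp : ∀ t ∈ Set.Icc (0 : ℝ) 1, IsHyper b μ (Om t)

/-- `σ` and `τ` have the same pairing with every closed two-form. -/
def SameClass [MeasurableSpace X] (b : Fin 4 → E) (μ : TopForm E X) (ν : Measure X)
    (σ τ : BilField E X) : Prop :=
  ∀ φ, IsClosedTwoForm φ → pairing b μ ν σ φ = pairing b μ ν τ φ

/-- The wedge products of different members of the triple vanish identically. -/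
def IsOrth (b : Fin 4 → E) (μ : TopForm E X) (om : Fin 3 → BilField E X) : Prop :=
  ∀ i j, i ≠ j → ∀ x, ratio b μ (om i) (om j) x = 0

end Vale.Agent.P247.HS
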