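import Vale.Agent.P247.Stm

open scoped ContDiff RealInnerProductSpace Topology Manifold
open MeasureTheory Metric

namespace Vale.Agent.P247

open Vale.Agent.P204 Vale.Agent.P204.Setup

universe u

namespace SignAux

open Alg1Aux

/-- The discriminant of the invariant part. -/
noncomputable def dd (a : W) : ℝ := a 0 * a 5 - ((a 1 + a 4) / 2) ^ 2 - ((a 2 - a 3) / 2) ^ 2

theorem anti {b : W} (h : pull J0 b = -b) : b 0 = 0 ∧ b 5 = 0 ∧ b 4 = -b 1 ∧ b 3 = b 2 := by
  have h0 : ev b (J0 (eb 0)) (J0 (eb 1)) = -b 0 := congrArg (fun w : W => w 0) h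
  have h1 : ev b (J0 (eb 0)) (J0 (eb 2)) = -b 1 := congrArg (fun w : W => w 1) h
  have h2 : ev b (J0 (eb 0)) (J0 (eb 3)) = -b 2 := congrArg (fun w : W => w 2) h
  have h5 : ev b (J0 (eb 2)) (J0 (eb 3)) = -b 5 := congrArg (fun w : W => w 5) h
  simp [ev, j0, j1, j2, j3, eb] at h0 h1 h2 h5
  exact ⟨by linarith, by linarith, h1, h2⟩

theorem wed {b c : W} (hb : pull J0 b = -b) (hc : pull J0 c = -c) (a : W) (x y z : ℝ) :
    wedge (x • a + y • b + z • c) (x • a + y • b + z • c) = 2 * (x ^ 2 * dd a +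
      (x * ((a 1 - a 4) / 2) + y * b 1 + z * c 1) ^ 2 +
      (x * ((a 2 + a 3) / 2) + y * b 2 + z * c 2) ^ 2) := by
  obtain ⟨b0, b5, b4, b3⟩ := anti hb
  obtain ⟨c0, c5, c4, c3⟩ := anti hc
  simp only [wedge, dd, PiLp.add_apply, PiLp.smul_apply, smul_eq_mul, b0, b5, b4, b3, c0, c5, c4, c3]
  ring

theorem m_pos {m : ℝ} {a b c : W} (h : Def3 m a b c) (hb : pull J0 b = -b) (hc : pull J0 c = -c) :
    0 < m := by
  have := h 0 1 0 (by simp)
  rw [wed hb hc] at this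
  rcases div_pos_iff.1 this with k | k
  · exact k.2
  · nlinarith [k.1, sq_nonneg (b 1), sq_nonneg (b 2)]

theorem dd_pos {m : ℝ} {a b c : W} (h : Def3 m a b c) (hb : pull J0 b = -b)
    (hc : pull J0 c = -c) : 0 < dd a := by
  have hm := m_pos h hb hc
  have k : ∀ x y z : ℝ, (x ≠ 0 ∨ y ≠ 0 ∨ z ≠ 0) → 0 < x ^ 2 * dd a +
      (x * ((a 1 - a 4) / 2) + y * b 1 + z * c 1) ^ 2 +
      (x * ((a 2 + a 3) / 2) + y * b 2 + z * c 2) ^ 2 := fun x y z e => by
    have := h x y z e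
    rw [wed hb hc, div_pos_iff_of_pos_right hm] at this
    linarith
  have d : b 1 * c 2 - b 2 * c 1 ≠ 0 := fun e => by
    by_cases h1 : b 1 = 0
    · by_cases h2 : b 2 = 0
      · simpa [h1, h2] using k 0 1 0 (by simp)
      · have := k 0 (c 2) (-b 2) (by simp [h2])
        rw [show 0 * ((a 1 - a 4) / 2) + c 2 * b 1 + -b 2 * c 1 = 0 by linarith] at this
        nlinarith
    · have := k 0 (c 1) (-b 1) (by simp [h1])
      rw [show 0 * ((a 2 + a 3) / 2) + c 1 * b 2 + -b 1 * c 2 = 0 by linarith] at this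
      nlinarith
  have := k _ ((a 2 + a 3) / 2 * c 1 - (a 1 - a 4) / 2 * c 2)
    ((a 1 - a 4) / 2 * b 2 - (a 2 + a 3) / 2 * b 1) (Or.inl d)
  refine pos_of_mul_pos_right (a := (b 1 * c 2 - b 2 * c 1) ^ 2) ?_ (by positivity)
  linarith

theorem qf (a : W) (v : E) : a 0 * ev a v (J0 v) =
    (a 0 * v 0 + (a 2 - a 3) / 2 * v 2 - (a 1 + a 4) / 2 * v 3) ^ 2 +
      (a 0 * v 1 + (a 1 + a 4) / 2 * v 2 + (a 2 - a 3) / 2 * v 3) ^ 2 +
      dd a * (v 2 ^ 2 + v 3 ^ 2) := by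
  simp only [ev, dd, j0, j1, j2, j3]
  ring

theorem qf_pos {a : W} (h : 0 < dd a) {v : E} (hv : v ≠ 0) : 0 < a 0 * ev a v (J0 v) := by
  rw [qf]
  by_cases e : v 2 ^ 2 + v 3 ^ 2 = 0
  · have e2 : v 2 = 0 := by nlinarith
    have e3 : v 3 = 0 := by nlinarith
    have n := normE v
    have p := pow_pos (norm_pos_iff.2 hv) 2
    have a0 : a 0 ≠ 0 := fun k => by
      rw [dd, k] at h
      nlinarith [sq_nonneg ((a 1 + a 4) / 2), sq_nonneg ((a 2 - a 3) / 2)]
    have := mul_pos (sq_pos_of_ne_zero a0) p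
    rw [n, e2, e3] at this
    rw [e2, e3]
    linarith
  · have := mul_pos h (lt_of_le_of_ne (by positivity) (Ne.symm e))
    positivity

theorem pos_dd {a : W} (h : ∀ v, v ≠ 0 → 0 < ev a v (J0 v)) : 0 < dd a := by
  have h1 := h !₂[1, 0, 0, 0] fun k => by simpa using congrArg (fun v : E => v 0) k
  have h2 : 0 < a 0 := by simpa [ev, j0, j1, j2, j3] using h1
  have h3 := mul_pos h2 (h !₂[-((a 2 - a 3) / 2), -((a 1 + a 4) / 2), a 0, 0] fun k => h2.ne' (by
    simpa using congrArg (fun v : E => v 2) k))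
  rw [qf] at h3
  refine pos_of_mul_pos_right (a := a 0 ^ 2) ?_ (by positivity)
  simp only [Matrix.cons_val_zero, Matrix.cons_val_one, Matrix.cons_val] at h3
  linarith

theorem red {J : E →L[ℝ] E} (hJ : ∀ v, J (J v) = -v) : ∃ (B : E →L[ℝ] E) (d : ℝ), d ≠ 0 ∧
    Function.Bijective B ∧ (∀ a, pull J0 (pull B a) = pull B (pull J a)) ∧
    (∀ a v, ev (pull B a) v (J0 v) = ev a (B v) (J (B v))) ∧
    (∀ a b, wedge (pull B a) (pull B b) = d * wedge a b) ∧
    ∀ m a b c, Def3 (d * m) (pull B a) (pull B b) (pull B c) ↔ Def3 m a b c := by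
  obtain ⟨L, hL⟩ := Mo.exists_conj hJ
  have h3 : ∀ u, L.symm (J0 u) = J (L.symm u) := fun u => by
    rw [L.symm_apply_eq, hL, L.apply_symm_apply]
  have d0 : (L.symm : E →L[ℝ] E).det ≠ 0 :=
    (LinearEquiv.isUnit_det' L.symm.toLinearEquiv).ne_zero
  refine ⟨L.symm, _, d0, L.symm.bijective, fun a => ext_ev fun u v => ?_, fun a v => ?_,
    wedge_pull _, fun m a b c => forall₃_congr fun x y z => imp_congr_right fun _ => ?_⟩
  · simp only [ev_pull, ContinuousLinearEquiv.coe_coe, h3]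
  · simp only [ev_pull, ContinuousLinearEquiv.coe_coe, h3]
  · rw [← map_smul, ← map_smul, ← map_smul, ← map_add, ← map_add, wedge_pull, mul_div_mul_left _ _ d0]

end SignAux

theorem p_sign :
    S_sign := by
  intro m J a b c h hJ hb hc v v' hv hv'
  obtain ⟨B, d, -, bj, r1, r2, -, r4⟩ := SignAux.red hJ
  obtain ⟨u, rfl⟩ := bj.2 v
  obtain ⟨u', rfl⟩ := bj.2 v'
  have k := SignAux.dd_pos ((r4 m a b c).2 h) (by rw [r1, hb, map_neg]) (by rw [r1, hc, map_neg])
  have k1 := SignAux.qf_pos k (v := u) (by rintro rfl; exact hv (map_zero B))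
  have k2 := SignAux.qf_pos k (v := u') (by rintro rfl; exact hv' (map_zero B))
  rw [← r2, ← r2]
  refine pos_of_mul_pos_right (a := pull B a 0 ^ 2) ?_ (by positivity)
  linarith [mul_pos k1 k2]

theorem p_pd :
    S_pd := by
  intro m J a b c a' h ⟨hJ, hb, hc, _⟩ ha
  obtain ⟨B, d, d0, bj, r1, r2, r3, r4⟩ := SignAux.red hJ
  have b' : pull J0 (pull B b) = -pull B b := by rw [r1, hb, map_neg]
  have c' : pull J0 (pull B c) = -pull B c := by rw [r1, hc, map_neg]
  have hm := SignAux.m_pos ((r4 m a b c).2 h) b' c'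
  have k : 0 < SignAux.dd (pull B a') := SignAux.pos_dd fun v hv => by
    rw [r2]
    exact ha _ fun e => hv (bj.1 (e.trans (map_zero B).symm))
  refine ⟨(r4 m a' b c).1 fun x y z e => ?_, fun e => ?_⟩
  · by_cases hx : x = 0
    · have := (r4 m a b c).2 h x y z e
      subst hx
      rwa [zero_smul] at this ⊢
    · rw [SignAux.wed b' c']
      positivity
  · obtain ⟨a1, a2⟩ := Alg3Aux.inv_coef (a := pull B a') (by rw [r1, e])
    have w : ∀ f, pull J0 (pull B f) = -pull B f → wedge a' f = 0 := fun f hf => by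
      obtain ⟨f0, f5, f4, f3⟩ := SignAux.anti hf
      refine (mul_eq_zero.1 ((r3 a' f).symm.trans ?_)).resolve_left d0
      rw [wedge, f0, f5, f4, f3, a1, a2]
      ring
    exact ⟨w b b', w c c'⟩

end Vale.Agent.P247
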