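import Vale.Agent.P247.Stm

open scoped ContDiff RealInnerProductSpace Topology Manifold
open MeasureTheory Metric

namespace Vale.Agent.P247

open Vale.Agent.P204 Vale.Agent.P204.Setup GStepAux

universe u

variable {X : Type u} [TopologicalSpace X] [T2Space X]

namespace StepBAux

variable {s : Setup X} {M : ℝ → Form X → Form X} {K : Fin s.m → ℝ × E × E → W →L[ℝ] W}
  {R N ε₀ : ℝ}

theorem pm_sq_le (hM : s.Moll M K R N ε₀) (n : ℕ) : ∃ C : ℝ, 0 ≤ C ∧ ∃ ε₁ > (0 : ℝ),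
    ∀ (k : ℕ) (B A : GF X), (∀ i, DistBd k (s.lf B i)) → (∀ i, DistBd k (s.lf A i)) →
      (∀ i, AntiF (s.Jl i) (s.lf A i)) →
      ∀ ε ∈ Set.Ioo 0 ε₁, ε < ε₀ → ∀ β a : ℝ, 0 ≤ β → 0 ≤ a → s.Dom K B ε β →
        (∀ G G', s.IsReg M K ε B G → s.IsReg M K ε A G' →
          s.Int G G + 2 * s.Int G G' + s.Int G' G' ≤ β ^ 2) →
        (∀ i, LBd n (s.lf A i) ε 2 a) → ∀ i,
          ∫ x in closedBall (0 : E) 3, ‖pm (s.Jl i x) (kreg (K i) (s.lf A i) ε x)‖ ^ 2 ≤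
            (C * (β + Real.sqrt (β * a) + ε * a)) ^ 2 := by
  choose C hC0 hC using fun i => (hM.ker i).anti_est (s.good i) n
  obtain ⟨ε₁, h1, hR⟩ := hM.exists_reg
  have hs0 : 0 ≤ ∑ i, C i := Finset.sum_nonneg fun i _ => hC0 i
  have hle : ∀ i, C i ≤ ∑ i, C i := fun i =>
    Finset.single_le_sum (fun j _ => hC0 j) (Finset.mem_univ i)
  refine ⟨2 * (s.m + 1) * (1 + 12 * (∑ i, C i) + (∑ i, C i) ^ 2) + 1, by positivity, ε₁, h1,
    fun k B A hB hA hA' ε hε hε' β a hβ ha hD hZ hL i => ?_⟩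
  have hε₀ : ε ∈ Set.Ioo 0 ε₀ := ⟨hε.1, hε'⟩
  obtain ⟨G, hG⟩ := hR ε hε hε' k B hB
  obtain ⟨G', hG'⟩ := hR ε hε hε' k A hA
  have e1 := hZ G G' hG hG'
  have e2 := s.Int_split hG'.smooth.cont hG'.smooth.cont
  have hpp : ∀ j, ∀ y ∈ closedBall (0 : E) 3, s.loc j (s.ppF G') y =
      pp (s.Jl j y) (kreg (K j) (s.lf A j) ε y) := fun j y hy => by
    rw [s.loc_ppF j G' (by linarith [mem_closedBall_zero_iff.1 hy]), hG'.loc j y hy]
  have key : -s.Int G G - 2 * s.Int G G' - s.Int (s.ppF G') (s.ppF G') ≤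
      s.m * (β ^ 2 + 12 * (β * ((∑ i, C i) * a)) + (ε * ((∑ i, C i) * a)) ^ 2) := by
    rw [Int_eq s hG.loc hG.loc, Int_eq s hG.loc hG'.loc, Int_eq s hpp hpp, Finset.mul_sum,
      ← Finset.sum_neg_distrib, ← Finset.sum_sub_distrib, ← Finset.sum_sub_distrib]
    refine (Finset.sum_le_card_nsmul _ _ _ fun j _ => ?_).trans
      (by rw [Finset.card_univ, Fintype.card_fin, nsmul_eq_mul])
    obtain ⟨h, hh, hh0, i1, d⟩ := hD.dom j
    obtain ⟨i2, i3⟩ := hC j k _ (hA j) (hA' j) ε hε₀ a ha (hL j)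
    have m1 : C j * a ≤ (∑ i, C i) * a := mul_le_mul_of_nonneg_right (hle j) ha
    have m0 : 0 ≤ C j * a := mul_nonneg (hC0 j) ha
    refine loc_est (s.good j) (s.c_test j).ctest (s.c_nonneg j) (s.c_le_one j)
      ((hM.ker j).toSKer.contDiff_kreg (hB j) ε).continuous
      ((hM.ker j).toSKer.contDiff_kreg (hA j) ε).continuous hh hh0 hε.1 hβ (mul_nonneg hs0 ha)
      i1 d (i2.trans (pow_le_pow_left₀ m0 m1 2)) (i3.trans ?_)
    rw [mul_right_comm, mul_comm _ ε]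
    exact pow_le_pow_left₀ (mul_nonneg hε.1.le m0) (mul_le_mul_of_nonneg_left m1 hε.1.le) 2
  have e4 : ∫ x in closedBall (0 : E) 3, ‖pm (s.Jl i x) (kreg (K i) (s.lf A i) ε x)‖ ^ 2 =
      ∫ x in closedBall (0 : E) 3, ‖pm (s.Jl i x) (s.loc i G' x)‖ ^ 2 :=
    setIntegral_congr_fun measurableSet_closedBall fun x hx => by simp only [hG'.loc i x hx]
  rw [e4]
  refine (s.setIntegral_pm_le hG'.smooth.cont i).trans (le_trans ?_
    (sq_le hβ ha hε.1.le hs0 (m := s.m + 1) (by positivity)))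
  have p1 : 0 ≤ β * ((∑ i, C i) * a) := by positivity
  have p2 := sq_nonneg (ε * ((∑ i, C i) * a))
  linarith

end StepBAux

theorem p_step' : S_step X := by
  intro s M K R N ε₀ hM n
  obtain ⟨C, hC0, ε₁, h1, hC⟩ := StepBAux.pm_sq_le hM n
  choose C' hC0' hC' using fun i => (hM.ker i).recon (s.good i) n
  have hs0 : 0 ≤ ∑ i, C' i := Finset.sum_nonneg fun i _ => hC0' i
  refine ⟨(∑ i, C' i) * (2 * C + 1), by positivity, ε₁, h1,
    fun k B A hB hA hA' ε hε hε' β a lam κ r hβ ha hl hκ hκ1 hr hr3 hD hZ hL i => ?_⟩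
  have hε0 := hε.1
  have hR : 0 ≤ n * R * ε := by
    have := (hM.ker i).Rpos
    positivity
  have hs := Real.sqrt_nonneg (β * a)
  have h2 := hC k B A hB hA hA' ε hε hε' β a hβ ha hD hZ
    (fun j => (hL j).mono_r (by linarith)) i
  have h3 := hC' i k _ (hA i) (hA' i) ε ⟨hε.1, hε'⟩ lam r a _ hl ha (by positivity)
    (by rw [← mul_assoc]; exact hr3) (by rw [← mul_assoc]; exact hL i) h2
  refine h3.mono_a (by positivity) ?_
  have hq : 0 ≤ (lam ^ n)⁻¹ := by positivity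
  have hb : 0 ≤ β / κ := by positivity
  have b1 : β ≤ β / κ := by
    rw [le_div_iff₀ hκ]
    exact mul_le_of_le_one_right hβ hκ1
  have b2 : Real.sqrt (β * a) ≤ β / κ + κ * a := by
    refine Real.sqrt_le_iff.2 ⟨by positivity, ?_⟩
    have e : β * a = β / κ * (κ * a) := by field_simp
    have := mul_nonneg hb (mul_nonneg hκ.le ha)
    rw [e]
    nlinarith [sq_nonneg (β / κ), sq_nonneg (κ * a)]
  rw [mul_assoc]
  refine mul_le_mul (Finset.single_le_sum (fun j _ => hC0' j) (Finset.mem_univ i)) ?_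
    (by positivity) hs0
  have b3 : C * (β + Real.sqrt (β * a) + ε * a) ≤ C * (2 * (β / κ) + κ * a + ε * a) :=
    mul_le_mul_of_nonneg_left (by linarith) hC0
  have b4 : 0 ≤ β / κ + (C + 1) * (κ * a) + C * (ε * a) + 2 * C * ((lam ^ n)⁻¹ * a) := by
    positivity
  generalize (lam ^ n)⁻¹ = q at b4 ⊢
  generalize β / κ = w at b3 b4 ⊢
  linarith

end Vale.Agent.P247
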