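import Vale.Agent.P204.Top
import Vale.Agent.P247.Defs

/-! P247: definitions on the finite atlas and the statements of the steps. -/

open scoped ContDiff RealInnerProductSpace Topology Manifold
open MeasureTheory Metric

namespace Vale.Agent.P247

open Vale.Agent.P204 Vale.Agent.P204.Setup

universe u

section defs

variable {X : Type u} [TopologicalSpace X]

/-- Smooth closed forms that pair to zero with all smooth closed forms. -/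
structure Null (s : Setup X) (σ : Form X) : Prop where
  smooth : s.Smooth σ
  closed : s.Closed σ
  zero : ∀ φ, s.Smooth φ → s.Closed φ → s.Int σ φ = 0

/-- The Lorentz length of the invariant part of `φ`, relative to `c`. -/
noncomputable def rho (s : Setup X) (c φ : Form X) (x : X) : ℝ :=
  Real.sqrt (wedge (s.ppF φ x) (s.ppF φ x) / wedge (c x) (c x))

/-- The concave volume functional. -/
noncomputable def Phi (s : Setup X) (c φ : Form X) : ℝ :=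
  s.Int (fun x => rho s c φ x • c x) c

/-- A smooth closed anti-invariant form without zeros. -/
structure Anti (s : Setup X) (b : Form X) : Prop where
  smooth : s.Smooth b
  closed : s.Closed b
  anti : s.pmF b = b
  nz : ∀ x, b x ≠ 0

/-- An orthogonal triple that spans a maximal positive subspace. -/
structure Tri (s : Setup X) (a b c : Form X) : Prop where
  sa : s.Smooth a
  ca : s.Closed a
  hb : Anti s b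
  hc : Anti s c
  ab : s.Int a b = 0
  ac : s.Int a c = 0
  bc : s.Int b c = 0
  va : 0 < s.Int a a
  vb : 0 < s.Int b b
  vc : 0 < s.Int c c
  hi : ∀ φ, s.Smooth φ → s.Closed φ → s.Int φ φ ≤
    s.Int φ a ^ 2 / s.Int a a + s.Int φ b ^ 2 / s.Int b b + s.Int φ c ^ 2 / s.Int c c

/-- Bound by the anti-invariant part. -/
def PmBd (s : Setup X) (A : GF X) (k : ℕ) (β : ℝ) : Prop :=
  ∀ φ, s.Smooth φ → |A φ| ≤ β * s.sn k (s.pmF φ)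

/-- Local square integrability. -/
def LocL2 (s : Setup X) (A : GF X) (A₀ : ℝ) : Prop :=
  ∀ i θ, Test 2 θ → |s.lf A i θ| ≤ A₀ * nL2 θ

/-- `B + A` kills the exact forms. -/
def KEx (s : Setup X) (B A : GF X) : Prop := ∀ e ∈ s.Ex, B e + A e = 0

end defs

/-- Invariant and nonnegative on complex lines. -/
def PosInv (J : E →L[ℝ] E) (a : W) : Prop := pull J a = a ∧ ∀ v, 0 ≤ ev a v (J v)

/-- The quadratic form `wedge / m` is positive definite on the span of `a, b, c`. -/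
def Def3 (m : ℝ) (a b c : W) : Prop :=
  ∀ x y z : ℝ, (x ≠ 0 ∨ y ≠ 0 ∨ z ≠ 0) →
    0 < wedge (x • a + y • b + z • c) (x • a + y • b + z • c) / m

/-! ### Pointwise algebra -/

def S_lor1 : Prop := ∀ (J : E →L[ℝ] E) (a f : W), Near J → pull J a = a → PosInv J f →
  0 < wedge a a → 0 < wedge a f → ∀ v, v ≠ 0 → 0 < ev a v (J v)

def S_lor2 : Prop := ∀ (J : E →L[ℝ] E) (a b : W), Near J → pull J a = a → pull J b = b →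
  0 ≤ wedge b b → wedge a a * wedge b b ≤ wedge a b ^ 2

def S_trace : Prop := ∀ J : E →L[ℝ] E, Near J → PosInv J (pull (Aop J) om0) ∧
  1 ≤ wedge (pull (Aop J) om0) (pull (Aop J) om0) ∧ ‖pull (Aop J) om0‖ ≤ 8 ∧
  ∀ a : W, PosInv J a → ‖a‖ ≤ 8 * wedge a (pull (Aop J) om0)

def S_det : Prop := ∀ (L : E →L[ℝ] E) (δ : ℝ), ‖L - ContinuousLinearMap.id ℝ E‖ ≤ δ →
  δ ≤ 1 / 10 → |L.det - 1| ≤ 40 * δ ∧ |ev (pull L om0) (eb 0) (eb 1) - 1| ≤ 20 * δ ∧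
    ∀ a : W, ‖pull L a - a‖ ≤ 7 * δ * ‖a‖

def S_cone : Prop := ∀ (J : E →L[ℝ] E) (a : W) (r : ℝ), Near J → pull J a = a → 0 ≤ r →
  (∀ ζ : W, PosInv J ζ → wedge ζ ζ = 1 → r ≤ wedge a ζ) →
    (∀ v, 0 ≤ ev a v (J v)) ∧ r ≤ Real.sqrt (wedge a a)

def S_lorPt : Prop := ∃ C : ℝ, 0 ≤ C ∧ ∀ (J : E →L[ℝ] E) (g : W) (r δ Λ : ℝ), Near J → 0 < δ →
  δ < r → ‖g‖ ≤ Λ → (∀ ψ : W, PosInv J ψ → wedge ψ ψ = 1 → ‖ψ‖ ≤ C * (Λ + δ) / δ →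
    r ≤ wedge g ψ) → r ^ 2 ≤ wedge g g

def S_pullLor : Prop := ∀ η : ℝ, 0 < η → η < 1 → ∃ θ : ℝ, 0 < θ ∧
  ∀ (J J' L : E →L[ℝ] E) (ψ : W) (δ : ℝ), Near J → Near J' →
    ‖L - ContinuousLinearMap.id ℝ E‖ ≤ δ → ‖J - J'‖ ≤ δ → δ ≤ θ → PosInv J ψ →
    wedge ψ ψ = 1 → δ * ‖ψ‖ ≤ θ → PosInv J' (pp J' (pull L ψ)) ∧
      (1 - η) * ev (pull L om0) (eb 0) (eb 1) ≤
        Real.sqrt (wedge (pp J' (pull L ψ)) (pp J' (pull L ψ)))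

def S_fqF : Prop := ∀ (J : E →L[ℝ] E) (F : W) (c₀ : ℝ) (p : E →L[ℝ] ℝ), Near J → 0 ≤ c₀ →
  (∀ v, c₀ * ‖v‖ ^ 2 ≤ ev F v (J v)) → c₀ * ‖p‖ ^ 2 ≤ 64 * wedge (w11 p (-(p ∘L J))) F

/-! ### One chart -/

def S_kerLor : Prop := ∀ (K : ℝ × E × E → W →L[ℝ] W) (R N ε₀ : ℝ) (J : E → E →L[ℝ] E),
  IsKer K R N ε₀ → GoodJ J → ∀ η : ℝ, 0 < η → η < 1 → ∃ θ : ℝ, 0 < θ ∧
    ∀ ε ∈ Set.Ioo 0 ε₀, ε ≤ θ → ∀ y ∈ closedBall (0 : E) 6, ∀ (z : E) (ψ : W),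
      PosInv (J (y + ε • z)) ψ → wedge ψ ψ = 1 → ε * ‖ψ‖ ≤ θ →
        (∀ v, 0 ≤ ev (K (ε, y, z) ψ) v (J y v)) ∧ 0 ≤ ev (K (ε, y, z) om0) (eb 0) (eb 1) ∧
        (1 - η) * ev (K (ε, y, z) om0) (eb 0) (eb 1) ≤
          Real.sqrt (wedge (pp (J y) (K (ε, y, z) ψ)) (pp (J y) (K (ε, y, z) ψ)))

def S_kregLor : Prop := ∀ (K : ℝ × E × E → W →L[ℝ] W) (R N ε₀ : ℝ) (J : E → E →L[ℝ] E)
  (L : LF) (q : E → ℝ) (κ : ℝ), IsKer K R N ε₀ → GoodJ J → ContinuousOn q (ball 0 10) →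
  (∀ y ∈ ball (0 : E) 10, 0 < q y) → 0 ≤ κ →
  (∀ θ, CTest 9 θ → (∀ y v, 0 ≤ ev (θ y) v (J y v)) →
    κ * ∫ y, Real.sqrt (q y * wedge (pp (J y) (θ y)) (pp (J y) (θ y))) ≤ L θ) →
  ∀ η : ℝ, 0 < η → η < 1 → ∃ θ : ℝ, 0 < θ ∧ ∀ ε ∈ Set.Ioo 0 ε₀, ε ≤ θ →
    ∀ x ∈ closedBall (0 : E) 1, ∀ ψ : W, PosInv (J x) ψ → wedge ψ ψ = 1 → ε * ‖ψ‖ ≤ θ →
      κ * (1 - η) * Real.sqrt (q x) ≤ wedge (kreg K L ε x) ψ

def S_kregSq : Prop := ∀ (K : ℝ × E × E → W →L[ℝ] W) (R N ε₀ : ℝ) (J : E → E →L[ℝ] E)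
  (L : LF) (μ : Measure E) (c C : ℝ) (q : E → ℝ) (κ : ℝ), IsKer K R N ε₀ → GoodJ J →
  LocPos J L μ c C → ContinuousOn q (ball 0 10) → (∀ y ∈ ball (0 : E) 10, 0 < q y) → 0 ≤ κ →
  (∀ θ, CTest 9 θ → (∀ y v, 0 ≤ ev (θ y) v (J y v)) →
    κ * ∫ y, Real.sqrt (q y * wedge (pp (J y) (θ y)) (pp (J y) (θ y))) ≤ L θ) →
  ∀ η : ℝ, 0 < η → η < 1 → ∃ C₁ : ℝ, 0 ≤ C₁ ∧ ∃ θ : ℝ, 0 < θ ∧ ∀ ε ∈ Set.Ioo 0 ε₀, ε ≤ θ →
    ∀ x ∈ closedBall (0 : E) 1, (κ * (1 - η)) ^ 2 * q x - C₁ * (ε⁻¹ * lam μ R ε x) ^ 2 ≤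
      wedge (kreg K L ε x) (kreg K L ε x)

def S_weak : Prop := ∀ (L : LF) (A : ℝ), (∀ θ, Test 2 θ → |L θ| ≤ A * nL2 θ) →
  ∀ η : ℝ, 0 < η → ∃ C : ℝ, 0 ≤ C ∧ ∀ θ, Test 2 θ → |L θ| ≤ η * nL2 θ + C * ∫ y, ‖θ y‖

/-- The part of `α`. -/
def S_gamA : Prop := ∀ (L : LF) (A : ℝ), (∀ θ, Test 2 θ → |L θ| ≤ A * nL2 θ) →
  ∀ p : E → E →L[ℝ] ℝ, Test 1 p → ∀ C₂ η : ℝ, 0 < η → ∃ δ : ℝ, 0 < δ ∧
    ∀ u : E → ℝ, ContDiff ℝ ∞ u → (∀ y, u y ≤ 0) → ∀ k : ℝ, 1 ≤ k →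
      ∫ y in closedBall (0 : E) 1, Real.exp (u y / k) * ‖fderiv ℝ u y‖ ^ 2 ≤ C₂ * k ^ 2 →
      ∫ y in closedBall (0 : E) 1, |gam (u y / k) - 1| ≤ δ →
      ∫ y in closedBall (0 : E) 1, Real.exp (u y / k) * (1 - Real.exp (u y / k)) ^ 2 ≤ δ →
      |L (d1 p) - L (d1 fun y => gam (u y / k) • p y)| ≤ η

/-- The part of `T`. -/
def S_gamT : Prop := ∀ (J : E → E →L[ℝ] E) (T : LF) (ν : Measure E) (c C : ℝ),
  LocPos J T ν c C → GoodJ J → ∀ p : E → E →L[ℝ] ℝ, Test 1 p → ∀ C₂ : ℝ, ∃ C₃ : ℝ, 0 ≤ C₃ ∧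
    ∀ u : E → ℝ, ContDiff ℝ ∞ u → ∀ k : ℝ, 1 ≤ k →
      Bq J T (fun y => bp 1 2 y ^ 2 * Real.exp (u y / k)) (fderiv ℝ u) (fderiv ℝ u) ≤
        C₂ * k ^ 2 →
      (T (fun y => gam (u y / k) • d1 p y) - T (d1 fun y => gam (u y / k) • p y)) ^ 2 ≤
        C₃ * ∫ y in closedBall (0 : E) 1,
          Real.exp (u y / k) * (1 - Real.exp (u y / k)) ^ 2 ∂ν

def S_elm : Prop := ∀ (J : E → E →L[ℝ] E) (S T α : LF) (μ ν : Measure E) (c C D A c₀ : ℝ)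
  (F : E → W), LocPos J S μ c C → LocPos J T ν c C → GoodJ J → KillsD S → DensBd μ 2 D →
  ν ≤ μ → KillsD (T + α) → (∀ θ, Test 2 θ → |α θ| ≤ A * nL2 θ) → ContinuousOn F (ball 0 10) →
  0 < c₀ → (∀ y ∈ closedBall (0 : E) 9, ∀ v, c₀ * ‖v‖ ^ 2 ≤ ev (F y) v (J y v)) →
  (∀ θ, CTest 9 θ → (∀ y v, 0 ≤ ev (θ y) v (J y v)) →
    T θ ≤ S θ ∧ ∫ y, wedge (θ y) (F y) ≤ S θ) →
  ∀ p : E → E →L[ℝ] ℝ, Test 1 p → ∀ η : ℝ, 0 < η → ∃ g : E → ℝ, Continuous g ∧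
    ∫ y in closedBall (0 : E) 1, |g y - (Epol μ).indicator 1 y| ∂μ ≤ η ∧
    |T (fun y => g y • d1 p y) + α (d1 p)| ≤ η

/-! ### The finite atlas -/

section atlas

variable (X : Type u) [TopologicalSpace X] [T2Space X] [CompactSpace X]
  [SecondCountableTopology X] [MeasurableSpace X] [BorelSpace X]

def S_rhoLoc : Prop := ∀ (s : Setup X) (c : Form X), Anti s c → (∀ i, ∀ y ∈ ball (0 : E) 10,
  0 < wedge (s.loc i c y) (s.loc i c y) ∧ ∀ φ, rho s c φ ((s.ψ i).symm y) =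
    Real.sqrt (wedge (pp (s.Jl i y) (s.loc i φ y)) (pp (s.Jl i y) (s.loc i φ y)) /
      wedge (s.loc i c y) (s.loc i c y))) ∧ ∀ φ, s.Cont φ → Continuous (rho s c φ)

def S_phi : Prop := ∀ (s : Setup X) (c : Form X), Anti s c →
  (∀ φ, 0 ≤ Phi s c φ) ∧ (∀ φ, Phi s c (s.ppF φ) = Phi s c φ) ∧
  (∀ (g : X → ℝ) φ x, 0 ≤ g x → rho s c (fun x => g x • φ x) x = g x * rho s c φ x) ∧
  (∀ (t : ℝ) φ, 0 ≤ t → Phi s c (t • φ) = t * Phi s c φ) ∧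
  (∀ φ φ', s.Cont φ → s.Cont φ' → s.Pos φ → s.Pos φ' →
    Phi s c φ + Phi s c φ' ≤ Phi s c (φ + φ')) ∧
  ∀ a, s.Tame a → Nonempty X → 0 < Phi s c a

def S_phiGlob : Prop := ∀ (s : Setup X) (c : Form X), Anti s c → ∀ i θ, CTest 9 θ →
  Phi s c (s.glob i θ) = ∫ y, Real.sqrt (wedge (s.loc i c y) (s.loc i c y) *
    wedge (pp (s.Jl i y) (θ y)) (pp (s.Jl i y) (θ y)))

def S_l1 : Prop := ∀ (s : Setup X) (c : Form X), Anti s c → 0 < s.Int c c → ∀ ε : ℝ, 0 < ε →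
  ∃ m : ℝ, m < s.Int c c ∧ ∀ t, s.Compat t → s.Int t t = s.Int c c → m ≤ Phi s c t →
    s.Int (fun x => |wedge (t x) (t x) / wedge (c x) (c x) - 1| • c x) c ≤ ε

def S_hi0 : Prop := ∀ (s : Setup X) (a b c : Form X), s.Smooth a → s.Closed a → Anti s b →
  Anti s c → s.Int a b = 0 → s.Int a c = 0 → s.Int b c = 0 → 0 < s.Int a a → 0 < s.Int b b →
  0 < s.Int c c → (∀ φ, s.Smooth φ → s.Closed φ → s.Int φ a = 0 → s.Int φ b = 0 →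
    s.Int φ c = 0 → s.Int φ φ ≤ 0) → Tri s a b c

def S_hi1 : Prop := ∀ (s : Setup X) (a b c σ : Form X), Nonempty X → Tri s a b c →
  s.Compat σ → Tri s σ b c

def S_norm : Prop := ∀ (s : Setup X) (a b c : Form X) (A : GF X) (k : ℕ) (β x y : ℝ),
  Tri s a b c → PmBd s A k β → ∃ (A' : GF X) (β' : ℝ), PmBd s A' k β' ∧ A' b = x ∧ A' c = y ∧
    ∀ φ, s.Cont φ → s.Int φ b = 0 → s.Int φ c = 0 → A' φ = A φ

def S_msub : Prop := ∀ (s : Setup X) M K (R N ε₀ : ℝ), s.Moll M K R N ε₀ → ∀ φ, s.Smooth φ →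
  ∀ n : ℕ, ∃ C : ℝ, 0 ≤ C ∧ ∀ ε ∈ Set.Ioo 0 ε₀, s.sn n (φ - M ε φ) ≤ C * ε ∧
    ∀ (A : GF X) (a : ℝ), 0 ≤ a → (∀ i, LBd n (s.lf A i) ε 2 a) → |A (φ - M ε φ)| ≤ C * ε * a

def S_enbd : Prop := ∀ (s : Setup X) M K (R N ε₀ : ℝ) (σ b c : Form X), s.Moll M K R N ε₀ →
  Tri s σ b c → ∀ n k : ℕ, ∃ C : ℝ, 0 ≤ C ∧ ∀ (B A : GF X) (β : ℝ), 0 ≤ β →
    (∀ φ, s.Smooth φ → |B φ| ≤ β * s.sn k φ) → A σ = 0 → KEx s B A → B b + A b = 0 →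
    B c + A c = 0 → ∀ ε ∈ Set.Ioo 0 ε₀, ∀ a : ℝ, 0 ≤ a → (∀ i, LBd n (s.lf A i) ε 2 a) →
    ∀ G G', s.IsReg M K ε B G → s.IsReg M K ε A G' →
      s.Int G G + 2 * s.Int G G' + s.Int G' G' ≤ (C * (β + ε * a)) ^ 2

def S_step : Prop := ∀ (s : Setup X) M K (R N ε₀ : ℝ), s.Moll M K R N ε₀ → ∀ n : ℕ,
  ∃ C : ℝ, 0 ≤ C ∧ ∃ ε₁ > (0 : ℝ), ∀ (k : ℕ) (B A : GF X), (∀ i, DistBd k (s.lf B i)) →
    (∀ i, DistBd k (s.lf A i)) → (∀ i, AntiF (s.Jl i) (s.lf A i)) →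
    ∀ ε ∈ Set.Ioo 0 ε₁, ε < ε₀ → ∀ β a lam' κ r : ℝ, 0 ≤ β → 0 ≤ a → 1 ≤ lam' → 0 < κ → κ ≤ 1 →
      2 ≤ r → r + n * R * ε ≤ 3 → s.Dom K B ε β →
      (∀ G G', s.IsReg M K ε B G → s.IsReg M K ε A G' →
        s.Int G G + 2 * s.Int G G' + s.Int G' G' ≤ β ^ 2) →
      (∀ i, LBd n (s.lf A i) ε (r + n * R * ε) a) →
      ∀ i, LBd n (s.lf A i) (lam' * ε) r (C * (β / κ + (κ + ε + (lam' ^ n)⁻¹) * a))

def S_reg : Prop := ∀ (s : Setup X) (σ b c : Form X), s.pmF σ = 0 → Tri s σ b c → ∀ k k' : ℕ,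
  ∃ C : ℝ, 0 ≤ C ∧ ∀ (B A : GF X) (β β' : ℝ), 0 ≤ β →
    (∀ φ, s.Smooth φ → |B φ| ≤ β * s.sn k φ) → PmBd s A k' β' → KEx s B A →
    B b + A b = 0 → B c + A c = 0 → PmBd s A (k + 5) (C * β)

def S_approx : Prop := ∀ (s : Setup X) (σ b c : Form X), s.pmF σ = 0 → Tri s σ b c →
  ∀ k k' : ℕ, ∃ C : ℝ, 0 ≤ C ∧ ∀ f, s.Smooth f → s.pmF f = f → s.Int f b = 0 → s.Int f c = 0 →
    ∀ η > (0 : ℝ), ∃ τ, Null s τ ∧ s.sn k τ ≤ C * s.sn (k + 5) f ∧ s.sn k' (f - s.pmF τ) ≤ η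

def S_surj : Prop := ∀ (s : Setup X) (σ b c : Form X), s.pmF σ = 0 → Tri s σ b c →
  ∃ C : ℝ, 0 ≤ C ∧ ∀ f, s.Smooth f → s.pmF f = f → s.Int f b = 0 → s.Int f c = 0 →
    ∃ τ, Null s τ ∧ s.pmF τ = f ∧ s.sn 0 τ ≤ C * s.sn 5 f

def S_exT1 : Prop := ∀ (s : Setup X) (a a₁ c : Form X) (m : ℝ), Nonempty X → s.Tame a →
  Anti s c → Null s (a₁ - a) → s.pmF a₁ = 0 →
  (¬∃ t, s.Compat t ∧ Null s (t - a) ∧ m ≤ Phi s c t) →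
  ∃ (T : GF X) (κ : ℝ), 0 ≤ κ ∧ (∀ φ, s.Cont φ → s.Pos φ → κ * Phi s c φ ≤ T φ) ∧
    T (s.ppF a) = 1 ∧ (∀ τ, Null s τ → s.pmF τ = 0 → T τ = 0) ∧ T a₁ = κ * m

def S_exT : Prop := ∀ (s : Setup X) (a b c σ : Form X) (m : ℝ), Nonempty X → s.Tame a →
  Tri s a b c → s.pmF σ = 0 → Tri s σ b c →
  (¬∃ t, s.Compat t ∧ Null s (t - a) ∧ m ≤ Phi s c t) →
  ∃ (T α : GF X) (κ β : ℝ), 0 ≤ κ ∧ (∀ φ, s.Cont φ → s.Pos φ → κ * Phi s c φ ≤ T φ) ∧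
    T (s.ppF a) = 1 ∧ KEx s T α ∧ T a + α a = κ * m ∧ α b = 0 ∧ α c = 0 ∧ PmBd s α 5 β

def S_domT : Prop := ∀ (s : Setup X) M K (R N ε₀ : ℝ) (a : Form X) (T α : GF X) (μ : Measure X)
  (β : ℝ), s.Moll M K R N ε₀ → s.Tame a → s.PosCur (s.ppF a) T μ → KEx s T α → PmBd s α 5 β →
  ∀ n : ℕ, ∃ C : ℝ, 0 ≤ C ∧ ∀ ε ∈ Set.Ioo 0 ε₀, ∀ t : ℝ, 0 ≤ t →
    (∀ i, LBd n (s.lf α i) ε 2 t) → s.Dom K T ε (C * Real.sqrt (1 + t))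

def S_aL2 : Prop := ∀ (s : Setup X) M K (R N ε₀ : ℝ) (a σ b c : Form X) (T α : GF X)
  (μ : Measure X) (β : ℝ), s.Moll M K R N ε₀ → s.Tame a → s.PosCur (s.ppF a) T μ →
  s.pmF σ = 0 → Tri s σ b c → KEx s T α → α b = 0 → α c = 0 → PmBd s α 5 β →
  ∃ A₀ : ℝ, 0 ≤ A₀ ∧ LocL2 s α A₀

def S_kbd : Prop := ∀ (s : Setup X) (a : Form X) (T α : GF X) (β A₀ : ℝ), Nonempty X →
  s.Tame a → KEx s T α → PmBd s α 5 β → 0 ≤ A₀ → LocL2 s α A₀ →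
  ∃ c₁ : ℝ, ∀ e ∈ s.Ex, ∀ t : ℝ, s.Pos (e + t • a) → T (e + t • a) ≤ c₁ * s.Int (e + t • a) a

def S_kcur : Prop := ∀ (s : Setup X) (a : Form X) (T : GF X) (c₁ : ℝ), Nonempty X → s.Tame a →
  (∀ e ∈ s.Ex, ∀ t : ℝ, s.Pos (e + t • a) → T (e + t • a) ≤ c₁ * s.Int (e + t • a) a) →
  ∃ S : GF X, (∀ φ, s.Cont φ → s.Pos φ → T φ + s.Int φ (s.ppF a) ≤ S φ) ∧ ∀ e ∈ s.Ex, S e = 0

def S_kill : Prop := ∀ (s : Setup X) (T T' α : GF X) (μ ν : Measure X) (A : Set X)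
  (i : Fin s.m) (c C C₁ : ℝ) (p : E → E →L[ℝ] ℝ), IsFiniteMeasure μ → ν ≤ μ → MeasurableSet A →
  (∀ x ∈ (s.ψ i).source, ‖s.ψ i x‖ ≤ 2 → (x ∈ A ↔ s.ψ i x ∈ Epol (s.lm μ i))) →
  LocPos (s.Jl i) (s.lf T i) (s.lm ν i) c C → Test 1 p → 0 ≤ C₁ →
  (∀ η : ℝ, 0 < η → ∃ g : E → ℝ, Continuous g ∧
    ∫ y in closedBall (0 : E) 1, |g y - (Epol (s.lm μ i)).indicator 1 y| ∂s.lm μ i ≤ η ∧
    |s.lf T i (fun y => g y • d1 p y) + s.lf α i (d1 p)| ≤ η) →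
  (∀ g : X → ℝ, Continuous g → |T' (s.glob i (d1 p)) - T fun x => g x • s.glob i (d1 p) x| ≤
    C₁ * ∫ x, |g x - A.indicator 1 x| ∂ν) →
  T' (s.glob i (d1 p)) + α (s.glob i (d1 p)) = 0

def S_restr : Prop := ∀ (s : Setup X) (a c : Form X) (T T' : GF X) (μ ν : Measure X)
  (A : Set X) (κ : ℝ), s.Tame a → Anti s c → IsFiniteMeasure μ → s.PosCur (s.ppF a) T ν →
  MeasurableSet A →
  (∀ i, ∀ x ∈ (s.ψ i).source, ‖s.ψ i x‖ ≤ 2 → (x ∈ A ↔ s.ψ i x ∈ Epol (s.lm μ i))) →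
  (∀ φ, s.Cont φ → ∃ C : ℝ, 0 ≤ C ∧ ∀ g : X → ℝ, Continuous g →
    |T' φ - T fun x => g x • φ x| ≤ C * ∫ x, |g x - A.indicator 1 x| ∂ν) →
  0 ≤ κ → (∀ φ, s.Cont φ → s.Pos φ → κ * Phi s c φ ≤ T φ) →
  ∀ φ, s.Cont φ → s.Pos φ → κ * Phi s c φ ≤ T' φ ∧ T' φ ≤ T φ

def S_pol : Prop := ∀ (s : Setup X) (a c : Form X) (T α S : GF X) (ν : Measure X)
  (κ A₀ : ℝ), s.Tame a → Anti s c → s.PosCur (s.ppF a) T ν → KEx s T α → LocL2 s α A₀ →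
  0 ≤ κ → (∀ φ, s.Cont φ → s.Pos φ → κ * Phi s c φ ≤ T φ) →
  (∀ φ, s.Cont φ → s.Pos φ → T φ + s.Int φ (s.ppF a) ≤ S φ) → (∀ e ∈ s.Ex, S e = 0) →
  ∃ (T' : GF X) (ν' : Measure X) (D : ℝ), s.PosCur (s.ppF a) T' ν' ∧ KEx s T' α ∧
    (∀ i, DensBd (s.lm ν' i) 2 D ∧ ZeroDens (s.lm ν' i)) ∧
    ∀ φ, s.Cont φ → s.Pos φ → κ * Phi s c φ ≤ T' φ ∧ T' φ ≤ T φ

def S_selfT : Prop := ∀ (s : Setup X) M K (R N ε₀ : ℝ) (a c : Form X) (T : GF X)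
  (ν : Measure X) (κ D η δ : ℝ), s.Moll M K R N ε₀ → s.Tame a → Anti s c →
  s.PosCur (s.ppF a) T ν → (∀ i, DensBd (s.lm ν i) 2 D ∧ ZeroDens (s.lm ν i)) → 0 ≤ κ →
  (∀ φ, s.Cont φ → s.Pos φ → κ * Phi s c φ ≤ T φ) → 0 < η → η < 1 → 0 < δ →
  ∃ ε₁ > (0 : ℝ), ∀ ε ∈ Set.Ioo 0 ε₁, ε < ε₀ → ∀ G, s.IsReg M K ε T G →
    (κ * (1 - η)) ^ 2 * s.Int c c - δ ≤ s.Int G G

def S_cross : Prop := ∀ (s : Setup X) M K (R N ε₀ : ℝ) (a : Form X) (T α : GF X)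
  (ν : Measure X) (β A₀ D δ : ℝ), s.Moll M K R N ε₀ → s.Tame a →
  s.PosCur (s.ppF a) T ν → (∀ i, DensBd (s.lm ν i) 2 D ∧ ZeroDens (s.lm ν i)) →
  PmBd s α 5 β → 0 ≤ A₀ → LocL2 s α A₀ → 0 < δ →
  ∃ ε₁ > (0 : ℝ), ∀ ε ∈ Set.Ioo 0 ε₁, ε < ε₀ → ∀ G G', s.IsReg M K ε T G → s.IsReg M K ε α G' →
    -δ ≤ 2 * s.Int G G' + s.Int G' G'

def S_lim : Prop := ∀ (s : Setup X) M K (R N ε₀ : ℝ) (a b c σ : Form X) (T α : GF X)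
  (ν : Measure X) (κ β A₀ D η δ : ℝ), s.Moll M K R N ε₀ → Nonempty X → s.Tame a → Anti s c →
  s.Smooth b → s.Smooth σ → s.PosCur (s.ppF a) T ν →
  (∀ i, DensBd (s.lm ν i) 2 D ∧ ZeroDens (s.lm ν i)) → KEx s T α →
  PmBd s α 5 β → 0 ≤ A₀ → LocL2 s α A₀ → 0 ≤ κ →
  (∀ φ, s.Cont φ → s.Pos φ → κ * Phi s c φ ≤ T φ) → 0 < η → η < 1 → 0 < δ →
  ∃ H, s.Smooth H ∧ s.Closed H ∧ (κ * (1 - η)) ^ 2 * s.Int c c - δ ≤ s.Int H H ∧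
    |s.Int H a - (T a + α a)| ≤ δ ∧ |s.Int H b - (T b + α b)| ≤ δ ∧
    |s.Int H c - (T c + α c)| ≤ δ ∧ |s.Int H σ - (T σ + α σ)| ≤ δ

def S_quad : Prop := ∀ (s : Setup X) (a b c σ : Form X) (Λ x y : ℝ), Tri s a b c →
  Tri s σ b c → (∀ δ : ℝ, 0 < δ → ∃ H, s.Smooth H ∧ s.Closed H ∧ Λ - δ ≤ s.Int H H ∧
    |s.Int H a - x| ≤ δ ∧ |s.Int H b| ≤ δ ∧ |s.Int H c| ≤ δ ∧ |s.Int H σ - y| ≤ δ) →
  ∀ t : ℝ, Λ + 2 * t * y + t ^ 2 * s.Int σ σ ≤ (x + t * s.Int σ a) ^ 2 / s.Int a a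

def S_main : Prop := ∀ (s : Setup X) (a b c : Form X) (m : ℝ), Nonempty X → s.Tame a →
  Tri s a b c → s.Int a a = s.Int c c → m < s.Int c c →
  ∃ t, s.Compat t ∧ Null s (t - a) ∧ m ≤ Phi s c t

end atlas

/-! ### The complex structure of a definite triple -/

/-- The endomorphism `A` with `c(u, v) = b(A u, v)`. -/
noncomputable def Ab (b c : W) : E →L[ℝ] E :=
  ∑ i : Fin 4, ∑ j : Fin 4, ∑ k : Fin 4,
    (-2 / wedge b b * ev (hstar b) (eb k) (eb i) * ev c (eb j) (eb k)) •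
      (EuclideanSpace.proj j : E →L[ℝ] ℝ).smulRight (eb i)

/-- The normalised trace free part of `Ab`. -/
noncomputable def Jb (b c : W) : E →L[ℝ] E :=
  (Real.sqrt (wedge c c / wedge b b - (wedge b c / wedge b b) ^ 2))⁻¹ •
    (Ab b c - (wedge b c / wedge b b) • ContinuousLinearMap.id ℝ E)

/-- The sign is chosen so that `a` tames. -/
noncomputable def Jt (a b c : W) : E →L[ℝ] E :=
  (ev a (eb 0) (Jb b c (eb 0)) / Real.sqrt (ev a (eb 0) (Jb b c (eb 0)) ^ 2)) • Jb b c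

/-- `J` is a complex structure tamed by `a` with `b, c` anti-invariant. -/
def JS (J : E →L[ℝ] E) (a b c : W) : Prop :=
  (∀ v, J (J v) = -v) ∧ pull J b = -b ∧ pull J c = -c ∧ ∀ v, v ≠ 0 → 0 < ev a v (J v)

def S_ab : Prop := ∀ b c : W, wedge b b ≠ 0 → (∀ u v, ev b (Ab b c u) v = ev c u v) ∧
  (∀ u v, ev b (Ab b c u) v = ev b u (Ab b c v)) ∧
  (∀ u, (∀ v, ev b u v = 0) → u = 0) ∧
  ∀ u, Ab b c (Ab b c u) - (2 * (wedge b c / wedge b b)) • Ab b c u +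
    (wedge c c / wedge b b) • u = 0

def S_jb : Prop := ∀ (m : ℝ) (a b c : W), Def3 m a b c → wedge b b ≠ 0 ∧
  0 < wedge c c / wedge b b - (wedge b c / wedge b b) ^ 2 ∧
  (∀ v, Jb b c (Jb b c v) = -v) ∧ pull (Jb b c) b = -b ∧ pull (Jb b c) c = -c

def S_sign : Prop := ∀ (m : ℝ) (J : E →L[ℝ] E) (a b c : W), Def3 m a b c →
  (∀ v, J (J v) = -v) → pull J b = -b → pull J c = -c →
  ∀ v v', v ≠ 0 → v' ≠ 0 → 0 < ev a v (J v) * ev a v' (J v')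

def S_uniq : Prop := ∀ (m : ℝ) (J J' : E →L[ℝ] E) (a b c : W), Def3 m a b c →
  JS J a b c → JS J' a b c → J = J'

def S_jt : Prop := ∀ (m : ℝ) (a b c : W), Def3 m a b c → JS (Jt a b c) a b c ∧
  ContDiffAt ℝ ∞ (fun p : W × W × W => Jt p.1 p.2.1 p.2.2) (a, b, c)

def S_pd : Prop := ∀ (m : ℝ) (J : E →L[ℝ] E) (a b c a' : W), Def3 m a b c → JS J a b c →
  (∀ v, v ≠ 0 → 0 < ev a' v (J v)) → Def3 m a' b c ∧
    (pull J a' = a' → wedge a' b = 0 ∧ wedge a' c = 0)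

/-! ### The manifold -/

section mfd

variable (X : Type u) [TopologicalSpace X] [T2Space X] [CompactSpace X] [ChartedSpace E X]
  [IsManifold 𝓘(ℝ, E) ∞ X] [MeasurableSpace X] [BorelSpace X]

variable {X} in
/-- The coefficients of a field of bilinear forms. -/
noncomputable def toW (σ : BilField E X) : Form X := fun x => mk fun u v => σ x u v

variable {X} in
/-- The field of bilinear forms of a form. -/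
noncomputable def ofW (φ : Form X) : BilField E X := fun x => Mo.InFormAux.evC (φ x)

def S_toW : Prop := (∀ σ : BilField E X, IsClosedForm σ → ofW (toW σ) = σ) ∧
  (∀ φ : Form X, toW (ofW φ) = φ) ∧
  (∀ (φ φ' : Form X) (x : X), wd (ofW φ x) (ofW φ' x) = wedge (φ x) (φ' x)) ∧
  ∀ (s : Setup X) (J : EndField E X), Mo.Adapted s J → ∀ φ : Form X,
    IsClosedForm (ofW φ) ↔ s.Smooth φ ∧ s.Closed φ

def S_acs : Prop := ∀ (m : X → ℝ) (a b c : Form X), IsClosedForm (ofW a) →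
  IsClosedForm (ofW b) → IsClosedForm (ofW c) → (∀ x, Def3 (m x) (a x) (b x) (c x)) →
  ∃ J : EndField E X, IsAlmostComplex J ∧ ∀ x, JS (J x) (a x) (b x) (c x)

/-- Integration in one chart of the finite atlas. -/
def S_br1 : Prop := ∀ (μ : TopField X) (ν : Measure X) (s : Setup X) (J : EndField E X),
  IsVolForm μ → IsVolMeasure μ ν → Mo.Adapted s J → ∀ i,
    ContinuousOn (fun y => (s.P i ((s.ψ i).symm y)).det * μ ((s.ψ i).symm y) bv) (ball 0 10) ∧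
    ∀ h : E → ℝ, CTest 9 h → Integrable (s.glob0 i h) ν ∧ ∫ x, s.glob0 i h x ∂ν =
      ∫ y, h y * |(s.P i ((s.ψ i).symm y)).det * μ ((s.ψ i).symm y) bv|

def S_br : Prop := ∀ (μ : TopField X) (ν : Measure X) (s : Setup X) (J : EndField E X)
  (c : Form X), IsVolForm μ → IsVolMeasure μ ν → Mo.Adapted s J → Anti s c →
  (∀ x, 0 < wedge (c x) (c x) / μ x bv) → ∀ φ φ' : Form X, s.Cont φ → s.Cont φ' →
    Integrable (fun x => wedge (φ x) (φ' x) / μ x bv) ν ∧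
      ∫ x, wedge (φ x) (φ' x) / μ x bv ∂ν = s.Int φ φ'

def S_stepM : Prop := ∀ (μ : TopField X) (ν : Measure X) (a b c : Form X) (ε : ℝ),
  IsVolForm μ → IsVolMeasure μ ν → IsClosedForm (ofW a) → IsClosedForm (ofW b) →
  IsClosedForm (ofW c) → (∀ x, Def3 (μ x bv) (a x) (b x) (c x)) →
  intg μ ν (ofW a) (ofW b) = 0 → intg μ ν (ofW a) (ofW c) = 0 → intg μ ν (ofW b) (ofW c) = 0 →
  intg μ ν (ofW a) (ofW a) = 1 → intg μ ν (ofW b) (ofW b) = 1 → intg μ ν (ofW c) (ofW c) = 1 →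
  (∀ φ, IsClosedForm φ → intg μ ν φ (ofW a) = 0 → intg μ ν φ (ofW b) = 0 →
    intg μ ν φ (ofW c) = 0 → intg μ ν φ φ ≤ 0) → 0 < ε →
  ∃ t : Form X, IsClosedForm (ofW t) ∧
    (∀ r : ℝ, Cohomologous μ ν (ofW (a + r • (t - a))) (ofW a)) ∧
    (∀ x, wedge (t x) (b x) = 0 ∧ wedge (t x) (c x) = 0) ∧
    (∀ r ∈ Set.Icc (0 : ℝ) 1, ∀ x, Def3 (μ x bv) (a x + r • (t x - a x)) (b x) (c x)) ∧
    ∫⁻ x, ENNReal.ofReal |wedge (t x) (t x) / μ x bv - wedge (c x) (c x) / μ x bv| ∂ν ≤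
      ENNReal.ofReal ε

/-- Algebra and smoothness of paths of forms. -/
def S_path : Prop := (∀ (a t : Form X) (r : ℝ), IsClosedForm (ofW a) → IsClosedForm (ofW t) →
    IsClosedForm (ofW (a + r • (t - a)))) ∧
  (∀ (a t : Form X) (f : ℝ → ℝ), IsClosedForm (ofW a) → IsClosedForm (ofW t) → ContDiff ℝ ∞ f →
    ∀ e ∈ atlas E X, ∀ u v, ContDiffOn ℝ ∞
      (fun p : ℝ × E => coef (ofW (a + f p.1 • (t - a))) e u v p.2) (Set.univ ×ˢ e.target)) ∧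
  ∀ (μ : TopField X) (w : Fin 3 → Form X) (x : X),
    (∀ r : Fin 3 → ℝ, r ≠ 0 → 0 < ∑ i, ∑ j, r i * r j * quo μ (ofW (w i)) (ofW (w j)) x) ↔
      Def3 (μ x bv) (w 0 x) (w 1 x) (w 2 x)

def S_final : Prop := ∀ (μ : TopField X) (ν : Measure X) (om : Fin 3 → BilField E X) (ε : ℝ),
  IsVolForm μ → IsVolMeasure μ ν → IsHypersymplectic μ om →
  (∀ i j, intg μ ν (om i) (om j) = if i = j then 1 else 0) →
  (∀ φ, IsClosedForm φ → (∀ i, intg μ ν φ (om i) = 0) → intg μ ν φ φ ≤ 0) → 0 < ε →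
  ∃ Om : ℝ → Fin 3 → BilField E X, IsDeformation μ ν om Om ∧ (∀ t, Om t 2 = om 2) ∧
    (∀ i j, i ≠ j → ∀ x, quo μ (Om 1 i) (Om 1 j) x = 0) ∧
    ∀ i, ∫⁻ x, ENNReal.ofReal |quo μ (Om 1 i) (Om 1 i) x - quo μ (om 2) (om 2) x| ∂ν ≤
      ENNReal.ofReal ε

end mfd

end Vale.Agent.P247
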