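import Vale.Agent.P247.Stm

/-! P247: statements for the pointwise lower bound. -/

open scoped ContDiff RealInnerProductSpace Topology Manifold
open MeasureTheory Metric

namespace Vale.Agent.P247

open Vale.Agent.P204 Vale.Agent.P204.Setup

universe u

/-- `T` dominates the Lorentz length integrated against the measure `l`. -/
def Dom2 {X : Type u} [TopologicalSpace X] [MeasurableSpace X] (s : Setup X) (c : Form X)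
    (l : Measure X) (T : GF X) : Prop :=
  ∀ φ, s.Cont φ → s.Pos φ → ∫ x, rho s c φ x ∂l ≤ T φ

/-- The regularisation of the measure `w • l`. -/
noncomputable def rk (K : ℝ × E × E → W →L[ℝ] W) (l : Measure E) (w : E → ℝ) (ε : ℝ) (x : E) :
    ℝ :=
  ∫ y, ev (kerAt K w ε x om0 y) (eb 0) (eb 1) ∂l

/-- The averaged test function. -/
noncomputable def av (K : ℝ × E × E → W →L[ℝ] W) (f : E → ℝ) (ε : ℝ) (y : E) : ℝ :=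
  ∫ z, f (y + ε • z) * ev (K (ε, y, z) om0) (eb 0) (eb 1)

/-- The local form of `Dom2`. -/
def LocDom (J : E → E →L[ℝ] E) (q : E → ℝ) (l : Measure E) (L : LF) : Prop :=
  ∀ θ, CTest 9 θ → (∀ y v, 0 ≤ ev (θ y) v (J y v)) →
    ∫ y, Real.sqrt (wedge (pp (J y) (θ y)) (pp (J y) (θ y)) / q y) ∂l ≤ L θ

def S_sqPt : Prop := ∀ (K : ℝ × E × E → W →L[ℝ] W) (R N ε₀ : ℝ) (J : E → E →L[ℝ] E)
  (L : LF) (μ : Measure E) (c C : ℝ), IsKer K R N ε₀ → GoodJ J → LocPos J L μ c C →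
  ∀ θ : ℝ, 0 < θ → ∃ C₁ : ℝ, 0 ≤ C₁ ∧ ∃ θ₁ : ℝ, 0 < θ₁ ∧ ∀ ε ∈ Set.Ioo 0 ε₀, ε ≤ θ₁ →
    ∀ (x : E) (r t : ℝ), 0 ≤ t → (∀ ψ : W, PosInv (J x) ψ → wedge ψ ψ = 1 → ε * ‖ψ‖ ≤ θ →
      r ≤ wedge (kreg K L ε x) ψ) → 2 * t * r - t ^ 2 - C₁ * (ε⁻¹ * lam μ R ε x) ^ 2 ≤
        wedge (kreg K L ε x) (kreg K L ε x)

def S_kregL : Prop := ∀ (K : ℝ × E × E → W →L[ℝ] W) (R N ε₀ : ℝ) (J : E → E →L[ℝ] E)
  (L : LF) (q : E → ℝ) (l : Measure E), IsKer K R N ε₀ → GoodJ J → IsFiniteMeasure l →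
  ContinuousOn q (ball 0 10) → (∀ y ∈ ball (0 : E) 10, 0 < q y) → LocDom J q l L →
  ∀ η : ℝ, 0 < η → η < 1 → ∃ θ : ℝ, 0 < θ ∧ ∀ ε ∈ Set.Ioo 0 ε₀, ε ≤ θ →
    ∀ (x : E) (ψ : W), PosInv (J x) ψ → wedge ψ ψ = 1 → ε * ‖ψ‖ ≤ θ →
      (1 - η) * rk K l (fun y => bp 5 6 y / Real.sqrt (q y)) ε x ≤ wedge (kreg K L ε x) ψ

def S_fub1 : Prop := ∀ (K : ℝ × E × E → W →L[ℝ] W) (R : ℝ) (l : Measure E) (w f : E → ℝ)
  (ε : ℝ), SKer K R → IsFiniteMeasure l → CTest 6 w → CTest 1 f → 0 < ε →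
    Continuous (rk K l w ε) ∧ ∫ x, f x * rk K l w ε x = ∫ y, w y * av K f ε y ∂l

def S_fub2 : Prop := ∀ (K : ℝ × E × E → W →L[ℝ] W) (R N ε₀ : ℝ) (l : Measure E) (w f : E → ℝ),
  IsKer K R N ε₀ → IsFiniteMeasure l → CTest 6 w → CTest 1 f →
    Filter.Tendsto (fun ε => ∫ y, w y * av K f ε y ∂l) (𝓝[>] 0) (𝓝 (∫ y, w y * f y ∂l))

def S_locL : Prop := ∀ (K : ℝ × E × E → W →L[ℝ] W) (R N ε₀ : ℝ) (J : E → E →L[ℝ] E)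
  (L : LF) (μ : Measure E) (c C : ℝ) (q : E → ℝ) (l : Measure E), IsKer K R N ε₀ → GoodJ J →
  LocPos J L μ c C → IsFiniteMeasure l → ContinuousOn q (ball 0 10) →
  (∀ y ∈ ball (0 : E) 10, 0 < q y) → LocDom J q l L → ∀ η : ℝ, 0 < η → η < 1 →
  ∃ C₁ : ℝ, 0 ≤ C₁ ∧ ∀ k g : E → ℝ, CTest 1 k → (∀ y, 0 ≤ k y) → (∀ y, k y ≤ 1) →
    ContinuousOn g (ball 0 10) → (∀ y, 0 ≤ g y) → ∀ δ : ℝ, 0 < δ → ∀ᶠ ε in 𝓝[>] (0 : ℝ),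
      2 * (1 - η) * ∫ y, k y * g y ∂l - (∫ y, k y * (g y ^ 2 * q y)) - C₁ * En μ R ε - δ ≤
        ∫ y, k y * wedge (kreg K L ε y) (kreg K L ε y)

section atlas

variable (X : Type u) [TopologicalSpace X] [T2Space X] [CompactSpace X]
  [SecondCountableTopology X] [MeasurableSpace X] [BorelSpace X]

def S_rhoAlg : Prop := ∀ (s : Setup X) (c : Form X), Anti s c →
  (∀ φ φ', s.Pos φ → s.Pos φ' → ∀ x, rho s c φ x + rho s c φ' x ≤ rho s c (φ + φ') x) ∧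
  ∀ a, s.Tame a → ∃ r : ℝ, 0 < r ∧ ∀ x, r ≤ rho s c (s.ppF a) x

def S_rhoLm : Prop := ∀ (s : Setup X) (c : Form X) (l : Measure X), Anti s c →
  IsFiniteMeasure l → (∀ T : GF X, Dom2 s c l T → ∀ j,
    LocDom (s.Jl j) (fun y => wedge (s.loc j c y) (s.loc j c y)) (s.lm l j) (s.lf T j)) ∧
  ∀ g : X → ℝ, Continuous g →
    ∑ j, ∫ y, s.c j y * g ((s.ψ j).symm y) ∂s.lm l j = ∫ x, g x ∂l

def S_selfL : Prop := ∀ (s : Setup X) M K (R N ε₀ : ℝ) (a c : Form X) (T : GF X)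
  (ν l : Measure X) (η : ℝ), s.Moll M K R N ε₀ → s.Tame a → Anti s c →
  s.PosCur (s.ppF a) T ν → IsFiniteMeasure l → Dom2 s c l T → 0 < η → η < 1 →
  ∃ C₁ : ℝ, 0 ≤ C₁ ∧ ∀ g : X → ℝ, Continuous g → (∀ x, 0 ≤ g x) → ∀ δ : ℝ, 0 < δ →
    ∀ᶠ ε in 𝓝[>] (0 : ℝ), ∀ G, s.IsReg M K ε T G →
      2 * (1 - η) * ∫ x, g x ∂l - s.Int (fun x => g x ^ 2 • c x) c -
        C₁ * ∑ j, En (s.lm ν j) R ε - δ ≤ s.Int G G

def S_l2 : Prop := ∀ (s : Setup X) (a σ b c : Form X) (T : GF X) (ν l : Measure X) (D : ℝ),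
  Nonempty X → s.Tame a → Tri s σ b c → s.PosCur (s.ppF a) T ν → (∀ e ∈ s.Ex, T e = 0) →
  (∀ i, DensBd (s.lm ν i) 2 D) → IsFiniteMeasure l → Dom2 s c l T →
  ∃ C : ℝ, ∀ g : X → ℝ, Continuous g → (∀ x, 0 ≤ g x) →
    ∫ x, g x ∂l - s.Int (fun x => g x ^ 2 • c x) c ≤ C

def S_null : Prop := ∀ (s : Setup X) (c : Form X) (μ l : Measure X) (A : Set X) (C : ℝ),
  Anti s c → IsFiniteMeasure μ → IsFiniteMeasure l → MeasurableSet A →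
  (∀ i, ∀ x ∈ (s.ψ i).source, ‖s.ψ i x‖ ≤ 2 → (x ∈ A ↔ s.ψ i x ∈ Epol (s.lm μ i))) →
  (∀ g : X → ℝ, Continuous g → (∀ x, 0 ≤ g x) →
    ∫ x, g x ∂l.restrict Aᶜ - s.Int (fun x => g x ^ 2 • c x) c ≤ C) → l Aᶜ = 0

def S_restrL : Prop := ∀ (s : Setup X) (a c : Form X) (T T' : GF X) (ν l : Measure X)
  (A : Set X), Anti s c → s.PosCur (s.ppF a) T ν → IsFiniteMeasure l → MeasurableSet A →
  (∀ φ, s.Cont φ → ∃ C : ℝ, 0 ≤ C ∧ ∀ g : X → ℝ, Continuous g →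
    |T' φ - T fun x => g x • φ x| ≤ C * ∫ x, |g x - A.indicator 1 x| ∂ν) →
  Dom2 s c l T → Dom2 s c (l.restrict A) T' ∧ Dom2 s c (l.restrict Aᶜ) (T - T')

def S_polA : Prop := ∀ (s : Setup X) (a : Form X) (T α S : GF X) (ν : Measure X) (A₀ : ℝ),
  s.Tame a → s.PosCur (s.ppF a) T ν → KEx s T α → LocL2 s α A₀ →
  (∀ φ, s.Cont φ → s.Pos φ → T φ + s.Int φ (s.ppF a) ≤ S φ) → (∀ e ∈ s.Ex, S e = 0) →
  ∃ (T' : GF X) (μ : Measure X) (A : Set X) (D : ℝ), IsFiniteMeasure μ ∧ MeasurableSet A ∧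
    (∀ i, ∀ x ∈ (s.ψ i).source, ‖s.ψ i x‖ ≤ 2 → (x ∈ A ↔ s.ψ i x ∈ Epol (s.lm μ i))) ∧
    s.PosCur (s.ppF a) T' (ν.restrict A) ∧ KEx s T' α ∧
    (∀ i, DensBd (s.lm ν i) 2 D ∧ ZeroDens (s.lm (ν.restrict A) i)) ∧
    ∀ φ, s.Cont φ → ∃ C : ℝ, 0 ≤ C ∧ ∀ g : X → ℝ, Continuous g →
      |T' φ - T fun x => g x • φ x| ≤ C * ∫ x, |g x - A.indicator 1 x| ∂ν

def S_polL : Prop := ∀ (s : Setup X) (a σ b c : Form X) (T α S : GF X) (ν l : Measure X)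
  (A₀ : ℝ), Nonempty X → s.Tame a → Tri s σ b c → s.PosCur (s.ppF a) T ν → KEx s T α →
  LocL2 s α A₀ → IsFiniteMeasure l → Dom2 s c l T →
  (∀ φ, s.Cont φ → s.Pos φ → T φ + s.Int φ (s.ppF a) ≤ S φ) → (∀ e ∈ s.Ex, S e = 0) →
  ∃ (T' : GF X) (ν' : Measure X) (D : ℝ), s.PosCur (s.ppF a) T' ν' ∧ KEx s T' α ∧
    (∀ i, DensBd (s.lm ν' i) 2 D ∧ ZeroDens (s.lm ν' i)) ∧ Dom2 s c l T' ∧
    ∀ φ, s.Cont φ → s.Pos φ → T' φ ≤ T φ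

def S_limL : Prop := ∀ (s : Setup X) M K (R N ε₀ : ℝ) (a b c σ : Form X) (T α : GF X)
  (ν l : Measure X) (β A₀ D η δ : ℝ) (g : X → ℝ), s.Moll M K R N ε₀ → Nonempty X → s.Tame a →
  Anti s c → s.Smooth b → s.Smooth σ → s.PosCur (s.ppF a) T ν →
  (∀ i, DensBd (s.lm ν i) 2 D ∧ ZeroDens (s.lm ν i)) → KEx s T α →
  PmBd s α 5 β → 0 ≤ A₀ → LocL2 s α A₀ → IsFiniteMeasure l → Dom2 s c l T → Continuous g →
  (∀ x, 0 ≤ g x) → 0 < η → η < 1 → 0 < δ →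
  ∃ H, s.Smooth H ∧ s.Closed H ∧
    2 * (1 - η) * ∫ x, g x ∂l - s.Int (fun x => g x ^ 2 • c x) c - δ ≤ s.Int H H ∧
    |s.Int H a - (T a + α a)| ≤ δ ∧ |s.Int H b - (T b + α b)| ≤ δ ∧
    |s.Int H c - (T c + α c)| ≤ δ ∧ |s.Int H σ - (T σ + α σ)| ≤ δ

def S_exT1L : Prop := ∀ (s : Setup X) (a a₁ c : Form X) (h : X → ℝ), Nonempty X → s.Tame a →
  Anti s c → Null s (a₁ - a) → s.pmF a₁ = 0 → Continuous h →
  (¬∃ t, s.Compat t ∧ Null s (t - a) ∧ ∀ x, h x ≤ rho s c t x) →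
  ∃ (T : GF X) (l : Measure X), IsFiniteMeasure l ∧ Dom2 s c l T ∧
    T (s.ppF a) = 1 ∧ (∀ τ, Null s τ → s.pmF τ = 0 → T τ = 0) ∧ T a₁ = ∫ x, h x ∂l

def S_exTL : Prop := ∀ (s : Setup X) (a b c σ : Form X) (h : X → ℝ), Nonempty X → s.Tame a →
  Tri s a b c → s.pmF σ = 0 → Tri s σ b c → Continuous h →
  (¬∃ t, s.Compat t ∧ Null s (t - a) ∧ ∀ x, h x ≤ rho s c t x) →
  ∃ (T α : GF X) (l : Measure X) (β : ℝ), IsFiniteMeasure l ∧ Dom2 s c l T ∧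
    T (s.ppF a) = 1 ∧ KEx s T α ∧ T a + α a = ∫ x, h x ∂l ∧ α b = 0 ∧ α c = 0 ∧ PmBd s α 5 β

def S_mainL : Prop := ∀ (s : Setup X) (a b c : Form X) (h : X → ℝ), Nonempty X → s.Tame a →
  Tri s a b c → Continuous h → (∀ x, 0 ≤ h x) → 0 < s.Int (fun x => h x ^ 2 • c x) c →
  s.Int (fun x => h x ^ 2 • c x) c < s.Int a a →
  ∃ t, s.Compat t ∧ Null s (t - a) ∧ ∀ x, h x ≤ rho s c t x

end atlas

end Vale.Agent.P247
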