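import Vale.Agent.P247.Stm

open scoped ContDiff RealInnerProductSpace Topology Manifold
open MeasureTheory Metric

namespace Vale.Agent.P247

open Vale.Agent.P204 Vale.Agent.P204.Setup

universe u

namespace SurjAux

variable {X : Type u} [TopologicalSpace X] [T2Space X]

theorem int_pm (s : Setup X) {τ b : Form X} (hτ : Null s τ) (hb : Anti s b) :
    s.Int (s.pmF τ) b = 0 := by
  have hp : s.ppF b = 0 := by
    have h := s.ppF_add_pmF b
    rw [hb.anti] at h
    exact add_eq_right.1 h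
  have h1 := s.Int_split hτ.smooth.cont hb.smooth.cont
  rw [hτ.zero b hb.smooth hb.closed, hp, hb.anti, s.Int_comm _ 0, s.Int_zero_left, zero_add] at h1
  exact h1.symm

omit [T2Space X] in
theorem null_zero (s : Setup X) : Null s 0 :=
  ⟨s.smooth_zero, s.closed_zero, fun φ _ _ => s.Int_zero_left φ⟩

theorem null_sum (s : Setup X) {σ : ℕ → Form X} (hσ : ∀ n, Null s (σ n)) {a : ℝ}
    (hb : ∀ n, 1 ≤ n → s.sn n (σ n) ≤ a * (1 / 2) ^ n) :
    ∃ τ : Form X, Null s τ ∧ (∀ x, HasSum (fun n => σ n x) (τ x)) ∧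
      s.sn 0 τ ≤ s.sn 0 (σ 0) + a := by
  have hs : ∀ n, s.Smooth (σ n) := fun n => (hσ n).smooth
  have hc : ∀ n, s.Closed (σ n) := fun n => (hσ n).closed
  obtain ⟨τ, t1, t2, t3, t4⟩ := s.exists_sum hs hc hb
  have hgeo : HasSum (fun n : ℕ => (1 / 2 : ℝ) ^ n) 2 := hasSum_geometric_two
  have htail : ∀ N, s.sn 0 (τ - ∑ n ∈ Finset.range (N + 1), σ n) ≤ a * (1 / 2) ^ N := by
    intro N
    refine s.atlasLim_sn (φ := fun n => σ (n + (N + 1))) (fun n => hs _) (fun x => ?_)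
      (b := fun n => a * (1 / 2) ^ (N + 1) * (1 / 2) ^ n) (fun n => ?_) ?_
    · rw [Pi.sub_apply, Finset.sum_apply]
      exact (hasSum_nat_add_iff' (N + 1)).2 (t3 x)
    · refine (s.sn_mono (Nat.zero_le _) _).trans ((hb _ (by omega)).trans (le_of_eq ?_))
      ring
    · have := hgeo.mul_left (a * (1 / 2) ^ (N + 1))
      rwa [show a * (1 / 2) ^ (N + 1) * 2 = a * (1 / 2) ^ N by ring] at this
  refine ⟨τ, ⟨t1, t2, fun φ p1 p2 => ?_⟩, t3, t4⟩
  obtain ⟨C, hC, hI⟩ := s.abs_Int_le_sn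
  have hM : 0 ≤ ∑ j, ⨆ y : closedBall (0 : E) 1, ‖s.loc j φ y‖ :=
    Finset.sum_nonneg fun j _ => Real.iSup_nonneg fun _ => norm_nonneg _
  have key : ∀ N, |s.Int τ φ| ≤ C * (a * (1 / 2) ^ N) *
      ∑ j, ⨆ y : closedBall (0 : E) 1, ‖s.loc j φ y‖ := by
    intro N
    obtain ⟨k1, -⟩ := s.atlasLim_sum hs hc (N + 1)
    have k3 := hI _ _ (t1.sub k1).cont p1.cont
    rw [s.Int_sub_left t1.cont k1.cont p1.cont,
      s.Int_sum_left _ (fun n _ => (hs n).cont) p1.cont,
      Finset.sum_eq_zero fun n _ => (hσ n).zero φ p1 p2, sub_zero] at k3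
    exact k3.trans (mul_le_mul_of_nonneg_right (mul_le_mul_of_nonneg_left (htail N) hC) hM)
  have lim := (((tendsto_pow_atTop_nhds_zero_of_lt_one (r := (1 / 2 : ℝ)) (by norm_num)
    (by norm_num)).const_mul a).const_mul C).mul_const
      (∑ j, ⨆ y : closedBall (0 : E) 1, ‖s.loc j φ y‖)
  have := ge_of_tendsto' lim key
  rw [mul_zero, mul_zero, zero_mul] at this
  exact abs_nonpos_iff.1 this

end SurjAux

variable {X : Type u} [TopologicalSpace X] [T2Space X] [CompactSpace X]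
  [SecondCountableTopology X] [MeasurableSpace X] [BorelSpace X]

theorem p_surj (h_approx : S_approx X) :
    S_surj X := by
  intro s σ₀ b c hσ₀ hT
  choose C hC0 hC using fun j => h_approx s σ₀ b c hσ₀ hT j (j + 6)
  refine ⟨C 0 + 1, by linarith [hC0 0], fun f hf hp hfb hfc => ?_⟩
  rcases (s.sn_nonneg 5 f).eq_or_lt with h0 | ha
  · have := s.eq_zero_of_sn hf h0.symm
    subst this
    exact ⟨0, SurjAux.null_zero s, s.pmF_zero, by simp [sn_zero]⟩
  set a := s.sn 5 f with hadef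
  have hη : ∀ j : ℕ, 0 < a * (1 / 2) ^ (j + 1) / (C (j + 1) + 1) := fun j => by
    have := hC0 (j + 1); positivity
  choose σ h1 h3 h4 using fun j
    (g : {g : Form X // s.Smooth g ∧ s.pmF g = g ∧ s.Int g b = 0 ∧ s.Int g c = 0}) =>
      hC j g g.2.1 g.2.2.1 g.2.2.2.1 g.2.2.2.2 _ (hη j)
  let G : ℕ → {g : Form X // s.Smooth g ∧ s.pmF g = g ∧ s.Int g b = 0 ∧ s.Int g c = 0} :=
    fun n => Nat.rec ⟨f, hf, hp, hfb, hfc⟩
      (fun j g => ⟨g - s.pmF (σ j g), g.2.1.sub (h1 j g).smooth.pmF, by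
        rw [pmF_sub, g.2.2.1, pmF_pmF], by
        rw [s.Int_sub_left g.2.1.cont (h1 j g).smooth.pmF.cont hT.hb.smooth.cont, g.2.2.2.1,
          SurjAux.int_pm s (h1 j g) hT.hb, sub_zero], by
        rw [s.Int_sub_left g.2.1.cont (h1 j g).smooth.pmF.cont hT.hc.smooth.cont, g.2.2.2.2,
          SurjAux.int_pm s (h1 j g) hT.hc, sub_zero]⟩) n
  have hG : ∀ j : ℕ, (G (j + 1)).1 = (G j).1 - s.pmF (σ j (G j)) := fun j => rfl
  have hG0 : (G 0).1 = f := rfl
  have hb : ∀ j, s.sn (j + 6) (G (j + 1)).1 ≤ a * (1 / 2) ^ (j + 1) / (C (j + 1) + 1) :=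
    fun j => h4 j (G j)
  obtain ⟨τ, t1, t3, t4⟩ := SurjAux.null_sum s (σ := fun n => σ n (G n)) (fun n => h1 _ _)
    (a := a) (fun n hn => by
      obtain ⟨j, rfl⟩ := Nat.exists_eq_add_of_le' hn
      refine (h3 _ _).trans ((mul_le_mul_of_nonneg_left (hb j) (hC0 _)).trans ?_)
      have := hC0 (j + 1)
      rw [← mul_div_assoc, div_le_iff₀ (by positivity)]
      have : 0 ≤ a * (1 / 2) ^ (j + 1) := by positivity
      nlinarith)
  refine ⟨τ, t1, funext fun x => ?_, ?_⟩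
  · have e1 := ((t3 x).mapL (pm (s.J x))).tendsto_sum_nat
    have e2 : ∀ n, ∑ j ∈ Finset.range n, pm (s.J x) (σ j (G j) x) = f x - (G n).1 x := by
      intro n
      induction n with
      | zero => simp [hG0]
      | succ n ih => rw [Finset.sum_range_succ, ih, hG]; simp [pmF]; abel
    obtain ⟨K, hK⟩ := Vale.Agent.P204.Setup.SurjAux.pt s x
    have e3 : Filter.Tendsto (fun n : ℕ => (G (n + 1)).1 x) Filter.atTop (𝓝 0) := by
      have l1 : Filter.Tendsto (fun n : ℕ => |K| * (a * (1 / 2) ^ (n + 1))) Filter.atTop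
          (𝓝 0) := by
        have := (((tendsto_pow_atTop_nhds_zero_of_lt_one (r := (1 / 2 : ℝ)) (by norm_num)
          (by norm_num)).comp (Filter.tendsto_add_atTop_nat 1)).const_mul a).const_mul |K|
        simpa using this
      refine squeeze_zero_norm (fun n => (hK _ (G (n + 1)).2.1).trans ?_) l1
      refine mul_le_mul (le_abs_self K) ?_ (s.sn_nonneg _ _) (abs_nonneg K)
      refine (s.sn_mono (Nat.zero_le _) _).trans ((hb n).trans ?_)
      exact div_le_self (by positivity) (by linarith [hC0 (n + 1)])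
    have e4 := (Filter.tendsto_add_atTop_iff_nat (f := fun n => (G n).1 x) 1).1 e3
    simp only [e2] at e1
    have e5 := tendsto_nhds_unique e1 (e4.const_sub (f x))
    simpa [pmF] using e5
  · have := h3 0 (G 0)
    rw [hG0] at this
    simp only [zero_add] at this
    nlinarith

end Vale.Agent.P247
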