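import Vale.Agent.P247.Stm

open scoped ContDiff RealInnerProductSpace Topology Manifold
open MeasureTheory Metric

namespace Vale.Agent.P247

open Vale.Agent.P204 Vale.Agent.P204.Setup

universe u

variable {X : Type u} [TopologicalSpace X] [T2Space X] [CompactSpace X] [ChartedSpace E X]
  [IsManifold 𝓘(ℝ, E) ∞ X] [MeasurableSpace X] [BorelSpace X]

namespace ToWAux

open Filter Mo Mo.InFormAux

omit [T2Space X] [CompactSpace X] [MeasurableSpace X] [BorelSpace X]

theorem fwd {s : Setup X} {J : EndField E X} (h : Adapted s J) {φ : Form X}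
    (hσ : IsClosedForm (ofW φ)) : s.Smooth φ ∧ s.Closed φ := by
  have h0 : ∀ x (u v : E), ofW φ x u v = ev (φ x) u v := fun _ _ _ => rfl
  have hs : ∀ e ∈ atlas E X, ∀ z ∈ e.target, ContDiffAt ℝ ∞ (th φ e) z := by
    intro e he z hz
    refine smooth_of_ev fun u v => ?_
    rw [← coef_eq h0]
    exact (hσ.smooth e he u v).contDiffAt (e.open_target.mem_nhds hz)
  have hc : ∀ e ∈ atlas E X, ∀ z ∈ e.target, ClosedAt (th φ e) z := by
    intro e he z hz u v w
    have h1 := hσ.closed e he z hz u v w
    simpa only [coef_eq h0, fd_ev (hs e he z hz)] using h1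
  have key : ∀ i, ∀ y ∈ ball (0 : E) 10,
      ContDiffAt ℝ ∞ (s.loc i φ) y ∧ ClosedAt (s.loc i φ) y := by
    intro i y hy
    obtain ⟨e, he, A, b, h1, h2, h3⟩ := h.chart i
    have h4 : s.loc i φ =ᶠ[𝓝 y]
        fun y => pull (fderiv ℝ (fun y => A.symm y + b) y) (th φ e (A.symm y + b)) := by
      filter_upwards [isOpen_ball.mem_nhds hy] with y' hy' using (loc_eq h1 h2 h3 φ hy').2
    have h5 := (loc_eq h1 h2 h3 φ hy).1
    have h6 : ContDiffAt ℝ ∞ (fun y => A.symm y + b) y :=
      A.symm.contDiff.contDiffAt.add contDiffAt_const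
    exact ⟨(contDiffAt_pull h6 (hs e he _ h5)).congr_of_eventuallyEq h4,
      closedAt_congr h4 (closedAt_pull h6 (hs e he _ h5) (hc e he _ h5))⟩
  exact ⟨fun i y hy => (key i y hy).1.contDiffWithinAt, fun i y hy => (key i y hy).2⟩

theorem bwd {s : Setup X} {J : EndField E X} (h : Adapted s J) {φ : Form X}
    (hs : s.Smooth φ) (hc : s.Closed φ) : IsClosedForm (ofW φ) := by
  have h0 : ∀ x (u v : E), ofW φ x u v = ev (φ x) u v := fun _ _ _ => rfl
  have key : ∀ e' ∈ atlas E X, ∀ z ∈ e'.target,
      ContDiffAt ℝ ∞ (th φ e') z ∧ ClosedAt (th φ e') z := by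
    intro e' he' z hz
    obtain ⟨i, hx, -⟩ := cover s (e'.symm z)
    obtain ⟨e, he, A, b, h1, h2, h3⟩ := h.chart i
    have h4 : th φ e' =ᶠ[𝓝 z] fun z => pull (fderiv ℝ (fun z => A (e (e'.symm z) - b)) z)
        (s.loc i φ (A (e (e'.symm z) - b))) := by
      filter_upwards [e'.open_target.mem_nhds hz, (e'.continuousAt_symm hz).eventually_mem
        ((s.ψ i).open_source.mem_nhds hx)] with z' h5 h6
      exact (th_eq he h1 h2 h3 φ he' h5 h6).2
    have h5 := (th_eq he h1 h2 h3 φ he' hz hx).1
    have h6 : A (e (e'.symm z) - b) ∈ ball (0 : E) 10 := by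
      rw [← h2 _ hx, ← s.target i]
      exact (s.ψ i).map_source hx
    have h7 := (hs i).contDiffAt (isOpen_ball.mem_nhds h6)
    exact ⟨(contDiffAt_pull h5 h7).congr_of_eventuallyEq h4,
      closedAt_congr h4 (closedAt_pull h5 h7 (hc i _ h6))⟩
  refine ⟨fun x v => ?_, fun e he u v z hz => ?_, fun e he z hz u v w => ?_⟩
  · exact (h0 x v v).trans (Mo.ev_self _ _)
  · rw [coef_eq h0]
    exact (contDiff_ev (key e he z hz).1 contDiffAt_const contDiffAt_const).contDiffWithinAt
  · simp only [coef_eq h0, fd_ev (key e he z hz).1]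
    exact (key e he z hz).2 u v w

omit [IsManifold 𝓘(ℝ, E) ∞ X] in
theorem coef_path (a t : Form X) (r : ℝ) (e : OpenPartialHomeomorph X E) (u v z : E) :
    coef (ofW (a + r • (t - a))) e u v z =
      coef (ofW a) e u v z + r * (coef (ofW t) e u v z - coef (ofW a) e u v z) := by
  have key : ∀ (p q : W) (u v : E), ev (p + r • (q - p)) u v = ev p u v + r * (ev q u v - ev p u v) := by
    intro p q u v
    rw [P204.ev_add, P204.ev_smul, P204.ev_sub]
  exact key _ _ _ _

theorem wd_ev (a b : W) : wd (evC a) (evC b) = wedge a b := by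
  simp [wd, evC_apply, ev, bv, wedge]

end ToWAux

open ToWAux

theorem p_toW :
    S_toW X := by
  refine ⟨fun σ hσ => ?_, fun φ => ?_, fun φ φ' x => wd_ev _ _,
    fun s J h φ => ⟨fwd h, fun h' => bwd h h'.1 h'.2⟩⟩
  · funext x
    ext u v
    exact Mo.ev_mk (ContinuousLinearMap.toLinearMap₁₂ (show E →L[ℝ] E →L[ℝ] ℝ from σ x))
      (hσ.alt x) u v
  · funext x
    exact mk_ev (φ x)

theorem p_path (h_toW : S_toW X) :
    S_path X := by
  refine ⟨fun a t r ha ht => ⟨fun x v => ev_self _ _, fun e he u v => ?_,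
    fun e he z hz u v w => ?_⟩, fun a t f ha ht hf e he u v => ?_, fun μ w x => ?_⟩
  · have : coef (ofW (a + r • (t - a))) e u v = fun z =>
        coef (ofW a) e u v z + r * (coef (ofW t) e u v z - coef (ofW a) e u v z) :=
      funext (coef_path a t r e u v)
    rw [this]
    exact (ha.smooth e he u v).add
      (contDiffOn_const.mul ((ht.smooth e he u v).sub (ha.smooth e he u v)))
  · have key : ∀ u v w, fderiv ℝ (coef (ofW (a + r • (t - a))) e u v) z w =
        fderiv ℝ (coef (ofW a) e u v) z w +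
          r * (fderiv ℝ (coef (ofW t) e u v) z w - fderiv ℝ (coef (ofW a) e u v) z w) := by
      intro u v w
      have h1 := (((ha.smooth e he u v).contDiffAt (e.open_target.mem_nhds hz)).differentiableAt
        (by simp)).hasFDerivAt
      have h2 := (((ht.smooth e he u v).contDiffAt (e.open_target.mem_nhds hz)).differentiableAt
        (by simp)).hasFDerivAt
      have h3 := (h1.add ((h2.sub h1).const_mul r)).fderiv
      have h4 : coef (ofW (a + r • (t - a))) e u v = coef (ofW a) e u v + fun z =>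
          r * (coef (ofW t) e u v - coef (ofW a) e u v) z := funext (coef_path a t r e u v)
      rw [h4, h3]
      simp
    rw [key, key, key]
    have h1 := ha.closed e he z hz u v w
    have h2 := ht.closed e he z hz u v w
    linear_combination (1 - r) * h1 + r * h2
  · simp only [coef_path]
    have h1 : ContDiffOn ℝ ∞ (fun p : ℝ × E => coef (ofW a) e u v p.2) (Set.univ ×ˢ e.target) :=
      (ha.smooth e he u v).comp contDiffOn_snd fun p hp => hp.2
    have h2 : ContDiffOn ℝ ∞ (fun p : ℝ × E => coef (ofW t) e u v p.2) (Set.univ ×ˢ e.target) :=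
      (ht.smooth e he u v).comp contDiffOn_snd fun p hp => hp.2
    exact h1.add ((hf.comp contDiff_fst).contDiffOn.mul (h2.sub h1))
  · have key : ∀ r : Fin 3 → ℝ, ∑ i, ∑ j, r i * r j * quo μ (ofW (w i)) (ofW (w j)) x =
        wedge (r 0 • w 0 x + r 1 • w 1 x + r 2 • w 2 x) (r 0 • w 0 x + r 1 • w 1 x + r 2 • w 2 x) /
          μ x bv := by
      intro r
      simp only [quo, h_toW.2.2.1, Fin.sum_univ_three, wedge_add_left, wedge_add_right,
        wedge_smul_left, wedge_smul_right]
      ring
    simp only [key]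
    constructor
    · intro h p q r hr
      refine h ![p, q, r] fun e => ?_
      have e0 : p = 0 := congrFun e 0
      have e1 : q = 0 := congrFun e 1
      have e2 : r = 0 := congrFun e 2
      tauto
    · intro h r hr
      refine h _ _ _ ?_
      by_contra h'
      simp only [not_or, not_not] at h'
      refine hr (funext fun i => ?_)
      fin_cases i
      exacts [h'.1, h'.2.1, h'.2.2]

end Vale.Agent.P247
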