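import Vale.Agent.P247.Stm

open scoped ContDiff RealInnerProductSpace Topology Manifold
open MeasureTheory Metric

namespace Vale.Agent.P247

open Vale.Agent.P204 Vale.Agent.P204.Setup

universe u

namespace TraceAux

theorem wedge_om : wedge om0 om0 = 2 := by
  simp [wedge, om0]
  norm_num

theorem pull_om : pull J0 om0 = om0 :=
  ext_ev fun u v => by rw [ev_pull, ev_om0, ev_om0, inner_J0_J0]

theorem ev_f {J : E →L[ℝ] E} (hJ : Near J) (v : E) :
    ev (pull (Aop J) om0) v (J v) = ‖Aop J v‖ ^ 2 := by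
  rw [ev_pull, Aop_J hJ.1, ev_om0, inner_J0_J0, real_inner_self_eq_norm_sq]

end TraceAux

open TraceAux

theorem p_det :
    S_det := by
  intro L δ h1 h2
  have h0 : 0 ≤ δ := (norm_nonneg _).trans h1
  have hi : ‖ContinuousLinearMap.id ℝ E‖ ≤ 1 := ContinuousLinearMap.norm_id_le
  have hL : ‖L‖ ≤ 11 / 10 := by
    have := norm_add_le (L - ContinuousLinearMap.id ℝ E) (ContinuousLinearMap.id ℝ E)
    rw [sub_add_cancel] at this
    linarith
  have hp : ‖pull L - pull (ContinuousLinearMap.id ℝ E)‖ ≤ 7 * δ :=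
    (norm_pull_sub_le _ _).trans (mul_le_mul (by linarith) h1 (norm_nonneg _) (by norm_num))
  have h3 : ∀ a : W, ‖pull L a - a‖ ≤ 7 * δ * ‖a‖ := fun a => by
    have := (pull L - pull (ContinuousLinearMap.id ℝ E)).le_of_opNorm_le hp a
    rwa [pull_id] at this
  have ho := norm_om0_le
  have h4 : ‖pull L om0 - om0‖ ≤ 14 * δ := (h3 om0).trans (by nlinarith)
  refine ⟨?_, ?_, h3⟩
  · have e : 2 * (L.det - 1) = wedge (pull L om0 - om0) (pull L om0 - om0 + (2 : ℝ) • om0) := by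
      rw [wedge_add_right, wedge_smul_right, wedge_sub_left, wedge_sub_left, wedge_sub_right,
        wedge_sub_right, wedge_pull, wedge_om, wedge_comm om0 (pull L om0)]
      ring
    have h5 : ‖pull L om0 - om0 + (2 : ℝ) • om0‖ ≤ 27 / 5 := by
      refine (norm_add_le _ _).trans ?_
      rw [norm_smul, Real.norm_two]
      linarith
    have h6 := (abs_wedge_le _ _).trans (mul_le_mul h4 h5 (norm_nonneg _) (by positivity))
    rw [← e, abs_mul, abs_two] at h6
    linarith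
  · have e : ev om0 (eb 0) (eb 1) = 1 := by simp [ev, om0, eb]
    have h5 := abs_ev_le (pull L om0 - om0) (eb 0) (eb 1)
    rw [ev_sub, e, norm_eb, norm_eb] at h5
    linarith

theorem p_trace (h_det : S_det) :
    S_trace := by
  intro J hJ
  have hd := (abs_le.1 (h_det (Aop J) (1 / 100) hJ.norm_Aop_sub (by norm_num)).1).1
  have hA : ‖pull (Aop J)‖ ≤ 4 := (norm_pull_le _).trans (by
    have := pow_le_pow_left₀ (norm_nonneg _) hJ.norm_Aop_le 2
    linarith)
  refine ⟨⟨?_, fun v => by rw [ev_f hJ]; positivity⟩, ?_, ?_, fun a ha => ?_⟩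
  · rw [← Alg2Aux.pull_comm (Aop_J hJ.1), pull_om]
  · rw [wedge_pull, wedge_om]
    linarith
  · have := (pull (Aop J)).le_of_opNorm_le hA om0
    linarith [norm_om0_le]
  · obtain ⟨B, hB, hB'⟩ := hJ.exists_Aop_inv
    have hc : ∀ v, B (J0 v) = J (B v) := fun v => by
      conv_lhs => rw [← hB' v, ← Aop_J hJ.1, hB]
    have h1 : pull J0 (pull B a) = pull B a := by rw [← Alg2Aux.pull_comm hc, ha.1]
    have h2 : ∀ v, 0 ≤ ev (pull B a) v (J0 v) := fun v => by
      rw [ev_pull, hc]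
      exact ha.2 _
    obtain ⟨p0, p5, p1⟩ := Alg3Aux.pos_coef h1 h2
    obtain ⟨q4, q3⟩ := Alg3Aux.inv_coef h1
    have e := Alg3Aux.pull_inv hB a
    have h3 : ‖pull B a‖ ≤ pull B a 0 + pull B a 5 := by
      refine abs_le_of_sq_le_sq' ?_ (add_nonneg p0 p5) |>.2
      rw [Alg1Aux.normW, q4, q3]
      nlinarith
    have h4 : wedge (pull B a) om0 = pull B a 0 + pull B a 5 := by simp [wedge, om0]
    have h5 := (pull (Aop J)).le_of_opNorm_le hA (pull B a)
    have h6 := wedge_pull (Aop J) (pull B a) om0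
    rw [e] at h5 h6
    rw [h6, h4]
    nlinarith [add_nonneg p0 p5]

theorem p_fqF (h_trace : S_trace) :
    S_fqF := by
  intro J F c₀ p hJ hc hF
  obtain ⟨⟨f1, -⟩, -, -, f4⟩ := h_trace J hJ
  set th := w11 p (-(p ∘L J)) with hth
  have e1 : ∀ b, ev th b (J b) = p b ^ 2 + p (J b) ^ 2 := fun b => by
    simp [hth, ev_w11, hJ.1]
    ring
  have e2 : pull J th = th := ext_ev fun u v => by
    simp [hth, ev_pull, ev_w11, hJ.1]
    ring
  have e3 : ∀ b, 0 ≤ ev th b (J b) := fun b => by rw [e1]; positivity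
  have g1 : pull J (pp J F - (c₀ / 2) • pull (Aop J) om0) =
      pp J F - (c₀ / 2) • pull (Aop J) om0 := by rw [map_sub, map_smul, f1, pull_pp hJ.1]
  have g2 : ∀ v, 0 ≤ ev (pp J F - (c₀ / 2) • pull (Aop J) om0) v (J v) := fun v => by
    rw [ev_sub, ev_smul, ev_pp_J hJ.1, ev_f hJ]
    have a1 := pow_le_pow_left₀ (norm_nonneg _) ((Aop J).le_of_opNorm_le hJ.norm_Aop_le v) 2
    have a2 : ‖Aop J v‖ ^ 2 ≤ 2 * ‖v‖ ^ 2 := by nlinarith [sq_nonneg ‖v‖]
    nlinarith [hF v]
  have g3 := hJ.wedge_pos_pos e2 g1 e3 g2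
  have g4 : wedge th F = wedge th (pp J F) := by
    rw [hJ.wedge_split, pm_of_inv e2, pp_of_inv e2, wedge_zero_left, add_zero]
  rw [wedge_sub_right, wedge_smul_right, ← g4] at g3
  have g5 := f4 th ⟨e2, e3⟩
  have g6 : ‖p‖ ≤ Real.sqrt (2 * ‖th‖) := by
    refine p.opNorm_le_bound (Real.sqrt_nonneg _) fun b => ?_
    refine (abs_le_of_sq_le_sq' ?_ (by positivity)).2
    have a1 := (le_abs_self _).trans (abs_ev_le th b (J b))
    have a2 : ‖J b‖ ≤ 2 * ‖b‖ := (J.le_of_opNorm_le hJ.norm_le b).trans (by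
      linarith [norm_nonneg b])
    have a3 := mul_le_mul_of_nonneg_left a2 (mul_nonneg (norm_nonneg th) (norm_nonneg b))
    rw [mul_pow, Real.sq_sqrt (by positivity), Real.norm_eq_abs, sq_abs]
    rw [e1] at a1
    nlinarith [sq_nonneg (p (J b))]
  have g7 : ‖p‖ ^ 2 ≤ 2 * ‖th‖ := by
    rw [← Real.sq_sqrt (x := 2 * ‖th‖) (by positivity)]
    exact pow_le_pow_left₀ (norm_nonneg _) g6 2
  nlinarith [mul_le_mul_of_nonneg_left g7 hc, mul_le_mul_of_nonneg_left g5 hc,
    mul_nonneg hc (norm_nonneg th)]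

end Vale.Agent.P247
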