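import Vale.Agent.P247.Stm

open scoped ContDiff RealInnerProductSpace Topology Manifold
open MeasureTheory Metric

namespace Vale.Agent.P247

open Vale.Agent.P204 Vale.Agent.P204.Setup

universe u

namespace UniqAux

theorem anti_coef {a : W} (h : pull J0 a = -a) :
    a 0 = 0 ∧ a 5 = 0 ∧ a 4 = -a 1 ∧ a 3 = a 2 := by
  have e : ∀ u v, ev a (J0 u) (J0 v) = -ev a u v := fun u v => by rw [← ev_pull, h, ev_neg]
  have h1 := e (eb 0) (eb 1)
  have h2 := e (eb 0) (eb 2)
  have h3 := e (eb 0) (eb 3)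
  have h4 := e (eb 2) (eb 3)
  simp [ev, eb, J0] at h1 h2 h3 h4
  exact ⟨by linarith, by linarith, by linarith, by linarith⟩

theorem key0 {b c : W} (hb : pull J0 b = -b) (hc : pull J0 c = -c) (h : wedge b b ≠ 0) :
    ∃ p s : ℝ, (∀ u v, ev c u v = p * ev b u v + s * ev b (J0 u) v) ∧
      wedge b c = p * wedge b b ∧ wedge c c = (p ^ 2 + s ^ 2) * wedge b b := by
  obtain ⟨b0, b5, b4, b3⟩ := anti_coef hb
  obtain ⟨c0, c5, c4, c3⟩ := anti_coef hc
  have hn : b 1 ^ 2 + b 2 ^ 2 ≠ 0 := fun hn => h (by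
    simp only [wedge, b0, b5, b4, b3]; linarith)
  refine ⟨(b 1 * c 1 + b 2 * c 2) / (b 1 ^ 2 + b 2 ^ 2),
    (c 1 * b 2 - c 2 * b 1) / (b 1 ^ 2 + b 2 ^ 2), fun u v => ?_, ?_, ?_⟩
  · simp only [ev, Alg3Aux.J0_0, Alg3Aux.J0_1, Alg3Aux.J0_2, Alg3Aux.J0_3, b0, b5, b4, b3, c0, c5,
      c4, c3]
    field_simp
    ring
  · simp only [wedge, b0, b5, b4, b3, c0, c5, c4, c3]
    field_simp
    ring
  · simp only [wedge, b0, b5, b4, b3, c0, c5, c4, c3]
    field_simp
    ring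

theorem key {J : E →L[ℝ] E} {b c : W} (hJ : ∀ v, J (J v) = -v) (hb : pull J b = -b)
    (hc : pull J c = -c) (h : wedge b b ≠ 0) :
    ∃ p s : ℝ, (∀ u v, ev c u v = p * ev b u v + s * ev b (J u) v) ∧
      wedge b c = p * wedge b b ∧ wedge c c = (p ^ 2 + s ^ 2) * wedge b b := by
  obtain ⟨L, hL⟩ := Mo.exists_conj hJ
  have hL' : ∀ v, (L.symm : E →L[ℝ] E) (J0 v) = J ((L.symm : E →L[ℝ] E) v) := fun v => by
    apply L.injective
    simp [hL]
  have an : ∀ a : W, pull J a = -a →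
      pull J0 (pull (L.symm : E →L[ℝ] E) a) = -pull (L.symm : E →L[ℝ] E) a := fun a ha => by
    rw [← Alg2Aux.pull_comm hL', ha, map_neg]
  have bk : ∀ a : W, pull (L : E →L[ℝ] E) (pull (L.symm : E →L[ℝ] E) a) = a :=
    Alg3Aux.pull_inv fun v => by simp
  have wd : ∀ a a' : W, wedge a a' = (L : E →L[ℝ] E).det *
      wedge (pull (L.symm : E →L[ℝ] E) a) (pull (L.symm : E →L[ℝ] E) a') := fun a a' => by
    rw [← wedge_pull, bk, bk]
  have e : ∀ (a : W) u v, ev a u v = ev (pull (L.symm : E →L[ℝ] E) a) (L u) (L v) :=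
    fun a u v => by simp [ev_pull]
  obtain ⟨p, s, h1, h2, h3⟩ := key0 (an b hb) (an c hc) fun h0 => h (by rw [wd, h0, mul_zero])
  refine ⟨p, s, fun u v => ?_, ?_, ?_⟩
  · rw [e c, h1, e b u v, e b (J u) v, hL]
  · rw [wd b c, wd b b, h2]; ring
  · rw [wd c c, wd b b, h3]; ring

end UniqAux

theorem p_uniq (h_ab : S_ab) :
    S_uniq := by
  intro m J J' a b c hd hJ hJ'
  have hb : wedge b b ≠ 0 := fun h => by
    have := hd 0 1 0 (by simp)
    simp [h] at this
  obtain ⟨p, s, h1, h2, h3⟩ := UniqAux.key hJ.1 hJ.2.1 hJ.2.2.1 hb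
  obtain ⟨p', s', h1', h2', h3'⟩ := UniqAux.key hJ'.1 hJ'.2.1 hJ'.2.2.1 hb
  obtain rfl : p = p' := mul_right_cancel₀ hb (h2.symm.trans h2')
  have hss : s ^ 2 = s' ^ 2 := add_left_cancel (mul_right_cancel₀ hb (h3.symm.trans h3'))
  have hs : s ≠ 0 := fun h => by
    have := hd 0 (-p) 1 (by simp)
    rw [zero_smul, zero_add, one_smul, wedge_add_left, wedge_add_right, wedge_add_right,
      wedge_smul_left, wedge_smul_left, wedge_smul_right, wedge_smul_right, wedge_comm c b, h2, h3,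
      h] at this
    have e : -p * (-p * wedge b b) + -p * (p * wedge b b) +
      (-p * (p * wedge b b) + (p ^ 2 + 0 ^ 2) * wedge b b) = 0 := by ring
    rw [e, zero_div] at this
    exact lt_irrefl _ this
  have hk : ∀ u, s • J u = s' • J' u := fun u => by
    rw [← sub_eq_zero]
    refine (h_ab b c hb).2.2.1 _ fun v => ?_
    rw [sub_eq_add_neg, ev_add_left, ev_neg_left, ev_smul_left, ev_smul_left]
    linarith [h1 u v, h1' u v]
  rcases sq_eq_sq_iff_eq_or_eq_neg.1 hss with h | h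
  · ext1 u
    have := hk u
    rw [← h] at this
    exact smul_right_injective E hs this
  · exfalso
    have hv : eb 0 ≠ 0 := by simp [eb]
    have := hk (eb 0)
    rw [show s' = -s by rw [h, neg_neg], neg_smul, ← smul_neg] at this
    have h4 := hJ.2.2.2 _ hv
    rw [smul_right_injective E hs this, ev_neg_right] at h4
    linarith [hJ'.2.2.2 _ hv]

end Vale.Agent.P247
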