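import Vale.Agent.P247.Stm

open scoped ContDiff RealInnerProductSpace Topology Manifold
open MeasureTheory Metric

namespace Vale.Agent.P247

open Vale.Agent.P204 Vale.Agent.P204.Setup

universe u

namespace WeakAux

theorem riesz {V H : Type} [AddCommGroup V] [Module ℝ V] [NormedAddCommGroup H]
    [InnerProductSpace ℝ H] [CompleteSpace H] (ι : V →ₗ[ℝ] H) (f : V →ₗ[ℝ] ℝ) (A : ℝ)
    (h : ∀ x, |f x| ≤ A * ‖ι x‖) : ∃ v : H, ∀ x, f x = ⟪v, ι x⟫ := by
  have hk : LinearMap.ker ι ≤ LinearMap.ker f := fun x hx => by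
    have := h x
    rw [LinearMap.mem_ker.1 hx, norm_zero, mul_zero] at this
    exact abs_nonpos_iff.1 this
  let g : LinearMap.range ι →ₗ[ℝ] ℝ :=
    ((LinearMap.ker ι).liftQ f hk).comp ι.quotKerEquivRange.symm.toLinearMap
  have hg : ∀ x, g ⟨ι x, LinearMap.mem_range_self ι x⟩ = f x := fun x => by
    show (LinearMap.ker ι).liftQ f hk (ι.quotKerEquivRange.symm _) = _
    rw [LinearMap.quotKerEquivRange_symm_apply_image]
    rfl
  have hb : ∀ y, ‖g y‖ ≤ A * ‖y‖ := by
    rintro ⟨_, x, rfl⟩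
    exact (congrArg norm (hg x)).trans_le (h x)
  obtain ⟨G, hG, -⟩ := exists_extension_norm_eq (LinearMap.range ι) (g.mkContinuous A hb)
  refine ⟨(InnerProductSpace.toDual ℝ H).symm G, fun x => ?_⟩
  rw [InnerProductSpace.toDual_symm_apply, ← hg]
  exact (hG ⟨ι x, LinearMap.mem_range_self ι x⟩).symm

/-- The space of test forms. -/
def TS : Submodule ℝ (E → W) where
  carrier := {θ | Test 2 θ}
  add_mem' := Test.add
  zero_mem' := Test.zero 2
  smul_mem' t _ h := Test.smul h t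

theorem mem (θ : TS) : MemLp θ.1 2 (volume : Measure E) :=
  (Test.ctest θ.2).1.memLp_of_hasCompactSupport (Test.ctest θ.2).hasCompactSupport

/-- The map to the space of square integrable forms. -/
noncomputable def io : TS →ₗ[ℝ] Lp W 2 (volume : Measure E) where
  toFun θ := (mem θ).toLp θ.1
  map_add' a b := MemLp.toLp_add (mem a) (mem b)
  map_smul' t a := MemLp.toLp_const_smul t (mem a)

theorem io_ae (θ : TS) : io θ =ᵐ[volume] θ.1 := (mem θ).coeFn_toLp

theorem norm_io (θ : TS) : ‖io θ‖ = nL2 θ.1 := by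
  rw [nL2, norm_eq_sqrt_real_inner, L2.inner_def]
  refine congrArg _ (integral_congr_ae ?_)
  filter_upwards [io_ae θ] with y hy
  rw [hy, real_inner_self_eq_norm_sq]

end WeakAux

open WeakAux in
theorem p_weak :
    S_weak := by
  intro L A h η hη
  obtain ⟨v, hv⟩ := riesz io (L.comp TS.subtype) A fun x => by
    rw [norm_io]
    exact h x.1 x.2
  obtain ⟨g, h1, h2⟩ := (Lp.memLp v).exists_boundedContinuous_eLpNorm_sub_le
    (by norm_num) (ε := ENNReal.ofReal η) (by simpa using hη)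
  have h3 : ‖v - h2.toLp g‖ ≤ η := by
    rw [Lp.norm_def]
    refine ENNReal.toReal_le_of_le_ofReal hη.le (le_trans (le_of_eq (eLpNorm_congr_ae ?_)) h1)
    filter_upwards [Lp.coeFn_sub v (h2.toLp g), h2.coeFn_toLp] with y a b
    rw [a, Pi.sub_apply, Pi.sub_apply, b]
  refine ⟨‖g‖, norm_nonneg _, fun θ hθ => ?_⟩
  have e : L θ = ⟪v - h2.toLp g, io ⟨θ, hθ⟩⟫ + ⟪h2.toLp g, io ⟨θ, hθ⟩⟫ := by
    rw [← inner_add_left, sub_add_cancel]
    exact hv ⟨θ, hθ⟩
  rw [e]
  refine (abs_add_le _ _).trans (add_le_add ?_ ?_)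
  · refine (abs_real_inner_le_norm _ _).trans ?_
    rw [norm_io]
    exact mul_le_mul_of_nonneg_right h3 (Real.sqrt_nonneg _)
  · rw [L2.inner_def, ← integral_const_mul]
    rw [← Real.norm_eq_abs]
    refine norm_integral_le_of_norm_le ((hθ.ctest.norm.integrable volume).const_mul _) ?_
    filter_upwards [io_ae ⟨θ, hθ⟩, h2.coeFn_toLp] with y a b
    rw [a, b]
    exact (norm_inner_le_norm _ _).trans
      (mul_le_mul_of_nonneg_right (g.norm_coe_le_norm y) (norm_nonneg _))

end Vale.Agent.P247
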