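import Vale.Agent.P247.AL2
import Vale.Agent.P247.Ab
import Vale.Agent.P247.Acs
import Vale.Agent.P247.Approx
import Vale.Agent.P247.Br
import Vale.Agent.P247.Br1
import Vale.Agent.P247.Cone
import Vale.Agent.P247.Cross
import Vale.Agent.P247.DomT
import Vale.Agent.P247.Elm
import Vale.Agent.P247.EnBd
import Vale.Agent.P247.ExT
import Vale.Agent.P247.ExT1
import Vale.Agent.P247.GamA
import Vale.Agent.P247.GamT
import Vale.Agent.P247.Hi
import Vale.Agent.P247.Jt
import Vale.Agent.P247.KCur
import Vale.Agent.P247.KerLor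
import Vale.Agent.P247.Kill
import Vale.Agent.P247.KregLor
import Vale.Agent.P247.KregSq
import Vale.Agent.P247.L1
import Vale.Agent.P247.Lim
import Vale.Agent.P247.Lor
import Vale.Agent.P247.MSub
import Vale.Agent.P247.Norm
import Vale.Agent.P247.Phi
import Vale.Agent.P247.Pol
import Vale.Agent.P247.PullLor
import Vale.Agent.P247.RegL
import Vale.Agent.P247.Restr
import Vale.Agent.P247.Rho
import Vale.Agent.P247.SelfT
import Vale.Agent.P247.Sign
import Vale.Agent.P247.StepB
import Vale.Agent.P247.Surj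
import Vale.Agent.P247.ToW
import Vale.Agent.P247.Trace
import Vale.Agent.P247.Uniq
import Vale.Agent.P247.Weak
import Vale.Agent.P247.Main
import Vale.Agent.P247.StepM
import Vale.Agent.P247.Final

/-! P247: assembly. -/

open scoped ContDiff Manifold

namespace Vale.Agent.P247

open Vale.Agent.P204

universe u

theorem q_trace : S_trace := p_trace p_det

theorem q_kerLor : S_kerLor :=
  p_kerLor p_lor2 (p_cone p_lor1 q_trace) (p_pullLor p_lor1 q_trace p_det)

theorem q_lorPt : S_lorPt := p_lorPt p_lor1 p_lor2 q_trace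

theorem q_kregSq : S_kregSq := p_kregSq (p_kregLor q_kerLor) q_lorPt

theorem q_elm : S_elm := p_elm (p_gamA p_weak) p_gamT (p_fqF q_trace)

theorem q_jt : S_jt := p_jt (p_jb p_ab) p_sign

section atlas

variable {X : Type u} [TopologicalSpace X] [T2Space X] [CompactSpace X]
  [SecondCountableTopology X] [MeasurableSpace X] [BorelSpace X]

theorem q_phi : S_phi X := p_phi p_rhoLoc p_lor2

theorem q_surj : S_surj X := p_surj (p_approx (p_reg p_step' (p_enbd p_msub)) p_norm)

theorem q_aL2 : S_aL2 X := p_aL2 p_step' (p_enbd p_msub) p_domT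

theorem q_main : S_main X :=
  p_main (p_exT q_surj (p_exT1 q_phi) p_norm q_phi) q_aL2 p_kbd p_kcur
    (p_pol q_elm p_kill (p_restr q_phi p_rhoLoc))
    (p_lim (p_selfT q_kregSq (p_phiGlob p_rhoLoc) p_rhoLoc) p_cross p_msub) p_quad
    (p_hi1 p_hi0) q_phi

end atlas

variable {X : Type u} [TopologicalSpace X] [T2Space X] [CompactSpace X] [ChartedSpace E X]
  [IsManifold 𝓘(ℝ, E) ∞ X] [MeasurableSpace X] [BorelSpace X]

theorem q_acs : S_acs X := p_acs q_jt (p_uniq p_ab)

theorem q_final : S_final X := by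
  have : SecondCountableTopology X := ChartedSpace.secondCountable_of_sigmaCompact E X
  exact p_final (p_stepM q_acs p_toW (p_br p_br1 p_rhoLoc) p_hi0 q_main (p_l1 p_rhoLoc) p_pd
    p_rhoLoc) (p_path p_toW) p_toW

end Vale.Agent.P247
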